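import Vale.Agent.P225.Interfaces2

/-! P225 module F: auxiliary facts about coordinate metrics and polynomial functions. -/

open scoped BigOperators ContDiff
open Filter Topology MeasureTheory

namespace Vale.Agent.P225

variable {n : ℕ}

theorem rad_sq (x : Pt n) : rad x ^ 2 = ∑ i, x i ^ 2 :=
  Real.sq_sqrt (Finset.sum_nonneg fun i _ => sq_nonneg (x i))

theorem rad_pos {x : Pt n} (hx : x ≠ 0) : 0 < rad x := by
  refine Real.sqrt_pos.mpr (lt_of_le_of_ne (Finset.sum_nonneg fun i _ => sq_nonneg (x i)) ?_)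
  intro h
  refine hx (funext fun i => ?_)
  have := (Finset.sum_eq_zero_iff_of_nonneg fun i _ => sq_nonneg (x i)).mp h.symm i (Finset.mem_univ i)
  exact pow_eq_zero_iff (n := 2) two_ne_zero |>.mp this

theorem rad_nonneg (x : Pt n) : 0 ≤ rad x := Real.sqrt_nonneg _

theorem rad_zero : rad (0 : Pt n) = 0 := by simp [rad]

theorem abs_le_rad (x : Pt n) (i : Fin n) : |x i| ≤ rad x :=
  Real.abs_le_sqrt (Finset.single_le_sum (fun k _ => sq_nonneg (x k)) (Finset.mem_univ i))

theorem norm_sq_le_sum (w : Pt n) : ‖w‖ ^ 2 ≤ ∑ i, w i ^ 2 := by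
  rw [← rad_sq]
  refine pow_le_pow_left₀ (norm_nonneg _) ((pi_norm_le_iff_of_nonneg (rad_nonneg w)).mpr ?_) 2
  intro i; rw [Real.norm_eq_abs]; exact abs_le_rad w i

theorem sum_le_norm_sq (w : Pt n) : ∑ i, w i ^ 2 ≤ n * ‖w‖ ^ 2 := by
  calc ∑ i, w i ^ 2 ≤ ∑ _i : Fin n, ‖w‖ ^ 2 := Finset.sum_le_sum fun i _ => by
        rw [← sq_abs, ← Real.norm_eq_abs]
        exact pow_le_pow_left₀ (norm_nonneg _) (norm_le_pi_norm w i) 2
    _ = n * ‖w‖ ^ 2 := by simp

theorem rad_le_norm (x : Pt n) : rad x ≤ Real.sqrt n * ‖x‖ := by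
  rw [rad]
  refine (Real.sqrt_le_sqrt (sum_le_norm_sq x)).trans ?_
  rw [Real.sqrt_mul (Nat.cast_nonneg n), Real.sqrt_sq (norm_nonneg x)]

theorem continuous_rad : Continuous (rad : Pt n → ℝ) := by unfold rad; fun_prop

/-! ### distance comparison -/

/-- the quadratic form of `g` lies between two multiples of the squared norm -/
def Pinched (g : Pt n → Matrix (Fin n) (Fin n) ℝ) (m M : ℝ) : Prop :=
  ∀ x w : Pt n, m * ‖w‖ ^ 2 ≤ ∑ i, ∑ j, g x i j * w i * w j ∧
    ∑ i, ∑ j, g x i j * w i * w j ≤ M * ‖w‖ ^ 2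

variable {g : Pt n → Matrix (Fin n) (Fin n) ℝ} {m M : ℝ}

theorem curveLength_lower (hg : ∀ i j, Continuous fun x => g x i j) (h : Pinched g m M)
    {γ : ℝ → Pt n} (hγ : ContDiff ℝ 1 γ) :
    Real.sqrt m * ‖γ 1 - γ 0‖ ≤ curveLength g γ := by
  have hd : Continuous (deriv γ) := hγ.continuous_deriv le_rfl
  have hc : Continuous fun t =>
      Real.sqrt (∑ i, ∑ j, g (γ t) i j * deriv γ t i * deriv γ t j) := by
    refine Real.continuous_sqrt.comp (continuous_finsetSum _ fun i _ =>
      continuous_finsetSum _ fun j _ => ?_)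
    exact (((hg i j).comp hγ.continuous).mul ((continuous_apply i).comp hd)).mul
      ((continuous_apply j).comp hd)
  have hftc : ∫ t in (0:ℝ)..1, deriv γ t = γ 1 - γ 0 :=
    intervalIntegral.integral_deriv_eq_sub (fun t _ => (hγ.differentiable one_ne_zero) t)
      (hd.intervalIntegrable _ _)
  calc Real.sqrt m * ‖γ 1 - γ 0‖ ≤ Real.sqrt m * ∫ t in (0:ℝ)..1, ‖deriv γ t‖ := by
        refine mul_le_mul_of_nonneg_left ?_ (Real.sqrt_nonneg _)
        rw [← hftc]
        exact intervalIntegral.norm_integral_le_integral_norm zero_le_one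
    _ = ∫ t in (0:ℝ)..1, Real.sqrt m * ‖deriv γ t‖ := (intervalIntegral.integral_const_mul _ _).symm
    _ ≤ _ := by
        refine intervalIntegral.integral_mono_on zero_le_one
          ((continuous_const.mul hd.norm).intervalIntegrable _ _) (hc.intervalIntegrable _ _)
          fun t _ => ?_
        refine le_of_eq_of_le ?_ (Real.sqrt_le_sqrt (h (γ t) (deriv γ t)).1)
        rw [Real.sqrt_mul' _ (sq_nonneg _), Real.sqrt_sq (norm_nonneg _)]

theorem curveLength_line (h : Pinched g m M) (hg : ∀ i j, Continuous fun x => g x i j)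
    (x y : Pt n) : curveLength g (fun t => x + t • (y - x)) ≤ Real.sqrt M * ‖y - x‖ := by
  have hd : ∀ t : ℝ, deriv (fun t : ℝ => x + t • (y - x)) t = y - x := fun t => by
    simpa using (((hasDerivAt_id t).smul_const (y - x)).const_add x).deriv
  have hc : Continuous fun t : ℝ => Real.sqrt (∑ i, ∑ j, g (x + t • (y - x)) i j *
      (y - x) i * (y - x) j) := by
    refine Real.continuous_sqrt.comp (continuous_finsetSum _ fun i _ =>
      continuous_finsetSum _ fun j _ => ?_)
    exact (((hg i j).comp (by fun_prop)).mul continuous_const).mul continuous_const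
  unfold curveLength
  simp only [hd]
  calc _ ≤ ∫ _t in (0:ℝ)..1, Real.sqrt M * ‖y - x‖ := by
        refine intervalIntegral.integral_mono_on zero_le_one (hc.intervalIntegrable _ _)
          intervalIntegrable_const fun t _ => ?_
        refine (Real.sqrt_le_sqrt (h (x + t • (y - x)) (y - x)).2).trans_eq ?_
        rw [Real.sqrt_mul' _ (sq_nonneg _), Real.sqrt_sq (norm_nonneg _)]
    _ = _ := by simp

theorem gdist_bounds (hg : ∀ i j, Continuous fun x => g x i j) (h : Pinched g m M) (x y : Pt n) :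
    Real.sqrt m * ‖y - x‖ ≤ gdist g x y ∧ gdist g x y ≤ Real.sqrt M * ‖y - x‖ := by
  have hmem : curveLength g (fun t : ℝ => x + t • (y - x)) ∈
      {l : ℝ | ∃ γ : ℝ → Pt n, ContDiff ℝ 1 γ ∧ γ 0 = x ∧ γ 1 = y ∧ l = curveLength g γ} :=
    ⟨_, by fun_prop, by simp, by simp, rfl⟩
  refine ⟨le_csInf ⟨_, hmem⟩ ?_, (csInf_le ⟨Real.sqrt m * ‖y - x‖, ?_⟩ hmem).trans
    (curveLength_line h hg x y)⟩
  · rintro l ⟨γ, hγ, h0, h1, rfl⟩
    rw [← h0, ← h1]; exact curveLength_lower hg h hγ
  · rintro l ⟨γ, hγ, h0, h1, rfl⟩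
    rw [← h0, ← h1]; exact curveLength_lower hg h hγ

theorem isCompleteMetric_of_pinched (hg : ∀ i j, Continuous fun x => g x i j) (h : Pinched g m M)
    (hm : 0 < m) : IsCompleteMetric g := by
  intro s hs
  have hsm : 0 < Real.sqrt m := Real.sqrt_pos.mpr hm
  have hc : CauchySeq s := Metric.cauchySeq_iff.mpr fun ε hε => by
    obtain ⟨K, hK⟩ := hs (Real.sqrt m * ε) (by positivity)
    refine ⟨K, fun a ha b hb => ?_⟩
    have h1 := ((gdist_bounds hg h (s a) (s b)).1).trans_lt (hK a ha b hb)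
    rw [dist_comm, dist_eq_norm]
    exact lt_of_mul_lt_mul_left h1 hsm.le
  obtain ⟨x, hx⟩ := cauchySeq_tendsto_of_complete hc
  refine ⟨x, squeeze_zero (fun a => le_trans (by positivity) (gdist_bounds hg h (s a) x).1)
    (fun a => (gdist_bounds hg h (s a) x).2) ?_⟩
  have : Tendsto (fun a => Real.sqrt M * ‖x - s a‖) atTop (𝓝 (Real.sqrt M * ‖x - x‖)) :=
    ((tendsto_const_nhds.sub hx).norm).const_mul _
  simpa using this

/-! ### coordinate derivatives -/

theorem pd_congr {f f' : Pt n → ℝ} {x : Pt n} (i : Fin n) (h : f =ᶠ[𝓝 x] f') :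
    pd i f =ᶠ[𝓝 x] pd i f' :=
  (h.fderiv (𝕜 := ℝ)).mono fun y hy => by simp only [pd, hy]

theorem laplacian_congr {f f' : Pt n → ℝ} {x : Pt n} (h : f =ᶠ[𝓝 x] f') :
    laplacian g f x = laplacian g f' x := by
  simp only [laplacian, (pd_congr _ h).eq_of_nhds,
    fun i j => (pd_congr i (pd_congr j h)).eq_of_nhds]

theorem pd_const (i : Fin n) (c : ℝ) (x : Pt n) : pd i (fun _ => c) x = 0 := by simp [pd]

theorem christoffel_flat {x : Pt n} (h : ∀ᶠ y in 𝓝 x, g y = 1) (k i j : Fin n) :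
    christoffel g k i j =ᶠ[𝓝 x] fun _ => 0 := by
  refine (eventually_eventually_nhds.mpr h).mono fun y hy => ?_
  have e : ∀ a b c : Fin n, pd a (fun z => g z b c) y = 0 := fun a b c => by
    rw [(pd_congr a (f' := fun _ => (1 : Matrix (Fin n) (Fin n) ℝ) b c)
      (hy.mono fun z hz => by simp only [hz])).eq_of_nhds, pd_const]
  simp [christoffel, e]

theorem ricci_flat {x : Pt n} (h : ∀ᶠ y in 𝓝 x, g y = 1) (i j : Fin n) : ricci g i j x = 0 := by
  simp only [ricci, (christoffel_flat h _ _ _).eq_of_nhds,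
    fun a k b c => ((pd_congr a (christoffel_flat h k b c)).eq_of_nhds).trans (pd_const a 0 x)]
  simp

theorem laplacian_flat {x : Pt n} (h : ∀ᶠ y in 𝓝 x, g y = 1) (u : Pt n → ℝ) :
    laplacian g u x = ∑ i, pd i (pd i u) x := by
  simp [laplacian, h.self_of_nhds, (christoffel_flat h _ _ _).eq_of_nhds, Matrix.one_apply]

theorem contDiffAt_pd {f : Pt n → ℝ} {x : Pt n} (hf : ContDiffAt ℝ 2 f x) (i : Fin n) :
    ContDiffAt ℝ 1 (pd i f) x :=
  (hf.fderiv_right (m := 1) (by norm_num)).clm_apply contDiffAt_const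

theorem pd_sum {ι : Type*} (T : Finset ι) (F : ι → Pt n → ℝ) {x : Pt n} (i : Fin n)
    (hF : ∀ a ∈ T, ContDiffAt ℝ 1 (F a) x) :
    pd i (fun y => ∑ a ∈ T, F a y) x = ∑ a ∈ T, pd i (F a) x := by
  simp only [pd, fderiv_fun_sum fun a ha => (hF a ha).differentiableAt one_ne_zero,
    _root_.sum_apply]

theorem pd_const_mul (c : ℝ) (f : Pt n → ℝ) {x : Pt n} (i : Fin n)
    (hf : DifferentiableAt ℝ f x) : pd i (fun y => c * f y) x = c * pd i f x := by
  simp [pd, fderiv_const_mul hf]

theorem laplacian_sum {ι : Type*} (T : Finset ι) (F : ι → Pt n → ℝ) {x : Pt n}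
    (hF : ∀ a ∈ T, ContDiffAt ℝ 2 (F a) x) :
    laplacian g (fun y => ∑ a ∈ T, F a y) x = ∑ a ∈ T, laplacian g (F a) x := by
  have h1 : ∀ᶠ y in 𝓝 x, ∀ a ∈ T, ContDiffAt ℝ 2 (F a) y := by
    rw [eventually_all_finset]
    exact fun a ha => (hF a ha).eventually (by norm_num)
  have e1 : ∀ i, pd i (fun y => ∑ a ∈ T, F a y) =ᶠ[𝓝 x] fun y => ∑ a ∈ T, pd i (F a) y :=
    fun i => h1.mono fun y hy => pd_sum T F i fun a ha => (hy a ha).of_le (by norm_num)
  have e2 : ∀ i j, pd i (pd j (fun y => ∑ a ∈ T, F a y)) x = ∑ a ∈ T, pd i (pd j (F a)) x :=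
    fun i j => by
      rw [(pd_congr i (e1 j)).eq_of_nhds]
      exact pd_sum T _ i fun a ha => contDiffAt_pd (hF a ha) j
  simp only [laplacian, e2, (e1 _).eq_of_nhds]
  calc _ = ∑ i, ∑ j, ∑ a ∈ T, (g x)⁻¹ i j *
        (pd i (pd j (F a)) x - ∑ k, christoffel g k i j x * pd k (F a) x) := by
        refine Finset.sum_congr rfl fun i _ => Finset.sum_congr rfl fun j _ => ?_
        rw [← Finset.mul_sum, Finset.sum_sub_distrib, Finset.sum_comm]
        simp only [Finset.mul_sum]
    _ = _ := by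
        rw [Finset.sum_comm (s := T)]
        exact Finset.sum_congr rfl fun i _ => Finset.sum_comm

/-! ### polynomial functions -/

open MvPolynomial in
theorem contDiff_eval (P : MvPolynomial (Fin n) ℝ) : ContDiff ℝ ∞ fun x : Pt n => eval x P := by
  induction P using MvPolynomial.induction_on with
  | C c => simp only [eval_C]; exact contDiff_const
  | add p q hp hq => simp only [map_add]; exact hp.add hq
  | mul_X p i hp => simp only [map_mul, eval_X]; exact hp.mul (contDiff_apply ℝ ℝ i)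

open MvPolynomial in
theorem pd_eval (i : Fin n) (P : MvPolynomial (Fin n) ℝ) (x : Pt n) :
    pd i (fun y : Pt n => eval y P) x = eval x (pderiv i P) := by
  induction P using MvPolynomial.induction_on with
  | C c => simp [pd_const]
  | add p q hp hq =>
    simp only [map_add, ← hp, ← hq]
    simp only [pd, fderiv_fun_add ((contDiff_eval p).differentiable (by simp) x)
      ((contDiff_eval q).differentiable (by simp) x), _root_.add_apply]
  | mul_X p k hp =>
    have hk : HasFDerivAt (fun y : Pt n => y k) (ContinuousLinearMap.proj k) x :=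
      hasFDerivAt_apply (𝕜 := ℝ) k x
    simp only [Derivation.leibniz, pderiv_X, map_add, map_mul, eval_X, smul_eq_mul, ← hp]
    simp only [pd, fderiv_fun_mul ((contDiff_eval p).differentiable (by simp) x)
      hk.differentiableAt, hk.fderiv, _root_.add_apply, _root_.smul_apply,
      ContinuousLinearMap.proj_apply, smul_eq_mul]
    rcases eq_or_ne k i with rfl | h
    · simp
    · simp [h, Ne.symm h]

open MvPolynomial in
theorem laplacian_flat_eval {x : Pt n} (h : ∀ᶠ y in 𝓝 x, g y = 1) (P : MvPolynomial (Fin n) ℝ) :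
    laplacian g (fun y : Pt n => eval y P) x = eval x (polyLap n P) := by
  rw [laplacian_flat h]
  simp only [polyLap, LinearMap.sum_apply, LinearMap.comp_apply, Derivation.coeFn_coe, map_sum]
  refine Finset.sum_congr rfl fun i _ => ?_
  rw [show pd i (fun y : Pt n => eval y P) = fun y => eval y (pderiv i P) from
    funext fun y => pd_eval i P y, pd_eval]

open MvPolynomial in
theorem abs_eval_le {L : ℕ} {P : MvPolynomial (Fin n) ℝ} (hP : P.IsHomogeneous L) (x : Pt n) :
    |eval x P| ≤ (∑ e ∈ P.support, |coeff e P|) * rad x ^ L := by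
  rw [eval_eq', Finset.sum_mul]
  refine (Finset.abs_sum_le_sum_abs _ _).trans (Finset.sum_le_sum fun e he => ?_)
  have hdeg : ∑ i, e i = L := by
    have h1 : e.degree = L := by
      have := hP (mem_support_iff.mp he)
      rw [Finsupp.degree_eq_weight_one]; exact this
    rw [← h1, Finsupp.degree_eq_sum]
  rw [abs_mul, Finset.abs_prod, ← hdeg, ← Finset.prod_pow_eq_pow_sum]
  gcongr with i
  rw [abs_pow]
  exact pow_le_pow_left₀ (abs_nonneg _) (abs_le_rad x i) _

end Vale.Agent.P225
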