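import Vale.Agent.P225.Interfaces3
import Vale.Agent.P225.MetricAux

/-! P225 module I: the final assembly. -/

open scoped BigOperators ContDiff
open Filter Topology

namespace Vale.Agent.P225

/-- A polynomial vanishing on the unit ball vanishes. -/
theorem poly_eq_zero_of_ball {n : ℕ} (P : MvPolynomial (Fin n) ℝ)
    (h : ∀ x : Pt n, rad x < 1 → MvPolynomial.eval x P = 0) : P = 0 := by
  set δ : ℝ := 1 / (Real.sqrt n + 2) with hδ
  have hs : (0 : ℝ) ≤ Real.sqrt n := Real.sqrt_nonneg _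
  have hδ0 : 0 < δ := by positivity
  refine MvPolynomial.funext_set (fun _ : Fin n => Set.Ioo (-δ) δ) (fun _ => Set.Ioo_infinite (by linarith))
    fun x hx => ?_
  rw [map_zero]
  apply h
  have hnorm : ‖x‖ ≤ δ := (pi_norm_le_iff_of_nonneg hδ0.le).mpr fun i => by
    have := hx i (Set.mem_univ i)
    rw [Set.mem_Ioo] at this
    rw [Real.norm_eq_abs, abs_le]; exact ⟨this.1.le, this.2.le⟩
  calc rad x ≤ Real.sqrt n * ‖x‖ := rad_le_norm x
    _ ≤ Real.sqrt n * δ := mul_le_mul_of_nonneg_left hnorm hs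
    _ < 1 := by rw [hδ, mul_one_div, div_lt_one (by positivity)]; linarith

theorem branchExp_eq (τ κ : ℝ) {L p : ℕ} (hp : 2 * p ≤ L) :
    compExp τ κ L (L - 2 * p) = branchExp τ κ L p := by
  simp only [compExp, branchExp, Nat.cast_sub hp, Nat.cast_mul, Nat.cast_ofNat]

theorem assembly : AssemblyStmt := by
  intro hlev hcount hmetric hcore
  obtain ⟨τ, κ, hτ, hτ1, hκ, k, Lmax, b, hk, hb1, hb2, hb3, hb4⟩ := hcount
  obtain ⟨d, B, m, A, hBharm, hBli, hA, hdiag, hm, hcard, hJ, hfull⟩ := hlev (Lmax - 1)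
  classical
  -- choice of bands
  have hT : ∀ (l : Fin (Lmax - 1)) (p : ℕ), ∃ T : Finset (Fin (d l)),
      (∀ i ∈ T, 2 * p ≤ (l : ℕ) + 2 ∧ m l i = (l : ℕ) + 2 - 2 * p) ∧
        T.card = b ((l : ℕ) + 2) p := by
    intro l p
    by_cases h0 : b ((l : ℕ) + 2) p = 0
    · exact ⟨∅, by simp, by simp [h0]⟩
    · have hp := (hb1 _ _ h0).2.2
      obtain ⟨T, hTs, hTc⟩ := Finset.exists_subset_card_eq ((hb2 _ p).trans (hcard l p hp))
      exact ⟨T, fun i hi => ⟨hp, (Finset.mem_filter.mp (hTs hi)).2⟩, hTc⟩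
  choose T hT1 hT2 using hT
  have hdisj : ∀ l : Fin (Lmax - 1),
      ((Finset.range ((l : ℕ) + 2 + 1) : Finset ℕ) : Set ℕ).PairwiseDisjoint (T l) := by
    intro l p _ q _ hpq
    refine Finset.disjoint_left.mpr fun i hi hi' => hpq ?_
    obtain ⟨h1, h2⟩ := hT1 l p i hi
    obtain ⟨h3, h4⟩ := hT1 l q i hi'
    omega
  let band : (l : Fin (Lmax - 1)) → Finset (Fin (d l)) := fun l =>
    (Finset.range ((l : ℕ) + 2 + 1)).biUnion (T l)
  have hbandcard : ∀ l, (band l).card =
      ∑ p ∈ Finset.range ((l : ℕ) + 2 + 1), b ((l : ℕ) + 2) p := fun l => by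
    rw [Finset.card_biUnion (hdisj l)]
    exact Finset.sum_congr rfl fun p _ => hT2 l p
  have hband : ∀ l : Fin (Lmax - 1), (band l).Nonempty →
      ∑ i ∈ band l, compExp τ κ ((l : ℕ) + 2) (m l i) < (k : ℝ) * (band l).card := by
    intro l hne
    have hl := l.2
    have hpos : 0 < ∑ p ∈ Finset.range ((l : ℕ) + 2 + 1), b ((l : ℕ) + 2) p := by
      rw [← hbandcard]; exact hne.card_pos
    have := hb3 ((l : ℕ) + 2) (by omega) (by omega) hpos
    rw [hbandcard, Finset.sum_biUnion (hdisj l)]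
    push_cast at this ⊢
    refine lt_of_eq_of_lt (Finset.sum_congr rfl fun p _ => ?_) this
    rw [← hT2 l p, ← nsmul_eq_mul, ← Finset.sum_const]
    refine Finset.sum_congr rfl fun i hi => ?_
    obtain ⟨h1, h2⟩ := hT1 l p i hi
    rw [h2, branchExp_eq τ κ h1]
  obtain ⟨S, hS, hsol⟩ := hcore τ κ hτ hτ1 hκ k (Lmax - 1) d m A hJ
    (fun l => hdiag ⟨stdJ 20, hJ⟩ rfl l) hm hfull band hband
  obtain ⟨g, hg1, hg2, hg3, hgu⟩ := hmetric 20 (by norm_num) S hS
  refine ⟨g, hg1, hg2, hg3, k, hk, ?_⟩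
  -- harmonic functions indexed by the bands
  let ι := (l : Fin (Lmax - 1)) × {r // r ∈ band l}
  have hu : ∀ a : ι, ∃ u : Pt (amb 20) → ℝ, IsPolyHarmonic g k u ∧
      ∀ x, rad x < 1 → u x = MvPolynomial.eval x (B a.1 a.2.1) := by
    rintro ⟨l, r, hr⟩
    obtain ⟨φ, C, hφ, hode, hflat, hgr⟩ := hsol l r hr
    let At : ℝ → Matrix (Fin (d l)) (Fin (d l)) ℝ := fun t => A ⟨S.J t, hS.isCS t⟩ l
    have hQ : ∀ t q, qOp (S.J t) (B l q) = ∑ i, At t i q • B l i := fun t q => by
      have h := hA ⟨S.J t, hS.isCS t⟩ l q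
      dsimp only at h
      dsimp only [At]
      exact h
    obtain ⟨u, hu, hux⟩ := hgu k ((l : ℕ) + 2) (d l) (by omega) (B l) (hBharm l) At hQ φ
      (fun i => if i = r then 1 else 0) C hφ hode hflat hgr
    exact ⟨u, hu, fun x hx => by rw [hux x hx]; simp⟩
  choose u hu1 hu2 using hu
  have hli : LinearIndependent ℝ u := by
    rw [Fintype.linearIndependent_iff]
    intro c hc
    have hP : ∑ a : ι, c a • B a.1 a.2.1 = 0 := by
      refine poly_eq_zero_of_ball _ fun x hx => ?_
      simp only [map_sum, MvPolynomial.smul_eval]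
      calc ∑ a : ι, c a * MvPolynomial.eval x (B a.1 a.2.1) = (∑ a : ι, c a • u a) x := by
            rw [Finset.sum_apply]
            exact Finset.sum_congr rfl fun a _ => by rw [Pi.smul_apply, hu2 a x hx, smul_eq_mul]
        _ = 0 := by rw [hc]; rfl
    rintro ⟨l, r⟩
    have hcomp := congrArg (MvPolynomial.homogeneousComponent ((l : ℕ) + 2)) hP
    rw [map_sum, map_zero, Fintype.sum_sigma, Finset.sum_eq_single l] at hcomp
    · have hlin : LinearIndependent ℝ fun q : {r // r ∈ band l} => B l q.1 :=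
        (hBli l).comp Subtype.val Subtype.val_injective
      refine Fintype.linearIndependent_iff.mp hlin (fun q => c ⟨l, q⟩) ?_ r
      refine Eq.trans (Finset.sum_congr rfl fun q _ => ?_) hcomp
      rw [map_smul, MvPolynomial.homogeneousComponent_of_mem (Submodule.mem_inf.mp (hBharm l q.1)).1,
        if_pos rfl]
    · intro l' _ hne
      refine Finset.sum_eq_zero fun q _ => ?_
      rw [map_smul, MvPolynomial.homogeneousComponent_of_mem (Submodule.mem_inf.mp (hBharm l' q.1)).1,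
        if_neg (fun h => hne (Fin.ext (by omega))), smul_zero]
    · intro h; exact absurd (Finset.mem_univ l) h
  -- counting
  have htot : ∑ L ∈ Finset.range (Lmax + 1), ∑ p ∈ Finset.range (L + 1), b L p = Fintype.card ι := by
    rw [Fintype.card_sigma]
    simp only [Fintype.card_coe, hbandcard]
    rw [Fin.sum_univ_eq_sum_range (fun l => ∑ p ∈ Finset.range (l + 2 + 1), b (l + 2) p)]
    have hlow : ∀ L, L < 2 → ∑ p ∈ Finset.range (L + 1), b L p = 0 := fun L hL =>
      Finset.sum_eq_zero fun p _ => by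
        by_contra h
        have := (hb1 L p h).1
        omega
    rcases Nat.lt_or_ge Lmax 2 with h | h
    · rw [show Lmax - 1 = 0 by omega, Finset.sum_range_zero]
      exact Finset.sum_eq_zero fun L hL => hlow L (by rw [Finset.mem_range] at hL; omega)
    · rw [show Lmax + 1 = (Lmax - 1) + 1 + 1 by omega, Finset.sum_range_succ', Finset.sum_range_succ',
        hlow 0 (by omega), hlow (0 + 1) (by omega), add_zero, add_zero]
  obtain ⟨f⟩ : Nonempty (Fin (Nat.choose (42 + k - 1) k + Nat.choose (42 + k - 2) (k - 1) + 1) ↪ ι) := by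
    refine Function.Embedding.nonempty_of_card_le ?_
    rw [Fintype.card_fin, ← htot]
    exact hb4
  exact ⟨fun a => u (f a), hli.comp f f.injective, fun a => hu1 (f a)⟩

end Vale.Agent.P225
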