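import Vale.Agent.P225.Interfaces4

/-! P225 MODULE L: periodic rates with average below `k` give growth `exp (k t)`. -/

open Set Filter Topology

namespace Vale.Agent.P225

/-- Abel summation against increasing weights. -/
theorem abel_le {g D : ℕ → ℝ} {B : ℝ} (hB : ∀ i, |∑ j ∈ Finset.range i, g j| ≤ B)
    (hD : Monotone D) (hD0 : ∀ i, 0 ≤ D i) (i : ℕ) :
    ∑ j ∈ Finset.range i, g j * D j ≤ 2 * B * D i := by
  have key : ∀ i, ∑ j ∈ Finset.range i, g j * D j - (∑ j ∈ Finset.range i, g j) * D i ≤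
      B * (D i - D 0) := by
    intro i
    induction i with
    | zero => simp
    | succ i ih =>
      have h1 := hD (Nat.le_succ i)
      have h2 := mul_le_mul_of_nonneg_right (neg_le_of_abs_le (hB (i + 1)))
        (show 0 ≤ D (i + 1) - D i by linarith)
      simp only [Finset.sum_range_succ] at h2 ⊢
      linarith
  have := key i
  have := mul_le_mul_of_nonneg_right (le_of_abs_le (hB i)) (hD0 i)
  have := mul_nonneg ((abs_nonneg _).trans (hB i)) (hD0 0)
  linarith

/-- Periodic terms with zero sum over a period have bounded partial sums. -/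
theorem periodic_partial_le {g : ℕ → ℝ} {per : ℕ} (hper : 0 < per)
    (hg : ∀ i, g (i + per) = g i) (h0 : ∑ j ∈ Finset.range per, g j = 0) (i : ℕ) :
    |∑ j ∈ Finset.range i, g j| ≤ ∑ j ∈ Finset.range per, |g j| ∧
      |g i| ≤ ∑ j ∈ Finset.range per, |g j| := by
  have hS : Function.Periodic (fun i => ∑ j ∈ Finset.range i, g j) per := by
    intro i
    show ∑ j ∈ Finset.range (i + per), g j = ∑ j ∈ Finset.range i, g j
    induction i with
    | zero => simpa using h0
    | succ i ih =>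
      rw [Nat.succ_add, Finset.sum_range_succ, ih, hg, Finset.sum_range_succ]
  have hlt := Nat.mod_lt i hper
  constructor
  · rw [← hS.map_mod_nat i]
    exact (Finset.abs_sum_le_sum_abs _ _).trans (Finset.sum_le_sum_of_subset_of_nonneg
      (Finset.range_mono hlt.le) fun _ _ _ => abs_nonneg _)
  · rw [← Function.Periodic.map_mod_nat (f := g) hg i]
    exact Finset.single_le_sum (f := fun j => |g j|) (fun _ _ => abs_nonneg _)
      (Finset.mem_range.mpr hlt)

/-- The cycle lengths grow like the eighth power. -/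
theorem cycle_len_le {x : ℝ} (hx : 1 ≤ x) : (x + 1) ^ 9 - x ^ 9 ≤ 512 * x ^ 8 := by
  have hp : ∀ m, m ≤ 8 → x ^ m ≤ x ^ 8 := fun m hm => pow_le_pow_right₀ hx hm
  have e : (x + 1) ^ 9 - x ^ 9 = 9 * x ^ 8 + 36 * x ^ 7 + 84 * x ^ 6 + 126 * x ^ 5 + 126 * x ^ 4 +
      84 * x ^ 3 + 36 * x ^ 2 + 9 * x + 1 := by ring
  rw [e]
  nlinarith [hp 7 (by norm_num), hp 6 (by norm_num), hp 5 (by norm_num), hp 4 (by norm_num),
    hp 3 (by norm_num), hp 2 (by norm_num), hp 1 (by norm_num), hp 0 (by norm_num)]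

/-- The cycle lengths increase. -/
theorem cycle_len_mono {x y : ℝ} (hx : 0 ≤ x) (hxy : x ≤ y) :
    (x + 1) ^ 9 - x ^ 9 ≤ (y + 1) ^ 9 - y ^ 9 := by
  have e : ∀ z : ℝ, (z + 1) ^ 9 - z ^ 9 = 9 * z ^ 8 + 36 * z ^ 7 + 84 * z ^ 6 + 126 * z ^ 5 +
      126 * z ^ 4 + 84 * z ^ 3 + 36 * z ^ 2 + 9 * z + 1 := fun z => by ring
  rw [e, e]
  gcongr

/-- MODULE L. -/
theorem average : AverageStmt := by
  intro i₀ per μ k K Cg hi₀ hper hK hCg hμ0 hμper hsum f hf hcyc
  set m := (∑ i ∈ Finset.range per, μ i) / per with hm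
  have hper' : (0 : ℝ) < per := Nat.cast_pos.mpr hper
  have hm0 : 0 ≤ m := div_nonneg (Finset.sum_nonneg fun i _ => hμ0 i) hper'.le
  have hmk : m < k := (div_lt_iff₀ hper').mpr hsum
  set g : ℕ → ℝ := fun i => μ i - m with hg
  have hgper : ∀ i, g (i + per) = g i := fun i => by simp [g, hμper]
  have hg0 : ∑ j ∈ Finset.range per, g j = 0 := by
    simp only [g, Finset.sum_sub_distrib, Finset.sum_const, Finset.card_range, nsmul_eq_mul, hm]
    field_simp
    ring
  set B := ∑ j ∈ Finset.range per, |g j| with hB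
  have hB0 : 0 ≤ B := Finset.sum_nonneg fun j _ => abs_nonneg _
  set E : ℕ → ℝ := fun i => ((i + i₀ : ℕ) : ℝ) ^ 9 with hE
  have hEs : ∀ i, E (i + 1) = (((i + i₀ : ℕ) : ℝ) + 1) ^ 9 := fun i => by
    simp only [E]
    push_cast
    ring
  set D : ℕ → ℝ := fun i => E (i + 1) - E i with hD
  have hν1 : ∀ i, (1 : ℝ) ≤ ((i + i₀ : ℕ) : ℝ) := fun i => by
    exact_mod_cast (show 1 ≤ i + i₀ by omega)
  have hD0 : ∀ i, 0 ≤ D i := fun i => by
    simp only [D]
    rw [hEs, sub_nonneg]
    exact pow_le_pow_left₀ (zero_le_one.trans (hν1 i)) (by linarith) 9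
  have hDm : Monotone D := by
    intro i j hij
    simp only [D]
    rw [hEs, hEs]
    refine cycle_len_mono (zero_le_one.trans (hν1 i)) ?_
    exact_mod_cast (show i + i₀ ≤ j + i₀ by omega)
  have hlogK : 0 ≤ Real.log K := Real.log_nonneg hK
  set T : ℕ → ℝ := fun i =>
    ∑ j ∈ Finset.range i, (Real.log K + Cg * ((j + i₀ : ℕ) : ℝ) ^ 7 + μ j * D j) with hT
  have hKexp : ∀ a : ℝ, K * Real.exp a = Real.exp (Real.log K + a) := fun a => by
    rw [Real.exp_add, Real.exp_log (zero_lt_one.trans_le hK)]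
  have hstart : ∀ i, f (E i) ≤ Real.exp (T i) * f (E 0) := by
    intro i
    induction i with
    | zero => simp [T]
    | succ i ih =>
      have h := hcyc i (E (i + 1)) ⟨by
        have := hD0 i
        simp only [D, E] at this ⊢
        linarith, (hEs i).le⟩
      refine h.trans ?_
      rw [hKexp]
      refine (mul_le_mul_of_nonneg_left ih (Real.exp_pos _).le).trans (le_of_eq ?_)
      rw [← mul_assoc, ← Real.exp_add]
      congr 2
      simp only [T, Finset.sum_range_succ, D, E]
      ring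
  set A := Real.log K + Cg + 512 * (3 * B) + 1 with hA
  have hA0 : 0 < A := by positivity
  refine ⟨f (E 0) * Real.exp (A * (A / (k - m)) ^ 8), fun t ht => ?_⟩
  have hex : ∃ i, t < E (i + 1) := by
    obtain ⟨n, hn⟩ := exists_nat_gt t
    refine ⟨n, hn.trans_le ?_⟩
    rw [hEs]
    refine le_trans ?_ (le_self_pow₀ (by linarith [hν1 n]) (by norm_num))
    push_cast
    have : (0 : ℝ) ≤ i₀ := Nat.cast_nonneg _
    linarith
  classical
  set i := Nat.find hex with hi
  have hlt : t < E (i + 1) := Nat.find_spec hex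
  have hle : E i ≤ t := by
    rcases Nat.eq_zero_or_pos i with h | h
    · rw [h]
      simpa [E] using ht
    · have := Nat.find_min hex (show i - 1 < i by omega)
      rwa [not_lt, Nat.sub_add_cancel h] at this
  set ν := ((i + i₀ : ℕ) : ℝ) with hν
  have hν0 : 0 ≤ ν := zero_le_one.trans (hν1 i)
  refine (hcyc i t ⟨hle, hlt.le.trans (hEs i).le⟩).trans ?_
  rw [hKexp]
  refine (mul_le_mul_of_nonneg_left (hstart i) (Real.exp_pos _).le).trans ?_
  rw [← mul_assoc, ← Real.exp_add, mul_comm _ (f (E 0)), mul_assoc (f (E 0)), ← Real.exp_add]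
  refine mul_le_mul_of_nonneg_left (Real.exp_le_exp.mpr ?_) (hf _)
  -- the exponent
  have hDi : D i ≤ 512 * ν ^ 8 := by
    simp only [D]
    rw [hEs]
    exact cycle_len_le (hν1 i)
  have hTi : T i ≤ (i : ℝ) * (Real.log K + Cg * ν ^ 7) + m * (E i - E 0) + 2 * B * D i := by
    have h1 : ∑ j ∈ Finset.range i, μ j * D j =
        ∑ j ∈ Finset.range i, g j * D j + m * (E i - E 0) := by
      rw [← Finset.sum_range_sub E i, Finset.mul_sum, ← Finset.sum_add_distrib]
      exact Finset.sum_congr rfl fun j _ => by simp only [g, D]; ring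
    have h2 := abel_le (fun j => (periodic_partial_le hper hgper hg0 j).1) hDm hD0 i
    have h3 : ∑ j ∈ Finset.range i, (Real.log K + Cg * ((j + i₀ : ℕ) : ℝ) ^ 7) ≤
        (i : ℝ) * (Real.log K + Cg * ν ^ 7) := by
      refine (Finset.sum_le_sum (g := fun _ => Real.log K + Cg * ν ^ 7) fun j hj => ?_).trans
        (le_of_eq (by simp; ring))
      have hjle : ((j + i₀ : ℕ) : ℝ) ≤ ν := by
        rw [hν]
        have := Finset.mem_range.mp hj
        exact_mod_cast (show j + i₀ ≤ i + i₀ by omega)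
      gcongr
    simp only [T]
    rw [Finset.sum_add_distrib, h1]
    linarith
  have hgi : g i * (t - E i) ≤ B * D i := by
    refine (le_abs_self _).trans ?_
    rw [abs_mul, abs_of_nonneg (sub_nonneg.mpr hle)]
    exact mul_le_mul (periodic_partial_le hper hgper hg0 i).2 (by simp only [D]; linarith)
      (sub_nonneg.mpr hle) hB0
  have hi1 : (i : ℝ) + 1 ≤ ν := by
    rw [hν]
    exact_mod_cast (show i + 1 ≤ i + i₀ by omega)
  have hν8 : ν ^ 7 ≤ ν ^ 8 := pow_le_pow_right₀ (hν1 i) (by norm_num)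
  have h4 : ((i : ℝ) + 1) * (Real.log K + Cg * ν ^ 7) ≤ (Real.log K + Cg) * ν ^ 8 := by
    refine (mul_le_mul_of_nonneg_right hi1 (by positivity)).trans ?_
    have : ν * Real.log K ≤ ν ^ 8 * Real.log K :=
      mul_le_mul_of_nonneg_right (le_self_pow₀ (hν1 i) (by norm_num)) hlogK
    linarith
  have h5 := mul_le_mul_of_nonneg_left hDi (show 0 ≤ 3 * B by positivity)
  have h6 : m * E 0 ≥ 0 := mul_nonneg hm0 (by positivity)
  have hAν : A * ν ^ 8 ≤ (k - m) * t + A * (A / (k - m)) ^ 8 := by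
    have hkm : 0 < k - m := by linarith
    have ht0 : 0 ≤ (k - m) * t :=
      mul_nonneg hkm.le (le_trans (by positivity) hle)
    rcases le_or_gt ν (A / (k - m)) with h | h
    · have := mul_le_mul_of_nonneg_left (pow_le_pow_left₀ hν0 h 8) hA0.le
      linarith
    · rw [div_lt_iff₀ hkm] at h
      have := mul_le_mul_of_nonneg_right h.le (pow_nonneg hν0 8)
      have := mul_le_mul_of_nonneg_left (show ν ^ 9 ≤ t from hle) hkm.le
      have : 0 ≤ A * (A / (k - m)) ^ 8 := by positivity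
      linarith
  have h7 : (0 : ℝ) ≤ ν ^ 8 := pow_nonneg hν0 8
  have hμi : μ i * (t - ν ^ 9) = g i * (t - E i) + m * (t - E i) := by
    simp only [g, E, hν]
    ring
  rw [hμi]
  rw [hA] at hAν
  rw [hA]
  linarith

end Vale.Agent.P225
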