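import Vale.Agent.P225.BergerCalcRicci

/-!
P225, module A: Ricci curvature and Laplacian of the model metric.
-/

open scoped BigOperators ContDiff
open Filter Topology Matrix

namespace Vale.Agent.P225.BergerAux

variable {n : ℕ} {J : Matrix (Fin n) (Fin n) ℝ} {a v : ℝ → ℝ}

theorem trace_gam_z (hJ : IsCS J) {x : Pt n} (hx : x ≠ 0) (z : Pt n) :
    let t := Real.log (rad x)
    let r := rad x
    let A := x ⬝ᵥ z
    let E := x ⬝ᵥ (J *ᵥ z)
    let c := z ⬝ᵥ z
    let p := pC a t / r ^ 2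
    let q := qC a t / r ^ 2
    let s := sC a t / r ^ 4
    let u := uC a v t / r ^ 4
    let w := wC a v t / r ^ 4
    let m := mC a v t / r ^ 2
    Matrix.trace (Matrix.of (fun k l => ∑ j, gam J a v k j l x * z j) *
        Matrix.of (fun k l => ∑ j, gam J a v k j l x * z j)) =
      A ^ 2 * (2 * p * m + 2 * p * q + (n + 3) * p ^ 2 + m ^ 2 + q ^ 2) +
      r ^ 2 * A ^ 2 * (4 * p * s + 2 * p * u + 2 * m * u + 2 * q * s) +
      r ^ 4 * A ^ 2 * (s ^ 2 + u ^ 2) +
      E ^ 2 * (2 * m * q - 4 * p * m - (n + 2) * m ^ 2) +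
      r ^ 2 * E ^ 2 * (2 * p * w + 2 * m * w - 4 * m * u + 2 * q * u) +
      r ^ 4 * E ^ 2 * (2 * u * w) + r ^ 2 * c * (2 * p * q) := by
  intro t r A E c p q s u w m
  have hr := rad_pos hx
  rw [gam_z hJ x z]
  simp only [Matrix.add_mul, Matrix.mul_add, Matrix.smul_mul, Matrix.mul_smul, Matrix.one_mul,
    Matrix.mul_one, hJ.2, Matrix.mul_vecMulVec, Matrix.vecMulVec_mul,
    Matrix.trace_add, Matrix.trace_smul, Matrix.trace_vecMulVec,
    Matrix.trace_one, Matrix.trace_neg, trace_zero hJ, vecMul_eq hJ, mulVec_twice hJ,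
    Matrix.add_mulVec, Matrix.smul_mulVec, Matrix.one_mulVec, Matrix.vecMulVec_mulVec,
    op_smul_eq_smul, add_dotProduct,
    dotProduct_neg, neg_dotProduct, smul_dotProduct, smul_eq_mul,
    mulVec_dot_mulVec hJ, mulVec_dot hJ x z, mulVec_dot_self hJ x, dot_mulVec_self hJ x,
    mulVec_dot_self hJ z, dot_mulVec_self hJ z, dotProduct_comm z (J *ᵥ x), dotProduct_comm z x,
    dotProduct_comm (J *ᵥ z) x, neg_neg, Fintype.card_fin, ← rad_sq x]
  simp only [rc, A, E, c, p, q, s, u, w, m, r, t]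
  field_simp
  ring

theorem sum_mul_kinv_mul (y f h : Pt n) :
    ∑ i, ∑ k, kinv J a v y i k * (f i * h k) =
      1 / a (Real.log (rad y)) * (f ⬝ᵥ h) +
        (1 - 1 / a (Real.log (rad y))) / rad y ^ 2 * (y ⬝ᵥ f) * (y ⬝ᵥ h) +
        (1 / v (Real.log (rad y)) - 1 / a (Real.log (rad y))) / rad y ^ 2 * ((J *ᵥ y) ⬝ᵥ f) *
          ((J *ᵥ y) ⬝ᵥ h) := by
  have : ∀ i, ∑ k, kinv J a v y i k * (f i * h k) = f i * ∑ k, kinv J a v y i k * h k := fun i => by
    rw [Finset.mul_sum]; exact Finset.sum_congr rfl fun k _ => by ring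
  simp only [this, sum_kinv, mul_add, Finset.sum_add_distrib, dotProduct, Finset.mul_sum,
    Finset.sum_mul]
  refine congrArg₂ (· + ·) (congrArg₂ (· + ·) ?_ ?_) ?_
  · exact Finset.sum_congr rfl fun i _ => by ring
  · rw [Finset.sum_comm]
    exact Finset.sum_congr rfl fun i _ => Finset.sum_congr rfl fun k _ => by ring
  · rw [Finset.sum_comm]
    exact Finset.sum_congr rfl fun i _ => Finset.sum_congr rfl fun k _ => by ring

/-- The contraction `g^ij Γ^k_ij`. -/
theorem gam_kinv (hJ : IsCS J) (hpa : ∀ t, 0 < a t) (hpv : ∀ t, 0 < v t) {y : Pt n} (hy : y ≠ 0)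
    (k : Fin n) :
    let t := Real.log (rad y)
    ∑ i, ∑ j, kinv J a v y i j * gam J a v k i j y =
      (2 * pC a t + qC a t * ((n - 2 : ℝ) / a t + 1 + 1 / v t) + sC a t + wC a v t / v t -
        2 * mC a v t / v t) / rad y ^ 2 * y k := by
  intro t
  have hr := rad_pos hy
  have hc : ∀ (c : ℝ) (f h : Pt n), ∑ i, ∑ j, kinv J a v y i j * (c * (f i * h j)) =
      c * ∑ i, ∑ j, kinv J a v y i j * (f i * h j) := fun c f h => by
    simp only [Finset.mul_sum]
    exact Finset.sum_congr rfl fun i _ => Finset.sum_congr rfl fun j _ => by ring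
  have hd : ∀ c : ℝ, ∑ i, ∑ j, kinv J a v y i j * (c * (1 : Matrix (Fin n) (Fin n) ℝ) i j) =
      c * (n / a t + (1 - 1 / a t) + (1 / v t - 1 / a t)) := fun c => by
    have e : ∀ i, ∑ j, kinv J a v y i j * (c * (1 : Matrix (Fin n) (Fin n) ℝ) i j) =
        c * kinv J a v y i i := fun i => by simp [Matrix.one_apply, mul_comm]
    simp only [e]
    simp only [← Finset.mul_sum, kinv, Finset.sum_add_distrib]
    congr 1
    have e2 : ∑ i, y i * y i = rad y ^ 2 := (rad_sq y).symm
    have e3 : ∑ i, (J *ᵥ y) i * (J *ᵥ y) i = rad y ^ 2 :=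
      (mulVec_dot_mulVec hJ y y).trans (rad_sq y).symm
    simp only [Matrix.one_apply_eq, ← Finset.mul_sum, e2, e3, Finset.sum_const, Finset.card_univ,
      Fintype.card_fin, nsmul_eq_mul, t]
    field_simp
  have h1 : ∀ f : Pt n, f ⬝ᵥ (fun j => (1 : Matrix (Fin n) (Fin n) ℝ) k j) = f k := fun f => by
    simp [dotProduct, Matrix.one_apply]
  have hk : ∀ f : Pt n, f ⬝ᵥ (fun j => J k j) = (J *ᵥ f) k := fun f => dotProduct_comm _ _
  simp only [gam, mul_add, Finset.sum_add_distrib, hc, hd, sum_mul_kinv_mul, h1, hk,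
    dotProduct_comm (fun j => (1 : Matrix (Fin n) (Fin n) ℝ) k j),
    dotProduct_comm (fun j => J k j), mulVec_twice hJ, Pi.neg_apply, mulVec_dot_mulVec hJ,
    mulVec_dot_self hJ y, dot_mulVec_self hJ y, ← rad_sq y]
  simp only [rc, t]
  have := hpa (Real.log (rad y))
  have := hpv (Real.log (rad y))
  field_simp
  ring

/-- The Laplacian of a radial function times a harmonic polynomial. -/
theorem laplacian_form (hJ : IsCS J) (ha : Differentiable ℝ a) (hv : Differentiable ℝ v)
    (hpa : ∀ t, 0 < a t) (hpv : ∀ t, 0 < v t) {g : Pt n → Matrix (Fin n) (Fin n) ℝ} {x : Pt n}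
    (hx : x ≠ 0) (hg : ∀ᶠ y in 𝓝 x, g y = bergerMat J a v y)
    {φ : ℝ → ℝ} (hφ : Differentiable ℝ φ) (hφ' : Differentiable ℝ (deriv φ))
    {L : ℕ} {P : MvPolynomial (Fin n) ℝ} (hP : P ∈ harm n L) :
    let t := Real.log (rad x)
    let K : ℝ := (n - 2 : ℝ) / a t + 1 + 1 / v t
    let om : ℝ := 2 * pC a t + qC a t * K + sC a t + wC a v t / v t - 2 * mC a v t / v t
    laplacian g (fun y => φ (Real.log (rad y)) / rad y ^ L * MvPolynomial.eval y P) x =
      ((deriv (deriv φ) t - (2 * L + 2) * deriv φ t + (L * (L + 2)) * φ t +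
          (K - om + 2 * L) * (deriv φ t - L * φ t) +
          φ t * ((1 - 1 / a t) * (L * (L - 1)) + (1 / v t - 1 / a t) * L - om * L)) *
          MvPolynomial.eval x P -
        (1 / v t - 1 / a t) * φ t * MvPolynomial.eval x (qOp J P)) / rad x ^ (L + 2) := by
  intro t K om
  have hr := rad_pos hx
  obtain ⟨hhom, hlap⟩ := Submodule.mem_inf.1 hP
  set P1 : Pt n → Pt n := fun y l => MvPolynomial.eval y (MvPolynomial.pderiv l P) with hP1
  set P2 : Fin n → Pt n := fun j l =>
    MvPolynomial.eval x (MvPolynomial.pderiv l (MvPolynomial.pderiv j P)) with hP2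
  have hP2symm : ∀ i j, P2 j i = P2 i j := fun i j =>
    congrArg (MvPolynomial.eval x) (pderiv_comm' i j P)
  have hEuler : ∀ y, y ⬝ᵥ P1 y = L * MvPolynomial.eval y P := fun y => by
    have h := congrArg (MvPolynomial.eval y) (MvPolynomial.IsHomogeneous.sum_X_mul_pderiv hhom)
    simpa [dotProduct, hP1] using h
  have hEuler2 : ∀ j, P1 x j + x ⬝ᵥ P2 j = L * P1 x j := fun j => by
    have h1 : HasGrad (fun y => y ⬝ᵥ P1 y)
        (∑ i, (x i • P2 i + P1 x i • fun l => (1 : Matrix (Fin n) (Fin n) ℝ) i l)) x :=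
      HasGrad.sum fun i _ =>
        (hasGrad_coord i x).mul (hasGrad_eval (MvPolynomial.pderiv i P) x)
    have h2 := ((hasGrad_eval P x).const_mul (L : ℝ)).congr_near
      (Filter.Eventually.of_forall hEuler)
    have h := (h1.pd j).symm.trans (h2.pd j)
    simp only [Finset.sum_apply, Pi.add_apply, Pi.smul_apply, smul_eq_mul,
      Finset.sum_add_distrib] at h
    rw [← h]
    simp [Matrix.one_apply, dotProduct, hP2symm _ j, add_comm]
  have hlap0 : ∑ j, P2 j j = 0 := by
    have h : MvPolynomial.eval x (polyLap n P) = 0 := by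
      rw [LinearMap.mem_ker.1 hlap, map_zero]
    simpa [polyLap, hP2, LinearMap.sum_apply] using h
  have hQ : MvPolynomial.eval x (qOp J P) =
      L * MvPolynomial.eval x P - ∑ i, ∑ j, (J *ᵥ x) i * (J *ᵥ x) j * P2 j i := by
    have hD : ∀ y, MvPolynomial.eval y (derJ J P) = ∑ b, (J *ᵥ y) b * P1 y b := fun y => by
      rw [derJ_apply]
      simp [Matrix.mulVec, dotProduct, hP1, Finset.sum_mul, mul_assoc]
    have hg1 := HasGrad.sum (s := Finset.univ) fun b _ =>
      (hasGrad_mulVec J b x).mul (hasGrad_eval (MvPolynomial.pderiv b P) x)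
    have hg2 := hg1.congr_near (Filter.Eventually.of_forall hD)
    have hd2 : MvPolynomial.eval x (derJ J (derJ J P)) =
        ∑ i, (J *ᵥ x) i * MvPolynomial.eval x (MvPolynomial.pderiv i (derJ J P)) := by
      rw [derJ_apply J (derJ J P)]
      simp [Matrix.mulVec, dotProduct, Finset.sum_mul, mul_assoc]
    have he : ∀ i, MvPolynomial.eval x (MvPolynomial.pderiv i (derJ J P)) =
        ∑ b, ((J *ᵥ x) b * P2 b i + P1 x b * J b i) := fun i => by
      rw [← (hasGrad_eval (derJ J P) x).pd i, hg2.pd i, Finset.sum_apply]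
      exact Finset.sum_congr rfl fun b _ => rfl
    have hneg : MvPolynomial.eval x (qOp J P) = -MvPolynomial.eval x (derJ J (derJ J P)) := by
      simp [qOp]
    rw [hneg, hd2]
    simp only [he, mul_add, Finset.sum_add_distrib, Finset.mul_sum]
    have e : ∑ i, ∑ b, (J *ᵥ x) i * (P1 x b * J b i) = -(L * MvPolynomial.eval x P) := by
      rw [← hEuler, Finset.sum_comm, dotProduct, ← Finset.sum_neg_distrib]
      refine Finset.sum_congr rfl fun b _ => ?_
      have hb : ∑ i, J b i * (J *ᵥ x) i = -x b := congrFun (mulVec_twice hJ x) b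
      rw [← neg_mul, ← hb, Finset.sum_mul]
      exact Finset.sum_congr rfl fun i _ => by ring
    rw [e]
    simp only [← mul_assoc]
    ring
  -- derivatives of the function
  have hφd : ∀ s, HasDerivAt φ (deriv φ s) s := fun s => (hφ s).hasDerivAt
  set F1 : ℝ → ℝ := fun s => deriv φ s - L * φ s with hF1
  have hev : ∀ᶠ y in 𝓝 x, ∀ j,
      pd j (fun y => φ (Real.log (rad y)) / rad y ^ L * MvPolynomial.eval y P) y =
        rc F1 (L + 2) y * y j * MvPolynomial.eval y P + rc φ L y * P1 y j := by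
    filter_upwards [isOpen_ne.mem_nhds hx] with y hy j
    have h : HasGrad (fun y => φ (Real.log (rad y)) / rad y ^ L * MvPolynomial.eval y P) _ y :=
      (hasGrad_rc L hy (hφd (Real.log (rad y)))).mul (hasGrad_eval P y)
    rw [h.pd j]
    simp only [Pi.add_apply, Pi.smul_apply, smul_eq_mul, rc, hF1, hP1]
    ring
  have hfirst := hev.self_of_nhds
  have hF1d : HasDerivAt F1 (deriv (deriv φ) t - L * deriv φ t) t :=
    (hφ' t).hasDerivAt.fun_sub ((hφd t).const_mul (L : ℝ))
  have hsecond : ∀ i j,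
      pd i (pd j (fun y => φ (Real.log (rad y)) / rad y ^ L * MvPolynomial.eval y P)) x =
        (deriv (deriv φ) t - L * deriv φ t - (L + 2) * F1 t) / rad x ^ (L + 2 + 2) *
            MvPolynomial.eval x P * (x i * x j) +
          rc F1 (L + 2) x * MvPolynomial.eval x P * (1 : Matrix (Fin n) (Fin n) ℝ) i j +
          rc F1 (L + 2) x * (P1 x i * x j) + rc F1 (L + 2) x * (x i * P1 x j) +
          rc φ L x * P2 j i := by
    intro i j
    have h := ((((hasGrad_rc (L + 2) hx hF1d).mul (hasGrad_coord j x)).mul (hasGrad_eval P x)).add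
      ((hasGrad_rc L hx (hφd t)).mul (hasGrad_eval (MvPolynomial.pderiv j P) x))).congr_near
      (f' := fun y => pd j (fun y => φ (Real.log (rad y)) / rad y ^ L * MvPolynomial.eval y P) y)
      (hev.mono fun y hy => hy j)
    rw [h.pd i]
    simp only [Pi.add_apply, Pi.smul_apply, smul_eq_mul, rc, hF1, hP1, hP2, one_symm i j, t]
    push_cast
    ring
  have hgam : ∀ k i j, christoffel g k i j x = gam J a v k i j x :=
    christoffel_eq hJ ha hv hpa hpv hx hg
  rw [laplacian]
  simp only [hsecond, hfirst, hgam, show g x = bergerMat J a v x from hg.self_of_nhds,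
    bergerMat_inv hJ hpa hpv hx, Matrix.of_apply]
  have e1 : ∑ i, ∑ j, kinv J a v x i j *
      ∑ k, gam J a v k i j x * (rc F1 (L + 2) x * x k * MvPolynomial.eval x P + rc φ L x * P1 x k) =
      ∑ k, (∑ i, ∑ j, kinv J a v x i j * gam J a v k i j x) *
        (rc F1 (L + 2) x * x k * MvPolynomial.eval x P + rc φ L x * P1 x k) := by
    simp only [Finset.mul_sum, Finset.sum_mul]
    rw [Finset.sum_comm_cycle]
    refine Finset.sum_congr rfl fun k _ => Finset.sum_congr rfl fun i _ =>
      Finset.sum_congr rfl fun j _ => ?_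
    ring
  have hc : ∀ (c : ℝ) (F : Fin n → Fin n → ℝ), ∑ i, ∑ j, kinv J a v x i j * (c * F i j) =
      c * ∑ i, ∑ j, kinv J a v x i j * F i j := fun c F => by
    simp only [Finset.mul_sum]
    exact Finset.sum_congr rfl fun i _ => Finset.sum_congr rfl fun j _ => by ring
  have hxP : ∑ i, ∑ j, x i * x j * P2 j i = (L - 1) * L * MvPolynomial.eval x P := by
    have : ∀ j, ∑ i, x i * x j * P2 j i = x j * (x ⬝ᵥ P2 j) := fun j => by
      rw [dotProduct, Finset.mul_sum]; exact Finset.sum_congr rfl fun i _ => by ring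
    rw [Finset.sum_comm]
    have h2 : ∀ j, x ⬝ᵥ P2 j = (L - 1) * P1 x j := fun j => by linarith [hEuler2 j]
    simp only [this, h2]
    simp only [mul_assoc, ← hEuler x, dotProduct, Finset.mul_sum]
    exact Finset.sum_congr rfl fun j _ => by ring
  have hH : ∑ i, ∑ j, kinv J a v x i j * P2 j i =
      (1 - 1 / a t) / rad x ^ 2 * ((L - 1) * L * MvPolynomial.eval x P) +
      (1 / v t - 1 / a t) / rad x ^ 2 * (L * MvPolynomial.eval x P -
        MvPolynomial.eval x (qOp J P)) := by
    rw [hQ, sub_sub_cancel, ← hxP]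
    simp only [kinv, add_mul, Finset.sum_add_distrib, mul_assoc, ← Finset.mul_sum, t]
    simp [Matrix.one_apply, hlap0]
  have hδ : ∑ i, ∑ j, kinv J a v x i j * (1 : Matrix (Fin n) (Fin n) ℝ) i j = K := by
    have e : ∀ i, ∑ j, kinv J a v x i j * (1 : Matrix (Fin n) (Fin n) ℝ) i j =
        kinv J a v x i i := fun i => by simp [Matrix.one_apply]
    have e2 : ∑ i, x i * x i = rad x ^ 2 := (rad_sq x).symm
    have e3 : ∑ i, (J *ᵥ x) i * (J *ᵥ x) i = rad x ^ 2 :=
      (mulVec_dot_mulVec hJ x x).trans (rad_sq x).symm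
    simp only [e]
    simp only [kinv, Finset.sum_add_distrib, Matrix.one_apply_eq, ← Finset.mul_sum, e2, e3,
      Finset.sum_const, Finset.card_univ, Fintype.card_fin, nsmul_eq_mul, K, t]
    field_simp
    ring
  have hW : ∀ k, ∑ i, ∑ j, kinv J a v x i j * gam J a v k i j x = om / rad x ^ 2 * x k :=
    fun k => gam_kinv hJ hpa hpv hx k
  have hδc : ∀ c : ℝ,
      ∑ i, ∑ j, kinv J a v x i j * (c * (1 : Matrix (Fin n) (Fin n) ℝ) i j) = c * K := fun c => by
    rw [← hδ]
    exact hc c fun i j => (1 : Matrix (Fin n) (Fin n) ℝ) i j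
  simp only [mul_sub, Finset.sum_sub_distrib, e1, hW]
  simp only [mul_add, Finset.sum_add_distrib, hδc]
  simp only [hc, hH, sum_mul_kinv_mul,
    dotProduct_comm (P1 x) x, hEuler x, mulVec_dot_self hJ x, ← rad_sq x]
  have e4 : ∀ c d : ℝ, ∑ k, c * x k * (d * x k * MvPolynomial.eval x P) =
      c * d * MvPolynomial.eval x P * rad x ^ 2 := fun c d => by
    rw [rad_sq, dotProduct, Finset.mul_sum]
    exact Finset.sum_congr rfl fun k _ => by ring
  have e5 : ∀ c d : ℝ, ∑ k, c * x k * (d * P1 x k) = c * d * (L * MvPolynomial.eval x P) :=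
    fun c d => by
      rw [← hEuler, dotProduct, Finset.mul_sum]
      exact Finset.sum_congr rfl fun k _ => by ring
  simp only [e4, e5, rc, hF1, t]
  field_simp
  ring

end Vale.Agent.P225.BergerAux

namespace Vale.Agent.P225

open BergerAux

/-- Module A of the P225 construction. -/
theorem bergerCalc : BergerCalcStmt := by
  intro j J hJ a v ha hv hpa hpv g x hx hg t N al nu tr cR cH cV
  have hda : Differentiable ℝ a := ha.differentiable (by norm_num)
  have hdv : Differentiable ℝ v := hv.differentiable (by norm_num)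
  have hda' : Differentiable ℝ (deriv a) :=
    ((contDiff_infty_iff_deriv.1 ha).2).differentiable (by norm_num)
  have hdv' : Differentiable ℝ (deriv v) :=
    ((contDiff_infty_iff_deriv.1 hv).2).differentiable (by norm_num)
  obtain ⟨hp, hpv', hq, hs, -, hw, hm⟩ := deriv_coeffs hda hda' hdv hdv' hpa hpv t
  have hr := rad_pos hx
  have hat := hpa t
  have hvt := hpv t
  have hnn : ((amb j : ℕ) : ℝ) = 2 * j + 2 := by simp [amb]; ring
  have htc : tC (amb j) a v = tr := by
    funext s
    have := hpa s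
    simp only [tC, tr, al, nu, pC, qC, sC, uC, mC, hnn]
    field_simp
    ring
  have htr : HasDerivAt tr (2 * j * ((deriv (deriv a) t * a t - deriv a t ^ 2) / (2 * a t ^ 2)) +
      (deriv (deriv v) t * v t - deriv v t ^ 2) / (2 * v t ^ 2)) t :=
    (hp.const_mul (2 * (j : ℝ))).fun_add hpv'
  refine ⟨fun z => ?_, fun φ hφ L P hP => ?_⟩
  · have h := ricci_form hJ hda hda' hdv hdv' hpa hpv hx hg z hp hq hs hw hm (htc ▸ htr)
    rw [trace_gam_z hJ hx z] at h
    have e1 : ∑ i, x i * z i = x ⬝ᵥ z := rfl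
    have e2 : ∑ i, J.mulVec x i * z i = -(x ⬝ᵥ (J *ᵥ z)) := mulVec_dot hJ x z
    have e3 : ∑ i, z i ^ 2 = z ⬝ᵥ z := by simp [dotProduct, sq]
    have hal : deriv al t = _ := hp.deriv
    have hnu : deriv nu t = _ := hpv'.deriv
    rw [h, e1, e2, e3]
    simp only [cR, cH, cV, htr.deriv, hal, hnu]
    simp only [htc, tr, al, nu, N, pC, qC, sC, uC, wC, mC, hnn, t] at hat hvt ⊢
    field_simp
    ring
  · rw [laplacian_form hJ hda hdv hpa hpv hx hg (hφ.differentiable (by norm_num))
      (((contDiff_infty_iff_deriv.1 hφ).2).differentiable (by norm_num)) hP]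
    simp only [tr, al, nu, N, pC, qC, sC, wC, mC, hnn, t] at hat hvt ⊢
    congr 1
    field_simp
    ring

end Vale.Agent.P225
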