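import Vale.Agent.P225.Interfaces

/-!
P225, module A: gradients in coordinates, radial functions, and algebra of a complex structure.
-/

open scoped BigOperators ContDiff
open Filter Topology Matrix

namespace Vale.Agent.P225.BergerAux

variable {n : ℕ}

/-- `f` has gradient `G` at `x`. -/
def HasGrad (f : Pt n → ℝ) (G : Pt n) (x : Pt n) : Prop :=
  HasFDerivAt f (∑ i, G i • (ContinuousLinearMap.proj i : Pt n →L[ℝ] ℝ)) x

theorem HasGrad.pd {f : Pt n → ℝ} {G x : Pt n} (h : HasGrad f G x) (i : Fin n) :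
    pd i f x = G i := by
  rw [Vale.Agent.P225.pd, h.fderiv]
  simp [Pi.single_apply]

theorem HasGrad.congr {f : Pt n → ℝ} {G G' x : Pt n} (h : HasGrad f G x)
    (e : ∀ i, G i = G' i) : HasGrad f G' x := by rwa [← funext e]

theorem HasGrad.congr_near {f f' : Pt n → ℝ} {G x : Pt n} (h : HasGrad f G x) (e : f' =ᶠ[𝓝 x] f) :
    HasGrad f' G x :=
  HasFDerivAt.congr_of_eventuallyEq h e

theorem HasGrad.add {f f' : Pt n → ℝ} {G G' x : Pt n} (h : HasGrad f G x) (h' : HasGrad f' G' x) :
    HasGrad (fun y => f y + f' y) (G + G') x := by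
  have := HasFDerivAt.fun_add h h'
  simpa only [HasGrad, Pi.add_apply, add_smul, Finset.sum_add_distrib] using this

theorem HasGrad.mul {f f' : Pt n → ℝ} {G G' x : Pt n} (h : HasGrad f G x) (h' : HasGrad f' G' x) :
    HasGrad (fun y => f y * f' y) (f x • G' + f' x • G) x := by
  have := HasFDerivAt.fun_mul h h'
  simpa only [HasGrad, Pi.add_apply, Pi.smul_apply, smul_eq_mul, add_smul, Finset.sum_add_distrib,
    Finset.smul_sum, smul_smul] using this

theorem hasGrad_const (c : ℝ) (x : Pt n) : HasGrad (fun _ => c) 0 x := by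
  simpa [HasGrad] using hasFDerivAt_const (𝕜 := ℝ) c x

theorem hasGrad_coord (k : Fin n) (x : Pt n) :
    HasGrad (fun y => y k) (fun l => (1 : Matrix (Fin n) (Fin n) ℝ) k l) x := by
  have h : HasFDerivAt (fun y : Pt n => y k)
      (ContinuousLinearMap.proj k : Pt n →L[ℝ] ℝ) x :=
    (ContinuousLinearMap.proj k : Pt n →L[ℝ] ℝ).hasFDerivAt
  rw [HasGrad]
  simpa [Matrix.one_apply] using h

theorem HasGrad.sum {ι : Type*} {s : Finset ι} {f : ι → Pt n → ℝ} {G : ι → Pt n} {x : Pt n}
    (h : ∀ a ∈ s, HasGrad (f a) (G a) x) :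
    HasGrad (fun y => ∑ a ∈ s, f a y) (∑ a ∈ s, G a) x := by
  have := HasFDerivAt.fun_sum h
  have e : (∑ i, (∑ a ∈ s, G a) i • (ContinuousLinearMap.proj i : Pt n →L[ℝ] ℝ)) =
      ∑ a ∈ s, ∑ i, G a i • (ContinuousLinearMap.proj i : Pt n →L[ℝ] ℝ) := by
    rw [Finset.sum_comm]
    simp only [Finset.sum_apply, Finset.sum_smul]
  rw [HasGrad, e]
  exact this

theorem HasGrad.const_mul {f : Pt n → ℝ} {G x : Pt n} (h : HasGrad f G x) (c : ℝ) :
    HasGrad (fun y => c * f y) (c • G) x :=
  ((hasGrad_const c x).mul h).congr fun i => by simp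

theorem HasGrad.comp {f : Pt n → ℝ} {G x : Pt n} {h : ℝ → ℝ} {h' : ℝ}
    (hh : HasDerivAt h h' (f x)) (hf : HasGrad f G x) :
    HasGrad (fun y => h (f y)) (h' • G) x := by
  have := hh.comp_hasFDerivAt x hf
  simpa only [HasGrad, Function.comp_def, Pi.smul_apply, smul_eq_mul, Finset.smul_sum, smul_smul]
    using this

theorem hasGrad_mulVec (J : Matrix (Fin n) (Fin n) ℝ) (i : Fin n) (x : Pt n) :
    HasGrad (fun y => (J *ᵥ y) i) (fun l => J i l) x := by
  have := HasGrad.sum (s := Finset.univ) (f := fun k (y : Pt n) => J i k * y k)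
    fun k _ => (hasGrad_coord k x).const_mul (J i k)
  exact this.congr fun l => by simp [Finset.sum_apply, Matrix.one_apply]

theorem hasGrad_dot (z x : Pt n) : HasGrad (fun y => y ⬝ᵥ z) z x := by
  have := HasGrad.sum (s := Finset.univ) (f := fun k (y : Pt n) => y k * z k)
    fun k _ => (hasGrad_coord k x).mul (hasGrad_const (z k) x)
  exact this.congr fun l => by simp [Finset.sum_apply, Matrix.one_apply]

theorem rad_sq (x : Pt n) : rad x ^ 2 = x ⬝ᵥ x := by
  rw [rad, Real.sq_sqrt (Finset.sum_nonneg fun i _ => sq_nonneg (x i))]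
  simp [dotProduct, sq]

theorem rad_pos {x : Pt n} (hx : x ≠ 0) : 0 < rad x := by
  obtain ⟨i, hi⟩ := Function.ne_iff.1 hx
  exact Real.sqrt_pos.2 (Finset.sum_pos' (fun k _ => sq_nonneg (x k))
    ⟨i, Finset.mem_univ i, by have : x i ≠ 0 := hi; positivity⟩)

theorem hasGrad_rad {x : Pt n} (hx : x ≠ 0) : HasGrad rad ((rad x)⁻¹ • x) x := by
  have hs : HasGrad (fun y : Pt n => ∑ i, y i ^ 2) ((2 : ℝ) • x) x := by
    have := HasGrad.sum (s := Finset.univ) (f := fun k (y : Pt n) => y k * y k)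
      fun k _ => (hasGrad_coord k x).mul (hasGrad_coord k x)
    refine (this.congr fun l => ?_).congr_near (Filter.Eventually.of_forall fun y => by simp [sq])
    simp [Finset.sum_apply, Matrix.one_apply, Finset.sum_add_distrib]
    ring
  have hne : (∑ i, x i ^ 2) ≠ 0 := by
    have := rad_pos hx
    rw [rad, Real.sqrt_pos] at this
    exact this.ne'
  refine (HasGrad.comp (f := fun y : Pt n => ∑ i, y i ^ 2) (Real.hasDerivAt_sqrt hne) hs).congr
    fun l => ?_
  show 1 / (2 * rad x) * (2 * x l) = (rad x)⁻¹ * x l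
  have := rad_pos hx
  field_simp

/-- A radial function `F (log r) / r ^ m`. -/
noncomputable def rc (F : ℝ → ℝ) (m : ℕ) (y : Pt n) : ℝ := F (Real.log (rad y)) / rad y ^ m

theorem hasGrad_rc {F : ℝ → ℝ} {F' : ℝ} (m : ℕ) {x : Pt n} (hx : x ≠ 0)
    (hF : HasDerivAt F F' (Real.log (rad x))) :
    HasGrad (rc F m) (fun l => (F' - m * F (Real.log (rad x))) / rad x ^ (m + 2) * x l) x := by
  have hr := rad_pos hx
  have h : HasDerivAt (fun r => F (Real.log r) / r ^ m)
      ((F' - m * F (Real.log (rad x))) / rad x ^ (m + 1)) (rad x) := by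
    have := (hF.comp (rad x) (Real.hasDerivAt_log hr.ne')).div (hasDerivAt_pow m (rad x))
      (pow_ne_zero m hr.ne')
    refine this.congr_deriv ?_
    rcases m with _ | m
    · simp; field_simp
    · simp only [Function.comp_def, Nat.add_sub_cancel, Nat.cast_succ]
      field_simp
      ring
  refine (HasGrad.comp h (hasGrad_rad hx)).congr fun l => ?_
  show _ / rad x ^ (m + 1) * ((rad x)⁻¹ * x l) = _
  rw [pow_succ _ (m + 1)]
  field_simp

theorem hasGrad_eval (P : MvPolynomial (Fin n) ℝ) (x : Pt n) :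
    HasGrad (fun y => MvPolynomial.eval y P)
      (fun l => MvPolynomial.eval x (MvPolynomial.pderiv l P)) x := by
  induction P using MvPolynomial.induction_on with
  | C c =>
    refine ((hasGrad_const c x).congr fun l => by simp).congr_near ?_
    exact Filter.Eventually.of_forall fun y => by simp
  | add p q hp hq =>
    refine ((hp.add hq).congr fun l => by simp).congr_near ?_
    exact Filter.Eventually.of_forall fun y => by simp
  | mul_X p k hp =>
    refine ((hp.mul (hasGrad_coord k x)).congr fun l => ?_).congr_near ?_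
    · rcases eq_or_ne k l with rfl | h
      · simp
      · simp [h, Matrix.one_apply]
    · exact Filter.Eventually.of_forall fun y => by simp

/-! ### Algebra of a complex structure -/

variable {J : Matrix (Fin n) (Fin n) ℝ}

theorem anti (hJ : IsCS J) (i k : Fin n) : J k i = -J i k := by
  have := congrFun (congrFun hJ.1 i) k
  simpa using this

theorem mulVec_twice (hJ : IsCS J) (z : Pt n) : J *ᵥ (J *ᵥ z) = -z := by
  rw [Matrix.mulVec_mulVec, hJ.2, Matrix.neg_mulVec, Matrix.one_mulVec]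

theorem vecMul_eq (hJ : IsCS J) (z : Pt n) : z ᵥ* J = -(J *ᵥ z) := by
  rw [← Matrix.mulVec_transpose, hJ.1, Matrix.neg_mulVec]

theorem mulVec_dot (hJ : IsCS J) (u w : Pt n) : (J *ᵥ u) ⬝ᵥ w = -(u ⬝ᵥ (J *ᵥ w)) := by
  rw [dotProduct_comm, Matrix.dotProduct_mulVec, vecMul_eq hJ, neg_dotProduct, dotProduct_comm]

theorem dot_mulVec_self (hJ : IsCS J) (u : Pt n) : u ⬝ᵥ (J *ᵥ u) = 0 := by
  have := mulVec_dot hJ u u
  rw [dotProduct_comm] at this
  linarith

theorem mulVec_dot_self (hJ : IsCS J) (u : Pt n) : (J *ᵥ u) ⬝ᵥ u = 0 := by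
  rw [dotProduct_comm, dot_mulVec_self hJ]

theorem mulVec_dot_mulVec (hJ : IsCS J) (u w : Pt n) : (J *ᵥ u) ⬝ᵥ (J *ᵥ w) = u ⬝ᵥ w := by
  rw [mulVec_dot hJ, mulVec_twice hJ, dotProduct_neg, neg_neg]

theorem diag_zero (hJ : IsCS J) (k : Fin n) : J k k = 0 := by
  have := anti hJ k k
  linarith

theorem trace_zero (hJ : IsCS J) : Matrix.trace J = 0 :=
  Finset.sum_eq_zero fun k _ => diag_zero hJ k

theorem col_dot (hJ : IsCS J) (u : Pt n) (i : Fin n) : ∑ l, u l * J l i = -(J *ᵥ u) i :=
  congrFun (vecMul_eq hJ u) i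

theorem one_symm (i k : Fin n) :
    (1 : Matrix (Fin n) (Fin n) ℝ) i k = (1 : Matrix (Fin n) (Fin n) ℝ) k i := by
  simp [Matrix.one_apply, eq_comm]

end Vale.Agent.P225.BergerAux
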