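import Vale.Agent.P225.BergerCalcBasic

/-!
P225, module A: inverse and Christoffel symbols of the model metric.
-/

open scoped BigOperators ContDiff
open Filter Topology Matrix

namespace Vale.Agent.P225.BergerAux

variable {n : ℕ} {J : Matrix (Fin n) (Fin n) ℝ} {a v : ℝ → ℝ}

/-- Coefficient of `x_i δ_kj + x_j δ_ki`, times `r²`. -/
noncomputable def pC (a : ℝ → ℝ) (s : ℝ) : ℝ := deriv a s / (2 * a s)

/-- Coefficient of `x_k δ_ij`, times `r²`. -/
noncomputable def qC (a : ℝ → ℝ) (s : ℝ) : ℝ := 1 - a s - deriv a s / 2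

/-- Coefficient of `x_i x_j x_k`, times `r⁴`. -/
noncomputable def sC (a : ℝ → ℝ) (s : ℝ) : ℝ := deriv a s / 2 - deriv a s / a s + a s - 1

/-- Coefficient of `y_k (x_i y_j + x_j y_i)`, times `r⁴`. -/
noncomputable def uC (a v : ℝ → ℝ) (s : ℝ) : ℝ :=
  deriv v s / (2 * v s) - deriv a s / (2 * a s) + 1 - v s / a s

/-- Coefficient of `x_k y_i y_j`, times `r⁴`. -/
noncomputable def wC (a v : ℝ → ℝ) (s : ℝ) : ℝ :=
  -(deriv v s - deriv a s) / 2 - (v s - a s) + 2 * (v s - a s) / a s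

/-- Coefficient of `J_ki y_j + J_kj y_i`, times `r²`. -/
noncomputable def mC (a v : ℝ → ℝ) (s : ℝ) : ℝ := v s / a s - 1

/-- The inverse model metric. -/
noncomputable def kinv (J : Matrix (Fin n) (Fin n) ℝ) (a v : ℝ → ℝ) (y : Pt n) (k l : Fin n) : ℝ :=
  1 / a (Real.log (rad y)) * (1 : Matrix (Fin n) (Fin n) ℝ) k l +
    (1 - 1 / a (Real.log (rad y))) / rad y ^ 2 * (y k * y l) +
    (1 / v (Real.log (rad y)) - 1 / a (Real.log (rad y))) / rad y ^ 2 *
      ((J *ᵥ y) k * (J *ᵥ y) l)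

theorem sum_kinv (y : Pt n) (k : Fin n) (f : Pt n) :
    ∑ l, kinv J a v y k l * f l =
      1 / a (Real.log (rad y)) * f k +
        (1 - 1 / a (Real.log (rad y))) / rad y ^ 2 * y k * (y ⬝ᵥ f) +
        (1 / v (Real.log (rad y)) - 1 / a (Real.log (rad y))) / rad y ^ 2 * (J *ᵥ y) k *
          ((J *ᵥ y) ⬝ᵥ f) := by
  simp only [kinv, add_mul, Finset.sum_add_distrib, mul_assoc, ← Finset.mul_sum, dotProduct]
  simp [Matrix.one_apply]

/-- Raising the lower index of a lowered symbol of the standard shape. -/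
theorem raise (hJ : IsCS J) {y : Pt n} (hy : y ≠ 0) (i j k : Fin n) (c1 c2 c3 c4 c5 c6 : ℝ) :
    ∑ l, kinv J a v y k l *
        (c1 * (1 : Matrix (Fin n) (Fin n) ℝ) j l + c2 * (1 : Matrix (Fin n) (Fin n) ℝ) i l +
          c3 * y l + c4 * (J *ᵥ y) l + c5 * J l i + c6 * J l j) =
      c1 * kinv J a v y k j + c2 * kinv J a v y k i + c3 * y k +
        c4 * (1 / v (Real.log (rad y))) * (J *ᵥ y) k +
        c5 * (1 / a (Real.log (rad y)) * J k i -
          (1 - 1 / a (Real.log (rad y))) / rad y ^ 2 * y k * (J *ᵥ y) i +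
          (1 / v (Real.log (rad y)) - 1 / a (Real.log (rad y))) / rad y ^ 2 * (J *ᵥ y) k * y i) +
        c6 * (1 / a (Real.log (rad y)) * J k j -
          (1 - 1 / a (Real.log (rad y))) / rad y ^ 2 * y k * (J *ᵥ y) j +
          (1 / v (Real.log (rad y)) - 1 / a (Real.log (rad y))) / rad y ^ 2 * (J *ᵥ y) k * y j) := by
  simp only [mul_add, Finset.sum_add_distrib, mul_left_comm (kinv J a v y k _), ← Finset.mul_sum]
  have hcol : ∀ b, y ⬝ᵥ (fun l => J l b) = -(J *ᵥ y) b := fun b => col_dot hJ y b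
  have hcol' : ∀ b, (J *ᵥ y) ⬝ᵥ (fun l => J l b) = y b := fun b => by
    rw [show (J *ᵥ y) ⬝ᵥ (fun l => J l b) = -(J *ᵥ (J *ᵥ y)) b from col_dot hJ _ b,
      mulVec_twice hJ, Pi.neg_apply, neg_neg]
  have h1 : ∀ b, ∑ l, kinv J a v y k l * (1 : Matrix (Fin n) (Fin n) ℝ) b l = kinv J a v y k b :=
    fun b => by simp [Matrix.one_apply]
  rw [h1, h1, sum_kinv y k y, sum_kinv y k (J *ᵥ y), sum_kinv y k (fun l => J l i),
    sum_kinv y k (fun l => J l j), hcol, hcol, hcol', hcol', dot_mulVec_self hJ,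
    mulVec_dot_self hJ, mulVec_dot_mulVec hJ, ← rad_sq]
  have := rad_pos hy
  field_simp
  ring

theorem bergerMat_apply (y : Pt n) (i k : Fin n) :
    bergerMat J a v y i k =
      rc a 0 y * (1 : Matrix (Fin n) (Fin n) ℝ) i k +
        rc (fun s => 1 - a s) 2 y * (y i * y k) +
        rc (fun s => v s - a s) 2 y * ((J *ᵥ y) i * (J *ᵥ y) k) := by
  simp only [bergerMat, Matrix.of_apply, rc, pow_zero, div_one]
  ring

theorem bergerMat_inv (hJ : IsCS J) (hpa : ∀ t, 0 < a t) (hpv : ∀ t, 0 < v t) {y : Pt n}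
    (hy : y ≠ 0) : (bergerMat J a v y)⁻¹ = Matrix.of (kinv J a v y) := by
  refine Matrix.inv_eq_left_inv (Matrix.ext fun k i => ?_)
  rw [Matrix.mul_apply]
  have h := raise (a := a) (v := v) hJ hy i i k (rc a 0 y) 0
    (rc (fun s => 1 - a s) 2 y * y i) (rc (fun s => v s - a s) 2 y * (J *ᵥ y) i) 0 0
  simp only [zero_mul, add_zero] at h
  refine Eq.trans (Finset.sum_congr rfl fun l _ => ?_) (h.trans ?_)
  · rw [Matrix.of_apply, bergerMat_apply, one_symm]
    ring
  · simp only [kinv, rc, pow_zero, div_one]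
    have := rad_pos hy
    have := hpa (Real.log (rad y))
    have := hpv (Real.log (rad y))
    field_simp
    ring

/-- The derivative of an entry of the model metric. -/
theorem pd_metric (ha : Differentiable ℝ a) (hv : Differentiable ℝ v)
    {g : Pt n → Matrix (Fin n) (Fin n) ℝ} {y : Pt n} (hy : y ≠ 0)
    (hg : ∀ᶠ z in 𝓝 y, g z = bergerMat J a v z) (l i k : Fin n) :
    pd l (fun z => g z i k) y =
      deriv a (Real.log (rad y)) / rad y ^ 2 * y l * (1 : Matrix (Fin n) (Fin n) ℝ) i k +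
      (-deriv a (Real.log (rad y)) - 2 * (1 - a (Real.log (rad y)))) / rad y ^ 4 * y l *
        (y i * y k) +
      rc (fun s => 1 - a s) 2 y * ((1 : Matrix (Fin n) (Fin n) ℝ) i l * y k +
        y i * (1 : Matrix (Fin n) (Fin n) ℝ) k l) +
      (deriv v (Real.log (rad y)) - deriv a (Real.log (rad y)) -
          2 * (v (Real.log (rad y)) - a (Real.log (rad y)))) / rad y ^ 4 * y l *
        ((J *ᵥ y) i * (J *ᵥ y) k) +
      rc (fun s => v s - a s) 2 y * (J i l * (J *ᵥ y) k + (J *ᵥ y) i * J k l) := by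
  have hP := hasGrad_rc 0 hy (ha (Real.log (rad y))).hasDerivAt
  have hQ := hasGrad_rc 2 hy (((ha (Real.log (rad y))).hasDerivAt).const_sub 1)
  have hR := hasGrad_rc 2 hy
    ((hv (Real.log (rad y))).hasDerivAt.fun_sub (ha (Real.log (rad y))).hasDerivAt)
  have h := ((hP.mul (hasGrad_const ((1 : Matrix (Fin n) (Fin n) ℝ) i k) y)).add
    (hQ.mul ((hasGrad_coord i y).mul (hasGrad_coord k y)))).add
    (hR.mul ((hasGrad_mulVec J i y).mul (hasGrad_mulVec J k y)))
  have e : (fun z => g z i k) =ᶠ[𝓝 y] fun z =>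
      rc a 0 z * (1 : Matrix (Fin n) (Fin n) ℝ) i k + rc (fun s => 1 - a s) 2 z * (z i * z k) +
        rc (fun s => v s - a s) 2 z * ((J *ᵥ z) i * (J *ᵥ z) k) :=
    hg.mono fun z hz => by
      show g z i k = _
      rw [hz, bergerMat_apply]
  rw [(h.congr_near e).pd l]
  simp only [Pi.add_apply, Pi.smul_apply, smul_eq_mul, Pi.zero_apply]
  push_cast
  ring

/-- Closed form of the Christoffel symbols. -/
noncomputable def gam (J : Matrix (Fin n) (Fin n) ℝ) (a v : ℝ → ℝ) (k i j : Fin n) (y : Pt n) : ℝ :=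
  rc (pC a) 2 y * (y i * (1 : Matrix (Fin n) (Fin n) ℝ) k j) +
    rc (pC a) 2 y * ((1 : Matrix (Fin n) (Fin n) ℝ) k i * y j) +
    rc (qC a) 2 y * y k * (1 : Matrix (Fin n) (Fin n) ℝ) i j +
    rc (sC a) 4 y * y k * (y i * y j) +
    rc (uC a v) 4 y * (J *ᵥ y) k * (y i * (J *ᵥ y) j) +
    rc (uC a v) 4 y * (J *ᵥ y) k * ((J *ᵥ y) i * y j) +
    rc (wC a v) 4 y * y k * ((J *ᵥ y) i * (J *ᵥ y) j) +
    rc (mC a v) 2 y * (J k i * (J *ᵥ y) j) +
    rc (mC a v) 2 y * ((J *ᵥ y) i * J k j)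

theorem gam_symm (k i j : Fin n) (y : Pt n) : gam J a v k i j y = gam J a v k j i y := by
  simp only [gam, one_symm j i]
  ring

theorem christoffel_eq (hJ : IsCS J) (ha : Differentiable ℝ a) (hv : Differentiable ℝ v)
    (hpa : ∀ t, 0 < a t) (hpv : ∀ t, 0 < v t) {g : Pt n → Matrix (Fin n) (Fin n) ℝ} {y : Pt n}
    (hy : y ≠ 0) (hg : ∀ᶠ z in 𝓝 y, g z = bergerMat J a v z) (k i j : Fin n) :
    christoffel g k i j y = gam J a v k i j y := by
  have h := raise (a := a) (v := v) hJ hy i j k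
    (deriv a (Real.log (rad y)) / rad y ^ 2 * y i)
    (deriv a (Real.log (rad y)) / rad y ^ 2 * y j)
    (2 * rc (fun s => 1 - a s) 2 y * (1 : Matrix (Fin n) (Fin n) ℝ) i j -
      deriv a (Real.log (rad y)) / rad y ^ 2 * (1 : Matrix (Fin n) (Fin n) ℝ) i j +
      (-deriv a (Real.log (rad y)) - 2 * (1 - a (Real.log (rad y)))) / rad y ^ 4 * (y i * y j) -
      (deriv v (Real.log (rad y)) - deriv a (Real.log (rad y)) -
          2 * (v (Real.log (rad y)) - a (Real.log (rad y)))) / rad y ^ 4 *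
        ((J *ᵥ y) i * (J *ᵥ y) j))
    ((deriv v (Real.log (rad y)) - deriv a (Real.log (rad y)) -
          2 * (v (Real.log (rad y)) - a (Real.log (rad y)))) / rad y ^ 4 *
        (y i * (J *ᵥ y) j + y j * (J *ᵥ y) i))
    (2 * rc (fun s => v s - a s) 2 y * (J *ᵥ y) j)
    (2 * rc (fun s => v s - a s) 2 y * (J *ᵥ y) i)
  rw [christoffel, show g y = bergerMat J a v y from hg.self_of_nhds, bergerMat_inv hJ hpa hpv hy]
  simp only [pd_metric ha hv hy hg, Matrix.of_apply]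
  refine (congrArg ((1 / 2 : ℝ) * ·) ((Finset.sum_congr rfl fun l _ => ?_).trans h)).trans ?_
  · rw [one_symm l i, one_symm l j, one_symm j i, anti hJ l i, anti hJ l j, anti hJ i j]
    ring
  · simp only [gam, kinv, rc, pC, qC, sC, uC, wC, mC]
    have := rad_pos hy
    have := hpa (Real.log (rad y))
    have := hpv (Real.log (rad y))
    field_simp
    ring

end Vale.Agent.P225.BergerAux
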