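import Vale.Agent.P225.BergerCalcGamma

/-!
P225, module A: the Ricci form of the model metric.
-/

open scoped BigOperators ContDiff
open Filter Topology Matrix

namespace Vale.Agent.P225.BergerAux

variable {n : ℕ} {J : Matrix (Fin n) (Fin n) ℝ} {a v : ℝ → ℝ}

/-- Coefficient of the trace of the connection, times `r²`. -/
noncomputable def tC (n : ℕ) (a v : ℝ → ℝ) (s : ℝ) : ℝ :=
  ((n : ℝ) + 1) * pC a s + qC a s + sC a s + uC a v s + mC a v s

theorem sum_zz (c : ℝ) (f g z : Pt n) :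
    ∑ i, ∑ j, c * (f i * g j) * z i * z j = c * (f ⬝ᵥ z) * (g ⬝ᵥ z) := by
  simp only [dotProduct, Finset.mul_sum, Finset.sum_mul]
  rw [Finset.sum_comm]
  refine Finset.sum_congr rfl fun i _ => Finset.sum_congr rfl fun j _ => ?_
  ring

theorem sum_z (c : ℝ) (f z : Pt n) (b : ℝ) :
    ∑ j, c * (f j * b) * z j = c * (f ⬝ᵥ z) * b := by
  simp only [dotProduct, Finset.mul_sum, Finset.sum_mul]
  refine Finset.sum_congr rfl fun i _ => ?_
  ring

/-- The contracted connection `V^k = Γ^k_ij z^i z^j`. -/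
theorem gam_zz (hJ : IsCS J) (y z : Pt n) (k : Fin n) :
    ∑ i, ∑ j, gam J a v k i j y * z i * z j =
      2 * rc (pC a) 2 y * (y ⬝ᵥ z) * z k +
        (rc (qC a) 2 y * (z ⬝ᵥ z) + rc (sC a) 4 y * ((y ⬝ᵥ z) * (y ⬝ᵥ z)) +
          rc (wC a v) 4 y * ((y ⬝ᵥ (J *ᵥ z)) * (y ⬝ᵥ (J *ᵥ z)))) * y k +
        -2 * rc (uC a v) 4 y * ((y ⬝ᵥ z) * (y ⬝ᵥ (J *ᵥ z))) * (J *ᵥ y) k +
        -2 * rc (mC a v) 2 y * (y ⬝ᵥ (J *ᵥ z)) * (J *ᵥ z) k := by
  have hd : ∀ c : ℝ, ∑ i, ∑ j, c * (1 : Matrix (Fin n) (Fin n) ℝ) i j * z i * z j =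
      c * (z ⬝ᵥ z) := fun c => by
    simp [Matrix.one_apply, dotProduct, Finset.mul_sum, mul_assoc]
  have h1 : (fun j => (1 : Matrix (Fin n) (Fin n) ℝ) k j) ⬝ᵥ z = z k := by
    simp [dotProduct, Matrix.one_apply]
  have hk : (fun j => J k j) ⬝ᵥ z = (J *ᵥ z) k := rfl
  simp only [gam, add_mul, Finset.sum_add_distrib, sum_zz, hd, h1, hk, mulVec_dot hJ]
  ring

theorem gam_trace (hJ : IsCS J) {y : Pt n} (hy : y ≠ 0) (i : Fin n) :
    ∑ k, gam J a v k i k y = rc (tC n a v) 2 y * y i := by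
  have h1 : ∑ k, (1 : Matrix (Fin n) (Fin n) ℝ) k k = n := by simp
  have h2 : ∀ c : ℝ, ∀ f : Pt n,
      ∑ k, c * ((1 : Matrix (Fin n) (Fin n) ℝ) k i * f k) = c * f i := fun c f => by
    simp [Matrix.one_apply]
  have h3 : ∑ k, y k * (1 : Matrix (Fin n) (Fin n) ℝ) i k = y i := by simp [Matrix.one_apply]
  have h4 : ∑ k, J k k = 0 := trace_zero hJ
  have h5 : ∑ k, J k i * (J *ᵥ y) k = y i := by
    have := col_dot hJ (J *ᵥ y) i
    rw [mulVec_twice hJ, Pi.neg_apply, neg_neg] at this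
    simpa only [mul_comm] using this
  have e1 : ∀ c, ∑ k, c * (y i * (1 : Matrix (Fin n) (Fin n) ℝ) k k) = c * y i * n := fun c => by
    rw [← h1, Finset.mul_sum]; simp only [mul_assoc]
  have e3 : ∀ c, ∑ k, c * y k * (1 : Matrix (Fin n) (Fin n) ℝ) i k = c * y i := fun c => by
    rw [← h3, Finset.mul_sum]; simp only [mul_assoc]
  have e4 : ∀ c, ∑ k, c * y k * (y i * y k) = c * y i * (y ⬝ᵥ y) := fun c => by
    rw [dotProduct, Finset.mul_sum]; exact Finset.sum_congr rfl fun k _ => by ring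
  have e5 : ∀ c, ∑ k, c * (J *ᵥ y) k * (y i * (J *ᵥ y) k) = c * y i * (y ⬝ᵥ y) := fun c => by
    rw [← mulVec_dot_mulVec hJ y y, dotProduct, Finset.mul_sum]
    exact Finset.sum_congr rfl fun k _ => by ring
  have e6 : ∀ c, ∑ k, c * (J *ᵥ y) k * ((J *ᵥ y) i * y k) =
      c * (J *ᵥ y) i * ((J *ᵥ y) ⬝ᵥ y) := fun c => by
    rw [dotProduct, Finset.mul_sum]; exact Finset.sum_congr rfl fun k _ => by ring
  have e7 : ∀ c, ∑ k, c * y k * ((J *ᵥ y) i * (J *ᵥ y) k) =
      c * (J *ᵥ y) i * (y ⬝ᵥ (J *ᵥ y)) := fun c => by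
    rw [dotProduct, Finset.mul_sum]; exact Finset.sum_congr rfl fun k _ => by ring
  have e8 : ∀ c, ∑ k, c * (J k i * (J *ᵥ y) k) = c * y i := fun c => by
    rw [← h5, Finset.mul_sum]
  have e9 : ∀ c, ∑ k, c * ((J *ᵥ y) i * J k k) = 0 := fun c => by
    rw [← Finset.mul_sum, ← Finset.mul_sum, h4]; ring
  simp only [gam, Finset.sum_add_distrib, e1, h2, e3, e4, e5, e6, e7, e8, e9,
    dot_mulVec_self hJ, mulVec_dot_self hJ, ← rad_sq, rc, tC]
  have := rad_pos hy
  field_simp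
  ring

/-- The contraction `M_kl = Γ^k_jl z^j`. -/
theorem gam_z (hJ : IsCS J) (y z : Pt n) :
    Matrix.of (fun k l => ∑ j, gam J a v k j l y * z j) =
      (rc (pC a) 2 y * (y ⬝ᵥ z)) • (1 : Matrix (Fin n) (Fin n) ℝ) +
        (-(rc (mC a v) 2 y * (y ⬝ᵥ (J *ᵥ z)))) • J +
        rc (pC a) 2 y • vecMulVec z y + rc (qC a) 2 y • vecMulVec y z +
        (rc (sC a) 4 y * (y ⬝ᵥ z)) • vecMulVec y y +
        (rc (uC a v) 4 y * (y ⬝ᵥ z)) • vecMulVec (J *ᵥ y) (J *ᵥ y) +
        (-(rc (uC a v) 4 y * (y ⬝ᵥ (J *ᵥ z)))) • vecMulVec (J *ᵥ y) y +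
        (-(rc (wC a v) 4 y * (y ⬝ᵥ (J *ᵥ z)))) • vecMulVec y (J *ᵥ y) +
        rc (mC a v) 2 y • vecMulVec (J *ᵥ z) (J *ᵥ y) := by
  ext k l
  have hd : ∀ c, ∑ j, c * (1 : Matrix (Fin n) (Fin n) ℝ) j l * z j = c * z l := fun c => by
    simp [Matrix.one_apply]
  have h1 : (fun j => (1 : Matrix (Fin n) (Fin n) ℝ) k j) ⬝ᵥ z = z k := by
    simp [dotProduct, Matrix.one_apply]
  have hk : (fun j => J k j) ⬝ᵥ z = (J *ᵥ z) k := rfl
  simp only [Matrix.of_apply, gam, add_mul, Finset.sum_add_distrib, sum_z, hd, h1, hk,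
    mulVec_dot hJ, Matrix.add_apply, Matrix.smul_apply, smul_eq_mul, vecMulVec_apply]
  ring

theorem deriv_coeffs (ha : Differentiable ℝ a) (ha' : Differentiable ℝ (deriv a))
    (hv : Differentiable ℝ v) (hv' : Differentiable ℝ (deriv v))
    (hpa : ∀ t, 0 < a t) (hpv : ∀ t, 0 < v t) (t : ℝ) :
    HasDerivAt (pC a) ((deriv (deriv a) t * a t - deriv a t ^ 2) / (2 * a t ^ 2)) t ∧
    HasDerivAt (pC v) ((deriv (deriv v) t * v t - deriv v t ^ 2) / (2 * v t ^ 2)) t ∧
    HasDerivAt (qC a) (-deriv a t - deriv (deriv a) t / 2) t ∧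
    HasDerivAt (sC a) (deriv (deriv a) t / 2 -
      (deriv (deriv a) t * a t - deriv a t ^ 2) / a t ^ 2 + deriv a t) t ∧
    HasDerivAt (uC a v) ((deriv (deriv v) t * v t - deriv v t ^ 2) / (2 * v t ^ 2) -
      (deriv (deriv a) t * a t - deriv a t ^ 2) / (2 * a t ^ 2) -
      (deriv v t * a t - v t * deriv a t) / a t ^ 2) t ∧
    HasDerivAt (wC a v) (-(deriv (deriv v) t - deriv (deriv a) t) / 2 - (deriv v t - deriv a t) +
      2 * ((deriv v t - deriv a t) * a t - (v t - a t) * deriv a t) / a t ^ 2) t ∧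
    HasDerivAt (mC a v) ((deriv v t * a t - v t * deriv a t) / a t ^ 2) t := by
  have A := (ha t).hasDerivAt
  have A' := (ha' t).hasDerivAt
  have B := (hv t).hasDerivAt
  have B' := (hv' t).hasDerivAt
  have ha0 := (hpa t).ne'
  have hv0 := (hpv t).ne'
  have P1 : HasDerivAt (pC a) ((deriv (deriv a) t * a t - deriv a t ^ 2) / (2 * a t ^ 2)) t :=
    (A'.fun_div (A.const_mul 2) (mul_ne_zero two_ne_zero ha0)).congr_deriv (by field_simp)
  have P2 : HasDerivAt (pC v) ((deriv (deriv v) t * v t - deriv v t ^ 2) / (2 * v t ^ 2)) t :=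
    (B'.fun_div (B.const_mul 2) (mul_ne_zero two_ne_zero hv0)).congr_deriv (by field_simp)
  refine ⟨P1, P2, (A.const_sub 1).fun_sub (A'.div_const 2), ?_, ?_, ?_, ?_⟩
  · exact ((((A'.div_const 2).fun_sub (A'.fun_div A ha0)).fun_add A).sub_const 1).congr_deriv
      (by ring)
  · exact (((P2.fun_sub P1).add_const 1).fun_sub (B.fun_div A ha0)).congr_deriv (by ring)
  · exact ((((B'.fun_sub A').fun_neg.div_const 2).fun_sub (B.fun_sub A)).fun_add
      (((B.fun_sub A).const_mul 2).fun_div A ha0)).congr_deriv (by ring)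
  · exact (B.fun_div A ha0).sub_const 1

/-- The Ricci form, in terms of the coefficients and of their derivatives. -/
theorem ricci_form (hJ : IsCS J) (ha : Differentiable ℝ a) (ha' : Differentiable ℝ (deriv a))
    (hv : Differentiable ℝ v) (hv' : Differentiable ℝ (deriv v))
    (hpa : ∀ t, 0 < a t) (hpv : ∀ t, 0 < v t) {g : Pt n → Matrix (Fin n) (Fin n) ℝ} {x : Pt n}
    (hx : x ≠ 0) (hg : ∀ᶠ y in 𝓝 x, g y = bergerMat J a v y) (z : Pt n)
    {p' q' s' t' w' m' : ℝ} (hp : HasDerivAt (pC a) p' (Real.log (rad x)))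
    (hq : HasDerivAt (qC a) q' (Real.log (rad x))) (hs : HasDerivAt (sC a) s' (Real.log (rad x)))
    (hw : HasDerivAt (wC a v) w' (Real.log (rad x)))
    (hm : HasDerivAt (mC a v) m' (Real.log (rad x)))
    (ht : HasDerivAt (tC n a v) t' (Real.log (rad x))) :
    let t := Real.log (rad x)
    let r := rad x
    let A := x ⬝ᵥ z
    let E := x ⬝ᵥ (J *ᵥ z)
    let c := z ⬝ᵥ z
    let p := pC a t / r ^ 2
    let q := qC a t / r ^ 2
    let s := sC a t / r ^ 4
    let u := uC a v t / r ^ 4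
    let w := wC a v t / r ^ 4
    let m := mC a v t / r ^ 2
    let T := tC n a v t / r ^ 2
    (∑ i, ∑ j, ricci g i j x * z i * z j) =
      (2 * ((p' - 2 * pC a t) / r ^ 4) * A ^ 2 + 2 * p * c) +
      (n * (q * c + s * A ^ 2 + w * E ^ 2) + (q' - 2 * qC a t) / r ^ 2 * c +
        (s' - 4 * sC a t) / r ^ 4 * A ^ 2 + 2 * s * A ^ 2 +
        (w' - 4 * wC a v t) / r ^ 4 * E ^ 2 + 2 * w * E ^ 2) +
      (2 * u * E ^ 2 - 2 * u * A ^ 2) +
      (-2 * ((m' - 2 * mC a v t) / r ^ 4) * E ^ 2 - 2 * m * c) -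
      ((t' - 2 * tC n a v t) / r ^ 4 * A ^ 2 + T * c) +
      T * (2 * p * A ^ 2 + (q * c + s * A ^ 2 + w * E ^ 2) * r ^ 2 - 2 * m * E ^ 2) -
      Matrix.trace (Matrix.of (fun k l => ∑ j, gam J a v k j l x * z j) *
        Matrix.of (fun k l => ∑ j, gam J a v k j l x * z j)) := by
  have hev : ∀ᶠ y in 𝓝 x, ∀ k i j, christoffel g k i j y = gam J a v k i j y := by
    filter_upwards [hg.eventually_nhds, isOpen_ne.mem_nhds hx] with y hy hy0 k i j
    exact christoffel_eq hJ ha hv hpa hpv hy0 hy k i j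
  obtain ⟨u', hu⟩ : ∃ u', HasDerivAt (uC a v) u' (Real.log (rad x)) :=
    ⟨_, (deriv_coeffs ha ha' hv hv' hpa hpv _).2.2.2.2.1⟩
  have hex : ∀ k i j, ∃ G, HasGrad (christoffel g k i j) G x := by
    intro k i j
    have hP := hasGrad_rc 2 hx hp
    have hQ := hasGrad_rc 2 hx hq
    have hS := hasGrad_rc 4 hx hs
    have hU := hasGrad_rc 4 hx hu
    have hW := hasGrad_rc 4 hx hw
    have hM := hasGrad_rc 2 hx hm
    have hC : ∀ l, HasGrad (fun y => y l) _ x := fun l => hasGrad_coord l x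
    have hY : ∀ l, HasGrad (fun y => (J *ᵥ y) l) _ x := fun l => hasGrad_mulVec J l x
    have hK : ∀ c : ℝ, HasGrad (fun _ => c) 0 x := fun c => hasGrad_const c x
    have h := ((((((((hP.mul ((hC i).mul (hK ((1 : Matrix (Fin n) (Fin n) ℝ) k j)))).add
      (hP.mul ((hK ((1 : Matrix (Fin n) (Fin n) ℝ) k i)).mul (hC j)))).add
      ((hQ.mul (hC k)).mul (hK ((1 : Matrix (Fin n) (Fin n) ℝ) i j)))).add ((hS.mul (hC k)).mul ((hC i).mul (hC j)))).add
      ((hU.mul (hY k)).mul ((hC i).mul (hY j)))).add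
      ((hU.mul (hY k)).mul ((hY i).mul (hC j)))).add
      ((hW.mul (hC k)).mul ((hY i).mul (hY j)))).add (hM.mul ((hK (J k i)).mul (hY j)))).add
      (hM.mul ((hY i).mul (hK (J k j))))
    exact ⟨_, h.congr_near (hev.mono fun y hy => hy k i j)⟩
  choose G hG using hex
  -- the divergence term
  have hV : ∀ k, ∑ i, ∑ j, G k i j k * z i * z j =
      z k * ((2 * ((p' - 2 * pC a (Real.log (rad x))) / rad x ^ 4) * (x ⬝ᵥ z)) • x +
        (2 * rc (pC a) 2 x) • z) k +
      (x k * (((q' - 2 * qC a (Real.log (rad x))) / rad x ^ 4 * (z ⬝ᵥ z) +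
          (s' - 4 * sC a (Real.log (rad x))) / rad x ^ 6 * ((x ⬝ᵥ z) * (x ⬝ᵥ z)) +
          (w' - 4 * wC a v (Real.log (rad x))) / rad x ^ 6 *
            ((x ⬝ᵥ (J *ᵥ z)) * (x ⬝ᵥ (J *ᵥ z)))) • x +
          (2 * rc (sC a) 4 x * (x ⬝ᵥ z)) • z +
          (2 * rc (wC a v) 4 x * (x ⬝ᵥ (J *ᵥ z))) • (J *ᵥ z)) k +
        (rc (qC a) 2 x * (z ⬝ᵥ z) + rc (sC a) 4 x * ((x ⬝ᵥ z) * (x ⬝ᵥ z)) +
          rc (wC a v) 4 x * ((x ⬝ᵥ (J *ᵥ z)) * (x ⬝ᵥ (J *ᵥ z))))) +
      (J *ᵥ x) k * ((-2 * ((u' - 4 * uC a v (Real.log (rad x))) / rad x ^ 6) *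
          ((x ⬝ᵥ z) * (x ⬝ᵥ (J *ᵥ z)))) • x +
        (-2 * rc (uC a v) 4 x * (x ⬝ᵥ (J *ᵥ z))) • z +
        (-2 * rc (uC a v) 4 x * (x ⬝ᵥ z)) • (J *ᵥ z)) k +
      (J *ᵥ z) k * ((-2 * ((m' - 2 * mC a v (Real.log (rad x))) / rad x ^ 4) *
          (x ⬝ᵥ (J *ᵥ z))) • x + (-2 * rc (mC a v) 2 x) • (J *ᵥ z)) k := by
    intro k
    have h1 := HasGrad.sum (s := Finset.univ) fun i _ =>
      HasGrad.sum (s := Finset.univ) fun j _ =>
        ((hG k i j).mul (hasGrad_const (z i) x)).mul (hasGrad_const (z j) x)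
    have hA := hasGrad_dot z x
    have hE := hasGrad_dot (J *ᵥ z) x
    have hQc := (hasGrad_rc 2 hx hq).mul (hasGrad_const (z ⬝ᵥ z) x)
    have h2 := ((((((hasGrad_rc 2 hx hp).const_mul 2).mul hA).mul (hasGrad_const (z k) x)).add
      (((hQc.add ((hasGrad_rc 4 hx hs).mul (hA.mul hA))).add
        ((hasGrad_rc 4 hx hw).mul (hE.mul hE))).mul (hasGrad_coord k x))).add
      ((((hasGrad_rc 4 hx hu).const_mul (-2)).mul (hA.mul hE)).mul (hasGrad_mulVec J k x))).add
      ((((hasGrad_rc 2 hx hm).const_mul (-2)).mul hE).mul (hasGrad_const ((J *ᵥ z) k) x))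
    have e := (h2.congr_near (f' := fun y => ∑ i, ∑ j, christoffel g k i j y * z i * z j)
      (hev.mono fun y hy => by
        show ∑ i, ∑ j, christoffel g k i j y * z i * z j = _
        simp only [hy]
        exact gam_zz hJ y z k))
    have := (h1.pd k).symm.trans (e.pd k)
    simp only [Pi.add_apply, Pi.smul_apply, Pi.zero_apply, Finset.sum_apply, smul_eq_mul,
      mul_zero, zero_add, add_zero, Matrix.one_apply_eq, diag_zero hJ k] at this
    refine Eq.trans ?_ (this.trans ?_)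
    · exact Finset.sum_congr rfl fun i _ => Finset.sum_congr rfl fun j _ => by ring
    · simp only [Pi.add_apply, Pi.smul_apply, smul_eq_mul]
      push_cast
      ring
  -- the derivative of the trace
  have hT : ∀ i j, ∑ k, G k i k j = (t' - 2 * tC n a v (Real.log (rad x))) / rad x ^ 4 * x j * x i +
      rc (tC n a v) 2 x * (1 : Matrix (Fin n) (Fin n) ℝ) i j := by
    intro i j
    have h1 := HasGrad.sum (s := Finset.univ) fun k _ => hG k i k
    have e := ((hasGrad_rc 2 hx ht).mul (hasGrad_coord i x)).congr_near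
      (f' := fun y => ∑ k, christoffel g k i k y) (by
        filter_upwards [hev, isOpen_ne.mem_nhds hx] with y hy hy0
        simp only [hy]
        exact gam_trace hJ hy0 i)
    have := (h1.pd j).symm.trans (e.pd j)
    simp only [Pi.add_apply, Pi.smul_apply, Finset.sum_apply, smul_eq_mul] at this
    rw [this]
    push_cast
    ring
  have hx' := hev.self_of_nhds
  have hpd : ∀ k i j l, pd l (christoffel g k i j) x = G k i j l := fun k i j l => (hG k i j).pd l
  have key : ∑ i, ∑ j, ricci g i j x * z i * z j =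
      ∑ k, ∑ i, ∑ j, G k i j k * z i * z j - ∑ i, ∑ j, (∑ k, G k i k j) * z i * z j +
      ∑ l, (∑ k, gam J a v k l k x) * ∑ i, ∑ j, gam J a v l i j x * z i * z j -
      Matrix.trace (Matrix.of (fun k l => ∑ j, gam J a v k j l x * z j) *
        Matrix.of (fun k l => ∑ j, gam J a v k j l x * z j)) := by
    have e1 : ∑ k, ∑ i, ∑ j, G k i j k * z i * z j = ∑ i, ∑ j, ∑ k, G k i j k * z i * z j := by
      rw [Finset.sum_comm]
      exact Finset.sum_congr rfl fun i _ => Finset.sum_comm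
    have e2 : ∑ l, (∑ k, gam J a v k l k x) * ∑ i, ∑ j, gam J a v l i j x * z i * z j =
        ∑ i, ∑ j, ∑ k, ∑ l, gam J a v k k l x * gam J a v l i j x * z i * z j := by
      simp only [Finset.sum_mul, Finset.mul_sum]
      rw [Finset.sum_comm (s := Finset.univ) (t := Finset.univ)]
      rw [Finset.sum_comm]
      conv_lhs => enter [2, a]; rw [Finset.sum_comm]
      simp only [gam_symm _ _ _ _]
      rw [Finset.sum_comm]
      refine (Finset.sum_congr rfl fun i _ => ?_)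
      rw [Finset.sum_comm]
      refine (Finset.sum_congr rfl fun j _ => ?_)
      rw [Finset.sum_comm]
      refine (Finset.sum_congr rfl fun k _ => Finset.sum_congr rfl fun l _ => ?_)
      rw [gam_symm k k l]
      ring
    have e3 : Matrix.trace (Matrix.of (fun k l => ∑ j, gam J a v k j l x * z j) *
        Matrix.of (fun k l => ∑ j, gam J a v k j l x * z j)) =
        ∑ i, ∑ j, ∑ k, ∑ l, gam J a v k j l x * gam J a v l i k x * z i * z j := by
      simp only [Matrix.trace, Matrix.diag, Matrix.mul_apply, Matrix.of_apply, Finset.sum_mul,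
        Finset.mul_sum]
      rw [Finset.sum_comm_cycle]
      refine (Finset.sum_congr rfl fun i _ => ?_)
      rw [Finset.sum_comm_cycle]
      refine (Finset.sum_congr rfl fun j _ => ?_)
      refine (Finset.sum_congr rfl fun k _ => Finset.sum_congr rfl fun l _ => ?_)
      ring
    rw [e1, e2, e3]
    simp only [Finset.sum_mul, ← Finset.sum_sub_distrib, ← Finset.sum_add_distrib]
    refine Finset.sum_congr rfl fun i _ => Finset.sum_congr rfl fun j _ => ?_
    simp only [ricci, hpd, hx', Finset.sum_mul, Finset.mul_sum, ← Finset.sum_add_distrib,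
      ← Finset.sum_sub_distrib]
    refine Finset.sum_congr rfl fun k _ => ?_
    simp only [Finset.sum_sub_distrib, sub_mul, add_mul, Finset.sum_mul]
    ring
  have d1 : ∑ k, ∑ i, ∑ j, G k i j k * z i * z j = _ := Finset.sum_congr rfl fun k _ => hV k
  have d2 : ∑ i, ∑ j, (∑ k, G k i k j) * z i * z j =
      (t' - 2 * tC n a v (Real.log (rad x))) / rad x ^ 4 * (x ⬝ᵥ z) ^ 2 +
      rc (tC n a v) 2 x * (z ⬝ᵥ z) := by
    simp only [hT, add_mul, Finset.sum_add_distrib]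
    congr 1
    · simp only [dotProduct, sq, Finset.mul_sum, Finset.sum_mul]
      refine Finset.sum_congr rfl fun i _ => Finset.sum_congr rfl fun j _ => ?_
      ring
    · simp [Matrix.one_apply, dotProduct, Finset.mul_sum, mul_assoc]
  have d3 : ∑ l, (∑ k, gam J a v k l k x) * ∑ i, ∑ j, gam J a v l i j x * z i * z j = _ :=
    Finset.sum_congr rfl fun l _ => by rw [gam_trace hJ hx l, gam_zz hJ x z l]
  rw [key, d1, d2, d3]
  have dd : ∀ f h : Pt n, ∑ k, f k * h k = f ⬝ᵥ h := fun f h => rfl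
  have dc : ∀ (c d : ℝ) (f h : Pt n), ∑ k, c * f k * (d * h k) = c * d * (f ⬝ᵥ h) :=
    fun c d f h => by
      simp only [dotProduct, Finset.mul_sum]
      exact Finset.sum_congr rfl fun k _ => by ring
  simp only [rc, Finset.sum_add_distrib, mul_add, Finset.sum_const, Finset.card_univ,
    Fintype.card_fin, nsmul_eq_mul]
  simp only [dc]
  simp only [dd, dotProduct_add, dotProduct_smul, smul_eq_mul,
    mulVec_dot hJ x z, mulVec_dot_mulVec hJ, mulVec_dot_self hJ x,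
    dot_mulVec_self hJ x, dotProduct_comm z x, dotProduct_comm (J *ᵥ z) x, ← rad_sq x]
  have := rad_pos hx
  field_simp
  ring

end Vale.Agent.P225.BergerAux
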