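import Vale.Agent.P225.Interfaces4

/-! P225 module M: the glued profile. -/

open Set Filter Topology
open scoped ContDiff

namespace Vale.Agent.P225

theorem gE_strictMono {i₀ : ℕ} : StrictMono (gE i₀) := fun a b h => by
  refine pow_lt_pow_left₀ ?_ (Nat.cast_nonneg _) (by norm_num)
  exact_mod_cast Nat.add_lt_add_right h i₀

theorem gE_tendsto (i₀ : ℕ) : Tendsto (gE i₀) atTop atTop :=
  (tendsto_parN_E).comp (tendsto_add_atTop_nat i₀)

theorem gE_succ (i₀ i : ℕ) : gE i₀ (i + 1) = (((i + i₀ : ℕ) : ℝ) + 1) ^ 9 := by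
  simp only [gE]; push_cast; ring

theorem glue_aux (e : Env) (P i₀ : ℕ) (c : ℕ → Fin P → ℝ) (Js : Fin P → CS20) (J₀ : CS20) (Bc : ℝ)
    (hi₀ : 1 ≤ i₀) (hc : ∀ i, ‖c i‖ ≤ Bc)
    (hcurv : ∀ i t, CurvOK e.w e.ρ ((parN P e.sd (i + i₀)).sFun (c i)) t) :
    (glueProfile e P i₀ c Js J₀).Good ∧
    ∀ (d : ℕ) (D : LevelData d P) (Q : CS20 → Op d),
      (∀ k, D.Qs k = Q (Js k)) → D.Q0 = Q J₀ →
        ContDiff ℝ ∞ (lamGlue D e i₀ c) ∧
        (∀ i, ∀ t ∈ Icc (gE i₀ i) (gE i₀ (i + 1)), lamGlue D e i₀ c t = D.lamN e (i + i₀) (c i) t) ∧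
        (∀ t ≤ gE i₀ 0, lamGlue D e i₀ c t = (D.lam / e.ρ t ^ 2) • (1 : Op d)) ∧
        ∀ t, lamGlue D e i₀ c t = (Real.exp (sGlue P e.sd i₀ c t / 41) / e.ρ t ^ 2) •
          (D.lam • (1 : Op d) +
            (Real.exp (-sGlue P e.sd i₀ c t) - 1) • Q (jGlue P e.sd i₀ Js J₀ t)) := by
  set E := gE i₀
  have hok : ∀ i, (parN P e.sd (i + i₀)).OK := fun i => parN_ok e.sd_pos.le (by omega)
  have hmono : StrictMono E := gE_strictMono
  have hlim : Tendsto E atTop atTop := gE_tendsto i₀
  set r : ℕ → ℝ := fun i => (parN P e.sd (i + i₀)).R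
  have hr : ∀ i, 0 < r i := fun i => CycPar.R_pos (hok i)
  have hr' : ∀ i, E i < E (i + 1) - r i := fun i => by
    have h := (hok i).long
    have hR := hr i
    rw [show E (i + 1) = (parN P e.sd (i + i₀)).E' from gE_succ i₀ i]
    show (parN P e.sd (i + i₀)).E < _
    simp only [r] at hR ⊢
    linarith
  -- each cycle is flat outside `[E i, E (i+1) - R]`
  have hflat : ∀ i u, (u ≤ E i ∨ E (i + 1) - r i ≤ u) →
      (parN P e.sd (i + i₀)).sFun (c i) u = 0 ∧ (∀ k : Fin P, (parN P e.sd (i + i₀)).pulse k u = 0) ∧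
        (parN P e.sd (i + i₀)).plateau u = 0 := by
    intro i u h
    have h' : u ≤ (parN P e.sd (i + i₀)).E ∨
        (parN P e.sd (i + i₀)).E' - (parN P e.sd (i + i₀)).R ≤ u := by
      rcases h with h | h
      · exact Or.inl h
      · refine Or.inr (le_of_eq_of_le ?_ h)
        rw [show E (i + 1) = (parN P e.sd (i + i₀)).E' from gE_succ i₀ i]
    have hR := hr i
    have hl := (hok i).long
    simp only [r] at hR
    refine ⟨CycPar.sFun_eq_zero (hok i) h', fun k => CycPar.pulse_eq_zero_outside (hok i) k ?_,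
      CycPar.plateau_eq_zero (hok i) ?_⟩
    · exact h'.imp_right fun h => by linarith
    · exact h'.imp_left fun h => by linarith
  -- locally one cycle
  have hloc : ∀ t, ∃ i, ∀ᶠ u in 𝓝 t, cycleIdx E u = i ∨ InGap E r u := fun t =>
    glue_local E hlim hmono r hr hr' t
  have hsloc : ∀ t, ∃ i, sGlue P e.sd i₀ c =ᶠ[𝓝 t] (parN P e.sd (i + i₀)).sFun (c i) := fun t => by
    obtain ⟨i, hi⟩ := hloc t
    refine ⟨i, hi.mono fun u hu => ?_⟩
    rcases hu with hu | hu
    · show (parN P e.sd (cycleIdx E u + i₀)).sFun (c (cycleIdx E u)) u = _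
      rw [hu]
    · exact ((hflat _ u (hu _)).1).trans (hflat i u (hu i)).1.symm
  have hs0 : ∀ t ≤ E 0, sGlue P e.sd i₀ c t = 0 := fun t ht =>
    (hflat _ t (Or.inl (ht.trans (hmono.monotone (Nat.zero_le _))))).1
  have hE0 : ∀ t ≤ (0:ℝ), t ≤ E 0 := fun t ht => le_trans ht (by simp only [E, gE]; positivity)
  refine ⟨?_, ?_⟩
  · obtain ⟨C, hC0, hC⟩ := exists_sched_bound P e.sd Bc e.sd_pos.le ((norm_nonneg _).trans (hc 0))
    have hcrv : ∀ t, CurvOK e.w e.ρ (sGlue P e.sd i₀ c) t := fun t => by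
      obtain ⟨i, hi⟩ := hsloc t
      exact (hcurv i t).congr hi
    exact {
      smooth_w := e.rad.smooth
      smooth_s := contDiff_iff_contDiffAt.mpr fun t => by
        obtain ⟨i, hi⟩ := hsloc t
        exact (CycPar.sFun_contDiff (p := parN P e.sd (i + i₀)) (c i)).contDiffAt.congr_of_eventuallyEq hi
      deriv_rho := e.rad.hasDeriv
      bounds := by
        refine ⟨e.ρi, e.ρi_pos, 1 + e.sd + C, fun t => ⟨e.rad.lower t,
          (e.rad.upper t).trans (by linarith [e.sd_pos]), ?_⟩⟩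
        show |sGlue P e.sd i₀ c t| ≤ _
        set i := cycleIdx E t with hi
        have hk : ∀ k, |c i k| ≤ Bc := fun k =>
          ((Real.norm_eq_abs _).symm.trans_le (norm_le_pi_norm (c i) k)).trans (hc i)
        obtain ⟨-, -, h1, h2, -, -⟩ := hC (parN P e.sd (i + i₀)) (hok i) rfl rfl (c i) hk t
        have h3 : C / (parN P e.sd (i + i₀)).R ≤ C := div_le_self hC0 (hok i).one_le
        have h4 : max e.sd (C / (parN P e.sd (i + i₀)).R) ≤ e.sd + C :=
          max_le (by linarith) (by linarith [e.sd_pos])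
        have hv : sGlue P e.sd i₀ c t = (parN P e.sd (i + i₀)).sFun (c i) t := rfl
        rw [hv, abs_le]
        constructor <;> linarith [e.sd_pos]
      flat := fun t ht => ⟨(e.rad.flat t ht).1, hs0 t (hE0 t ht), (e.rad.flat t ht).2⟩
      isCS := fun t => (jGlue P e.sd i₀ Js J₀ t).2
      locJ := fun t => by
        obtain ⟨i, hi⟩ := hloc t
        obtain ⟨a, -, ha⟩ := CycPar.pick_local (hok i) (c i) Js J₀ t
        refine ⟨a.1, a.2, (hi.and ha).mono fun u hu => ?_⟩
        rcases hu.1 with h | h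
        · have e1 : sGlue P e.sd i₀ c u = (parN P e.sd (i + i₀)).sFun (c i) u := by
            show (parN P e.sd (cycleIdx E u + i₀)).sFun (c (cycleIdx E u)) u = _
            rw [h]
          have e2 : jGlue P e.sd i₀ Js J₀ u = (parN P e.sd (i + i₀)).pick Js J₀ u := by
            show (parN P e.sd (cycleIdx E u + i₀)).pick Js J₀ u = _
            rw [h]
          exact hu.2.imp (fun h' => e1.trans h') fun h' => by
            show (jGlue P e.sd i₀ Js J₀ u).1 = a.1
            rw [e2, h']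
        · exact Or.inl (hflat _ u (h _)).1
      curvR := fun t => by
        have h := (hcrv t).1
        norm_num [glueProfile] at h ⊢
        linarith
      curvH := fun t => by
        have h := (hcrv t).2.1
        norm_num [glueProfile] at h ⊢
        linarith
      curvV := fun t => by
        have h := (hcrv t).2.2
        norm_num [glueProfile] at h ⊢
        linarith }
  intro d D Q hQs hQ0
  set base : ℝ → Op d := fun u => (D.lam / e.ρ u ^ 2) • (1 : Op d) with hbase
  have hbflat : ∀ i u, (u ≤ E i ∨ E (i + 1) - r i ≤ u) → D.lamN e (i + i₀) (c i) u = base u := by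
    intro i u h
    obtain ⟨h1, h2, h3⟩ := hflat i u h
    simp [LevelData.lamN, hbase, h1, h2, h3, smul_smul, div_eq_mul_inv, mul_comm]
    have z : ∀ x : Op d, (0 : ℝ) • x = 0 := fun x => by module
    simp [z]
  refine ⟨contDiff_iff_contDiffAt.mpr fun t => ?_, fun i t ht => ?_, fun t ht => ?_, fun t => ?_⟩
  · obtain ⟨i, hi⟩ := hloc t
    refine (lamN_contDiff D e (i + i₀) (c i)).contDiffAt.congr_of_eventuallyEq (hi.mono fun u hu => ?_)
    rcases hu with hu | hu
    · show D.lamN e (cycleIdx E u + i₀) (c (cycleIdx E u)) u = _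
      rw [hu]
    · exact (hbflat _ u (hu _)).trans (hbflat i u (hu i)).symm
  · have h := glue_eq E hlim hmono (fun m u => D.lamN e (m + i₀) (c m) u - base u)
      (fun m u hu => by
        show D.lamN e (m + i₀) (c m) u - base u = 0
        rw [hbflat m u (hu.imp_right fun h => by linarith [hr m]), sub_self]) ht
    exact sub_left_inj.mp h
  · exact hbflat _ t (Or.inl (ht.trans (hmono.monotone (Nat.zero_le _))))
  · show D.lamN e (cycleIdx E t + i₀) (c (cycleIdx E t)) t = _
    set i := cycleIdx E t with hi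
    have h := CycPar.smul_pick (hok i) (c i) t (fun x => Real.exp (-x) - 1) (by simp) Js J₀ Q
    have hv : sGlue P e.sd i₀ c t = (parN P e.sd (i + i₀)).sFun (c i) t := rfl
    have hj : jGlue P e.sd i₀ Js J₀ t = (parN P e.sd (i + i₀)).pick Js J₀ t := rfl
    rw [hv, hj, h, ← hQ0]
    simp only [LevelData.lamN, hQs]

/-- module M -/
theorem glue : GlueStmt := glue_aux

end Vale.Agent.P225
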