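import Mathlib
import Vale.Agent.P228.Key

/-!
P225: a continuous map of a ball that is close to the identity vanishes somewhere.
This follows from the degree identity `integral_comp_mul_jac`.
-/

open MeasureTheory Set Metric
open scoped ContDiff

namespace Vale.Agent.P225

open Vale.Agent.P228 (Vec coordAlg coordAlg_dense integral_comp_mul_jac)

theorem coordAlg_contDiff {n : ℕ} {P : C(Vec n, ℝ)} (hP : P ∈ coordAlg n) :
    ContDiff ℝ ∞ P := by
  induction hP using Algebra.adjoin_induction with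
  | mem P hP =>
    obtain ⟨i, rfl⟩ := hP
    exact contDiff_apply ℝ ℝ i
  | algebraMap r => exact contDiff_const
  | add P Q _ _ h1 h2 => exact h1.add h2
  | mul P Q _ _ h1 h2 => exact h1.mul h2

/-- A continuous map within `1/4` of the identity on the unit ball has a zero there. -/
theorem exists_zero_unit {n : ℕ} {h : Vec n → Vec n} (hc : Continuous h)
    (hclose : ∀ x, ‖x‖ ≤ 1 → ‖h x - x‖ ≤ 1 / 4) : ∃ x, ‖x‖ ≤ 1 ∧ h x = 0 := by
  by_contra hno
  push Not at hno
  set K := closedBall (0 : Vec n) 1 with hK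
  have hKc : IsCompact K := isCompact_closedBall 0 1
  obtain ⟨x₀, hx₀, hmin⟩ := hKc.exists_isMinOn ⟨0, by simp [hK]⟩ hc.norm.continuousOn
  have hm : 0 < ‖h x₀‖ := norm_pos_iff.2 (hno x₀ (by simpa [hK] using hx₀))
  obtain ⟨δ, hδdef⟩ : ∃ δ, δ = min (‖h x₀‖) (1 / 4) / 2 := ⟨_, rfl⟩
  have hδ : 0 < δ := by rw [hδdef]; exact half_pos (lt_min hm (by norm_num))
  have hδm : δ < ‖h x₀‖ := by
    rw [hδdef]; linarith [min_le_left (‖h x₀‖) (1 / 4), lt_min hm (show (0:ℝ) < 1/4 by norm_num)]
  have hδ8 : δ ≤ 1 / 8 := by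
    rw [hδdef]; linarith [min_le_right (‖h x₀‖) (1 / 4)]
  choose P hP hPd using fun i => coordAlg_dense hKc ((continuous_apply i).comp hc) hδ
  let p : Vec n → Vec n := fun x i => P i x
  have hp : ContDiff ℝ ∞ p := contDiff_pi.2 fun i => coordAlg_contDiff (hP i)
  have hpd : ∀ x ∈ K, ‖p x - h x‖ ≤ δ := fun x hx =>
    (pi_norm_le_iff_of_nonneg hδ.le).2 fun i => by
      rw [Real.norm_eq_abs]; exact (hPd i x hx).le
  let χ : ContDiffBump (0 : Vec n) := ⟨1 / 2, 1, by norm_num, by norm_num⟩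
  let F : Vec n → Vec n := fun x => x + χ x • (p x - x)
  have hF : ContDiff ℝ 1 F :=
    contDiff_id.add (χ.contDiff.smul ((hp.of_le (by exact_mod_cast le_top)).sub contDiff_id))
  have hid : ∀ x, 1 < ‖x‖ → F x = x := by
    intro x hx
    have : χ x = 0 := χ.zero_of_le_dist (by rw [dist_zero_right]; exact hx.le)
    simp [F, this]
  have hne : ∀ x, F x ≠ 0 := by
    intro x hx0
    rcases lt_or_ge 1 ‖x‖ with h1 | h1
    · rw [hid x h1] at hx0
      simp [hx0] at h1
      linarith
    have hxK : x ∈ K := by simpa [hK] using h1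
    rcases le_or_gt ‖x‖ (1 / 2) with h2 | h2
    · have : χ x = 1 := χ.one_of_mem_closedBall (mem_closedBall.2 (by rw [dist_zero_right]; exact h2))
      have hp0 : p x = 0 := by simpa [F, this] using hx0
      have h3 := hpd x hxK
      rw [hp0, zero_sub, norm_neg] at h3
      have := (isMinOn_iff.1 hmin) x hxK
      linarith
    · have h3 : ‖p x - x‖ ≤ 3 / 8 := by
        calc ‖p x - x‖ ≤ ‖p x - h x‖ + ‖h x - x‖ := norm_sub_le_norm_sub_add_norm_sub _ _ _
          _ ≤ δ + 1 / 4 := add_le_add (hpd x hxK) (hclose x h1)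
          _ ≤ _ := by linarith
      have h4 : ‖x‖ ≤ ‖χ x • (p x - x)‖ := by
        have : x = -(χ x • (p x - x)) := eq_neg_of_add_eq_zero_left hx0
        conv_lhs => rw [this, norm_neg]
      rw [norm_smul, Real.norm_of_nonneg χ.nonneg] at h4
      have : χ x * ‖p x - x‖ ≤ 1 * (3 / 8) :=
        mul_le_mul χ.le_one h3 (norm_nonneg _) zero_le_one
      linarith
  have himg : IsClosed (F '' K) := (hKc.image hF.continuous).isClosed
  obtain ⟨ε, hε, hball⟩ := Metric.isOpen_iff.1 himg.isOpen_compl 0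
    (by rintro ⟨x, -, hx⟩; exact hne x hx)
  let ψ : ContDiffBump (0 : Vec n) :=
    ⟨min ε 1 / 2, min ε 1, half_pos (lt_min hε one_pos), by linarith [lt_min hε one_pos]⟩
  have hψF : ∀ x, ψ (F x) = 0 := by
    intro x
    refine ψ.zero_of_le_dist ?_
    show min ε 1 ≤ dist (F x) 0
    rcases lt_or_ge 1 ‖x‖ with h1 | h1
    · rw [hid x h1, dist_zero_right]
      linarith [min_le_right ε 1]
    · by_contra hlt
      push Not at hlt
      exact hball (mem_ball.2 (hlt.trans_le (min_le_left _ _)))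
        ⟨x, by simpa [hK] using h1, rfl⟩
  have key := integral_comp_mul_jac hF hid ψ.continuous ψ.hasCompactSupport
  simp only [hψF, zero_mul, integral_zero] at key
  exact absurd key.symm (ψ.integral_pos (μ := volume)).ne'

/-- A continuous map within `r/4` of the identity on the ball of radius `r` has a zero there. -/
theorem exists_zero_of_close {n : ℕ} {g : Vec n → Vec n} (hc : Continuous g) {r : ℝ} (hr : 0 < r)
    (hclose : ∀ x, ‖x‖ ≤ r → ‖g x - x‖ ≤ r / 4) : ∃ x, ‖x‖ ≤ r ∧ g x = 0 := by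
  obtain ⟨x, hx, hx0⟩ := exists_zero_unit (h := fun x => r⁻¹ • g (r • x))
    ((hc.comp (continuous_const_smul r)).const_smul r⁻¹) (fun x hx => by
      have h1 : ‖r • x‖ ≤ r := by
        rw [norm_smul, Real.norm_of_nonneg hr.le]
        exact mul_le_of_le_one_right hr.le hx
      have h2 : r⁻¹ • g (r • x) - x = r⁻¹ • (g (r • x) - r • x) := by
        rw [smul_sub, smul_smul, inv_mul_cancel₀ hr.ne', one_smul]
      rw [h2, norm_smul, Real.norm_of_nonneg (inv_nonneg.2 hr.le)]
      calc r⁻¹ * ‖g (r • x) - r • x‖ ≤ r⁻¹ * (r / 4) :=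
            mul_le_mul_of_nonneg_left (hclose _ h1) (inv_nonneg.2 hr.le)
        _ = _ := by field_simp)
  refine ⟨r • x, ?_, ?_⟩
  · rw [norm_smul, Real.norm_of_nonneg hr.le]
    exact mul_le_of_le_one_right hr.le hx
  · simpa [hr.ne'] using hx0

end Vale.Agent.P225
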