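import Vale.Agent.P225.Interfaces2
import Vale.Agent.P225.SteerZero

/-!
P225 MODULE G: if operators Lie-generate all trace-zero tuples, then some word in their
exponentials robustly reaches a signed version of any permutations, up to scalars on each level.
-/

open scoped BigOperators ContDiff Topology
open Filter NormedSpace

namespace Vale.Agent.P225

open Vale.Agent.P228 (Vec)

set_option synthInstance.maxHeartbeats 100000

section words

variable {𝔸 : Type*} [NormedRing 𝔸] [NormedAlgebra ℝ 𝔸] [CompleteSpace 𝔸]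

/-- Ordered product of exponentials, later slots on the left. -/
noncomputable def wordEval {P : ℕ} (Q : Fin P → 𝔸) (c : Fin P → ℝ) : 𝔸 :=
  (List.ofFn fun k => exp (c k • Q k)).reverse.prod

omit [CompleteSpace 𝔸] in
theorem wordEval_append {P P' : ℕ} (Q : Fin P → 𝔸) (Q' : Fin P' → 𝔸) (c : Fin P → ℝ)
    (c' : Fin P' → ℝ) :
    wordEval (Fin.append Q Q') (Fin.append c c') = wordEval Q' c' * wordEval Q c := by
  have : (fun k => exp (Fin.append c c' k • Fin.append Q Q' k)) =
      Fin.append (fun k => exp (c k • Q k)) (fun k => exp (c' k • Q' k)) := by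
    funext k
    induction k using Fin.addCases <;> simp
  rw [wordEval, this, List.ofFn_fin_append, List.reverse_append, List.prod_append]
  rfl

theorem exp_mul_exp_neg (X : 𝔸) : exp X * exp (-X) = 1 := by
  let := NormedAlgebra.restrictScalars ℚ ℝ 𝔸
  rw [← exp_add_of_commute ((Commute.refl X).neg_right), add_neg_cancel, exp_zero]

theorem exp_of_sq_zero {N : 𝔸} (h : N * N = 0) : exp N = 1 + N := by
  simp only [exp_eq_tsum ℝ]
  rw [tsum_eq_sum (s := Finset.range 2)]
  · simp [Finset.sum_range_succ]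
  · intro k hk
    obtain ⟨e, rfl⟩ : ∃ e, k = e + 2 := ⟨k - 2, by
      simp only [Finset.mem_range, not_lt] at hk; omega⟩
    simp [pow_add, pow_two, h]

/-- Words in exponentials of `gens` with slots depending affinely on a parameter. -/
inductive Word (gens : Set 𝔸) {m : ℕ} : (Vec m → 𝔸) → Prop
  | one : Word gens (fun _ => 1)
  | atom (Q : 𝔸) (hQ : Q ∈ gens) (c : ℝ) (ℓ : Vec m →L[ℝ] ℝ) :
      Word gens (fun v => exp ((c + ℓ v) • Q))
  | mul {F G : Vec m → 𝔸} : Word gens F → Word gens G → Word gens (fun v => F v * G v)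

/-- The elements given by words. -/
def InG (gens : Set 𝔸) (g : 𝔸) : Prop := ∀ m : ℕ, Word gens (fun _ : Vec m => g)

variable {gens : Set 𝔸}

omit [CompleteSpace 𝔸] in
theorem InG.exp {Q : 𝔸} (hQ : Q ∈ gens) (c : ℝ) : InG gens (exp (c • Q)) := fun m => by
  simpa using Word.atom (m := m) Q hQ c 0

omit [CompleteSpace 𝔸] in
theorem InG.one : InG gens (1 : 𝔸) := fun _ => Word.one

omit [CompleteSpace 𝔸] in
theorem InG.mul {g g' : 𝔸} (h : InG gens g) (h' : InG gens g') : InG gens (g * g') :=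
  fun m => Word.mul (h m) (h' m)

omit [CompleteSpace 𝔸] in
theorem Word.inG {m : ℕ} {F : Vec m → 𝔸} (h : Word gens F) (v : Vec m) : InG gens (F v) := by
  induction h with
  | one => exact InG.one
  | atom Q hQ c ℓ => exact InG.exp hQ _
  | mul _ _ h1 h2 => exact h1.mul h2

theorem Word.exists_inv {m : ℕ} {F : Vec m → 𝔸} (h : Word gens F) (v : Vec m) :
    ∃ g, InG gens g ∧ F v * g = 1 ∧ g * F v = 1 := by
  induction h with
  | one => exact ⟨1, InG.one, one_mul 1, one_mul 1⟩
  | atom Q hQ c ℓ =>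
    refine ⟨NormedSpace.exp ((-(c + ℓ v)) • Q), InG.exp hQ _, ?_, ?_⟩
    · rw [neg_smul, exp_mul_exp_neg]
    · have := exp_mul_exp_neg ((-(c + ℓ v)) • Q)
      rwa [neg_smul, neg_neg, ← neg_smul] at this
  | @mul F G _ _ h1 h2 =>
    obtain ⟨a, ha, ha1, ha2⟩ := h1
    obtain ⟨b, hb, hb1, hb2⟩ := h2
    refine ⟨b * a, hb.mul ha, ?_, ?_⟩
    · rw [mul_assoc, ← mul_assoc (G v), hb1, one_mul, ha1]
    · rw [mul_assoc, ← mul_assoc a, ha2, one_mul, hb2]

theorem InG.exists_inv {g : 𝔸} (h : InG gens g) :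
    ∃ g', InG gens g' ∧ g * g' = 1 ∧ g' * g = 1 :=
  (h 0).exists_inv 0

theorem Word.continuous {m : ℕ} {F : Vec m → 𝔸} (h : Word gens F) : Continuous F := by
  let := NormedAlgebra.restrictScalars ℚ ℝ 𝔸
  induction h with
  | one => exact continuous_const
  | atom Q hQ c ℓ => exact exp_continuous.comp ((continuous_const.add ℓ.continuous).smul continuous_const)
  | mul _ _ h1 h2 => exact h1.mul h2

omit [CompleteSpace 𝔸] in
theorem Word.exists_rep {m : ℕ} {F : Vec m → 𝔸} (h : Word gens F) :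
    ∃ (P : ℕ) (Q : Fin P → 𝔸) (c₀ : Fin P → ℝ) (R : Vec m →L[ℝ] (Fin P → ℝ)),
      (∀ k, Q k ∈ gens) ∧ ∀ v, F v = wordEval Q (c₀ + R v) := by
  induction h with
  | one => exact ⟨0, Fin.elim0, 0, 0, fun k => k.elim0, fun v => by simp [wordEval]⟩
  | atom Q hQ c ℓ =>
    refine ⟨1, fun _ => Q, fun _ => c, ContinuousLinearMap.pi fun _ => ℓ, fun _ => hQ, fun v => ?_⟩
    simp [wordEval]
  | @mul F G _ _ h1 h2 =>
    obtain ⟨P1, Q1, c1, R1, hQ1, hF⟩ := h1
    obtain ⟨P2, Q2, c2, R2, hQ2, hG⟩ := h2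
    refine ⟨P2 + P1, Fin.append Q2 Q1, Fin.append c2 c1,
      ContinuousLinearMap.pi (Fin.append (fun i => (ContinuousLinearMap.proj i).comp R2)
        (fun i => (ContinuousLinearMap.proj i).comp R1)), fun k => ?_, fun v => ?_⟩
    · induction k using Fin.addCases with
      | left i => simpa using hQ2 i
      | right i => simpa using hQ1 i
    · show F v * G v = _
      rw [hF, hG, ← wordEval_append]
      congr 1
      funext k
      induction k using Fin.addCases <;> simp

/-- Conjugates of generators by words. -/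
def conjSet (gens : Set 𝔸) : Set 𝔸 :=
  {X | ∃ g g' Q, InG gens g ∧ InG gens g' ∧ g * g' = 1 ∧ g' * g = 1 ∧ Q ∈ gens ∧ X = g * Q * g'}

theorem conjSet_exp {X : 𝔸} (hX : X ∈ conjSet gens) {Q : 𝔸} (hQ : Q ∈ gens) (t : ℝ) :
    exp (t • Q) * X * exp ((-t) • Q) ∈ conjSet gens := by
  obtain ⟨g, g', Q', hg, hg', h1, h2, hQ', rfl⟩ := hX
  have e1 : exp (t • Q) * exp ((-t) • Q) = 1 := by rw [neg_smul, exp_mul_exp_neg]
  have e2 : exp ((-t) • Q) * exp (t • Q) = 1 := by
    have := exp_mul_exp_neg ((-t) • Q)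
    rwa [neg_smul, neg_neg, ← neg_smul] at this
  refine ⟨exp (t • Q) * g, g' * exp ((-t) • Q), Q', (InG.exp hQ t).mul hg,
    hg'.mul (InG.exp hQ (-t)), ?_, ?_, hQ', by simp only [mul_assoc]⟩
  · rw [mul_assoc, ← mul_assoc g, h1, one_mul, e1]
  · rw [mul_assoc, ← mul_assoc (exp _), e2, one_mul, h2]

theorem span_conjSet_ad [FiniteDimensional ℝ 𝔸] {Q : 𝔸} (hQ : Q ∈ gens) {X : 𝔸}
    (hX : X ∈ Submodule.span ℝ (conjSet gens)) :
    Q * X - X * Q ∈ Submodule.span ℝ (conjSet gens) := by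
  induction hX using Submodule.span_induction with
  | mem X hX =>
    set S := Submodule.span ℝ (conjSet gens)
    let f : ℝ → 𝔸 := fun t => exp (t • Q) * X * exp (t • -Q)
    have hd : HasDerivAt f (Q * X - X * Q) 0 := by
      have h := ((hasDerivAt_exp_smul_const Q (0 : ℝ)).mul_const X).mul
        (hasDerivAt_exp_smul_const (-Q) (0 : ℝ))
      simp only [f]
      refine h.congr_deriv ?_
      simp [sub_eq_add_neg]
    refine (Submodule.closed_of_finiteDimensional S).mem_of_tendsto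
      (hasDerivAt_iff_tendsto_slope.1 hd) (Eventually.of_forall fun t => ?_)
    have hf : ∀ s, f s ∈ S := fun s => Submodule.subset_span (by
      simpa [f] using conjSet_exp hX hQ s)
    exact S.smul_mem _ (S.sub_mem (hf t) (hf 0))
  | zero => simp
  | add X Y _ _ hX hY =>
    rw [mul_add, add_mul, add_sub_add_comm]
    exact Submodule.add_mem _ hX hY
  | smul a X _ hX =>
    rw [mul_smul_comm, smul_mul_assoc, ← smul_sub]
    exact Submodule.smul_mem _ a hX

/-- Linear maps realised as derivatives of words through `1`. -/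
def IsTangent (gens : Set 𝔸) {m : ℕ} (A : Vec m →L[ℝ] 𝔸) : Prop :=
  ∃ F : Vec m → 𝔸, Word gens F ∧ F 0 = 1 ∧ HasStrictFDerivAt F A 0

theorem isTangent_conj {m : ℕ} {X : 𝔸} (hX : X ∈ conjSet gens) (ℓ : Vec m →L[ℝ] ℝ) :
    IsTangent gens (ℓ.smulRight X) := by
  obtain ⟨g, g', Q, hg, hg', h1, h2, hQ, rfl⟩ := hX
  refine ⟨fun v => g * exp ((0 + ℓ v) • Q) * g',
    Word.mul (Word.mul (hg m) (Word.atom Q hQ 0 ℓ)) (hg' m), by simp [h1], ?_⟩
  have h : HasStrictFDerivAt (fun v => exp (ℓ v • Q))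
      (((ContinuousLinearMap.id ℝ ℝ).smulRight Q).comp ℓ) 0 := by
    have hs := (hasStrictDerivAt_exp_smul_const Q (0 : ℝ)).hasStrictFDerivAt
    simp only [zero_smul, exp_zero, one_mul] at hs
    have hs' : HasStrictFDerivAt (fun u : ℝ => exp (u • Q))
        ((ContinuousLinearMap.id ℝ ℝ).smulRight Q) (ℓ 0) := by
      rw [map_zero]
      refine hs.congr_fderiv ?_
      ext
      simp
    exact hs'.comp 0 ℓ.hasStrictFDerivAt
  simp only [zero_add]
  refine HasStrictFDerivAt.congr_fderiv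
    (HasStrictFDerivAt.mul_const' (HasStrictFDerivAt.const_mul h g) g') ?_
  ext v
  simp [mul_assoc]

theorem isTangent_sum {m : ℕ} {ι : Type*} (s : Finset ι) (A : ι → (Vec m →L[ℝ] 𝔸))
    (h : ∀ i ∈ s, IsTangent gens (A i)) : IsTangent gens (∑ i ∈ s, A i) := by
  classical
  induction s using Finset.induction_on with
  | empty => exact ⟨fun _ => 1, Word.one, rfl, by simpa using hasStrictFDerivAt_const (1 : 𝔸) 0⟩
  | insert a s ha ih =>
    obtain ⟨F, hF, hF0, hFd⟩ := h a (Finset.mem_insert_self a s)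
    obtain ⟨G, hG, hG0, hGd⟩ := ih fun i hi => h i (Finset.mem_insert_of_mem hi)
    refine ⟨fun v => F v * G v, Word.mul hF hG, by simp [hF0, hG0], ?_⟩
    refine (hFd.mul' hGd).congr_fderiv ?_
    rw [Finset.sum_insert ha, hF0, hG0]
    ext v
    simp [add_comm]

end words

section steer

variable {Lm : ℕ} {d : Fin Lm → ℕ}

/-- Trace-free part on each level. -/
noncomputable def tfree : Tup d →ₗ[ℝ] Tup d where
  toFun X l := X l - (LinearMap.trace ℝ _ (X l).toLinearMap / (d l : ℝ)) • 1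
  map_add' X Y := by
    funext l
    simp only [Pi.add_apply, ContinuousLinearMap.toLinearMap_add, map_add, add_div]
    ext x : 1
    simp only [sub_apply, add_apply, smul_apply, add_smul]
    abel
  map_smul' a X := by
    funext l
    simp only [Pi.smul_apply, ContinuousLinearMap.toLinearMap_smul, map_smul, RingHom.id_apply,
      smul_eq_mul]
    ext x : 1
    simp [mul_div_assoc, smul_sub, smul_smul]

theorem trace_tfree (X : Tup d) (l : Fin Lm) :
    LinearMap.trace ℝ _ (tfree X l).toLinearMap = 0 := by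
  have h1 : LinearMap.trace ℝ _ (1 : Lev (d l) →L[ℝ] Lev (d l)).toLinearMap = (d l : ℝ) := by
    simp [ContinuousLinearMap.one_def]
  simp only [tfree, LinearMap.coe_mk, AddHom.coe_mk, ContinuousLinearMap.toLinearMap_sub,
    ContinuousLinearMap.toLinearMap_smul, map_sub, map_smul, h1, smul_eq_mul]
  rcases Nat.eq_zero_or_pos (d l) with h0 | h0
  · have hX : X l = 0 := by
      ext x i
      exact Fin.elim0 (h0 ▸ i)
    simp [hX, h0]
  · have : (d l : ℝ) ≠ 0 := Nat.cast_ne_zero.2 h0.ne'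
    field_simp
    ring

theorem tfree_of_trace {X : Tup d} (h : ∀ l, LinearMap.trace ℝ _ (X l).toLinearMap = 0) :
    tfree X = X := by
  funext l
  simp only [tfree, LinearMap.coe_mk, AddHom.coe_mk, h l, zero_div]
  ext x : 1
  simp

theorem tfree_one : tfree (1 : Tup d) = 0 := by
  funext l
  rcases Nat.eq_zero_or_pos (d l) with h0 | h0
  · ext x i
    exact Fin.elim0 (h0 ▸ i)
  · have : (d l : ℝ) ≠ 0 := Nat.cast_ne_zero.2 h0.ne'
    ext x : 1
    simp [tfree, ContinuousLinearMap.one_def, this]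

/-- Coordinates of the trace-free part vanish exactly on tuples of scalars. -/
theorem scalar_of_tfree {X : Tup d} (h : tfree X = 0) (l : Fin Lm) :
    ∃ a : ℝ, X l = a • 1 :=
  ⟨_, sub_eq_zero.1 (congrFun h l)⟩

/-- Tuples reached by words up to a nonzero scalar on each level. -/
def InGS (gens : Set (Tup d)) (Y : Tup d) : Prop :=
  ∃ g, InG gens g ∧ ∀ l, ∃ a : ℝ, a ≠ 0 ∧ Y l = a • g l

theorem InGS.one {gens : Set (Tup d)} : InGS gens (1 : Tup d) :=
  ⟨1, InG.one, fun _ => ⟨1, one_ne_zero, (one_smul ℝ _).symm⟩⟩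

theorem InGS.mul {gens : Set (Tup d)} {Y Y' : Tup d} (h : InGS gens Y) (h' : InGS gens Y') :
    InGS gens (Y * Y') := by
  obtain ⟨g, hg, ha⟩ := h
  obtain ⟨g', hg', ha'⟩ := h'
  refine ⟨g * g', hg.mul hg', fun l => ?_⟩
  obtain ⟨a, ha0, hY⟩ := ha l
  obtain ⟨a', ha0', hY'⟩ := ha' l
  refine ⟨a * a', mul_ne_zero ha0 ha0', ?_⟩
  rw [Pi.mul_apply, Pi.mul_apply, hY, hY']
  ext x : 1
  simp [smul_smul, mul_comm]

/-- The robust local reachability of scalars near `1`. -/
theorem exists_robust {gens : Set (Tup d)}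
    (hgen : ∀ H : Submodule ℝ (Tup d), gens ⊆ H → (∀ Q ∈ gens, ∀ X ∈ H, Q * X - X * Q ∈ H) →
      ∀ X : Tup d, (∀ l, LinearMap.trace ℝ _ (X l).toLinearMap = 0) → X ∈ H) :
    ∃ (m : ℕ) (F : Vec m → Tup d) (r η : ℝ), Word gens F ∧ 0 < r ∧ 0 < η ∧
      ∀ Z : Vec m → Tup d, Continuous Z → (∀ v, ‖v‖ ≤ r → ‖Z v - F v‖ ≤ η) →
        ∃ v, ‖v‖ ≤ r ∧ ∀ l, ∃ a : ℝ, a ≠ 0 ∧ Z v l = a • 1 := by
  classical
  have hS : ∀ X : Tup d, (∀ l, LinearMap.trace ℝ _ (X l).toLinearMap = 0) →
      X ∈ Submodule.span ℝ (conjSet gens) := by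
    refine hgen _ (fun Q hQ => Submodule.subset_span
      ⟨1, 1, Q, InG.one, InG.one, one_mul 1, one_mul 1, hQ, by simp⟩) ?_
    exact fun Q hQ X hX => span_conjSet_ad hQ hX
  obtain ⟨b, hb, hbspan, hbli⟩ := exists_linearIndependent ℝ (conjSet gens)
  have : Fintype b := hbli.setFinite.fintype
  let V := LinearMap.range (tfree (d := d))
  have : Module.Free ℝ V := Module.Free.of_divisionRing ℝ V
  let D := Module.finrank ℝ V
  let e : V ≃ₗ[ℝ] Vec D := (Module.finBasis ℝ V).equivFun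
  let K₀ : Tup d →ₗ[ℝ] Vec D := e.toLinearMap.comp (tfree (d := d)).rangeRestrict
  let K : Tup d →L[ℝ] Vec D := LinearMap.toContinuousLinearMap K₀
  have hK0 : ∀ X, K X = 0 → tfree X = 0 := by
    intro X hX
    have : (tfree (d := d)).rangeRestrict X = 0 :=
      e.map_eq_zero_iff.1 hX
    simpa using congrArg Subtype.val this
  have hK1 : K 1 = 0 := by
    have : (tfree (d := d)).rangeRestrict 1 = 0 := Subtype.ext tfree_one
    show e _ = 0
    rw [this, map_zero]
  let M : (b → ℝ) →ₗ[ℝ] Vec D := Fintype.linearCombination ℝ (fun x : b => K (x : Tup d))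
  have hM : LinearMap.range M = ⊤ := by
    rw [eq_top_iff]
    intro y _
    obtain ⟨X, hX⟩ : ∃ X, X = ((e.symm y : V) : Tup d) := ⟨_, rfl⟩
    have htr : ∀ l, LinearMap.trace ℝ _ (X l).toLinearMap = 0 := by
      obtain ⟨X', hX'⟩ := (e.symm y).2
      intro l
      rw [hX, ← hX']
      exact trace_tfree X' l
    have hKX : K X = y := by
      have : (tfree (d := d)).rangeRestrict X = e.symm y := Subtype.ext (by
        show tfree X = _
        rw [tfree_of_trace htr, hX])
      show e _ = y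
      rw [this, e.apply_symm_apply]
    have hXb : X ∈ Submodule.span ℝ b := hbspan ▸ hS X htr
    rw [Fintype.range_linearCombination, ← hKX]
    have := Submodule.mem_map_of_mem (f := K₀) hXb
    rw [Submodule.map_span] at this
    refine Submodule.span_mono ?_ this
    rintro _ ⟨x, hx, rfl⟩
    exact ⟨⟨x, hx⟩, rfl⟩
  obtain ⟨R, hR⟩ := M.exists_rightInverse_of_surjective hM
  let R' : Vec D →L[ℝ] (b → ℝ) := LinearMap.toContinuousLinearMap R
  obtain ⟨F, hF, hF0, hFd⟩ := isTangent_sum Finset.univ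
    (fun x : b => ((ContinuousLinearMap.proj x).comp R').smulRight (x : Tup d))
    (fun x _ => isTangent_conj (hb x.2) _)
  have hgd : HasStrictFDerivAt (fun v => K (F v)) (ContinuousLinearMap.id ℝ (Vec D)) 0 := by
    refine (K.hasStrictFDerivAt.comp 0 hFd).congr_fderiv ?_
    refine ContinuousLinearMap.ext fun v => ?_
    have := LinearMap.congr_fun hR v
    simp only [M, LinearMap.comp_apply, Fintype.linearCombination_apply, LinearMap.id_apply] at this
    simpa [R', map_sum] using this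
  have hev : ∀ᶠ v in 𝓝 (0 : Vec D), ‖K (F v) - v‖ ≤ 1 / 8 * ‖v‖ ∧ ‖F v - 1‖ < 1 / 2 := by
    refine Eventually.and ?_ ?_
    · have := (hgd.hasFDerivAt.isLittleO.def (show (0:ℝ) < 1 / 8 by norm_num))
      filter_upwards [this] with v hv
      simpa [hF0, hK1] using hv
    · have hc : ContinuousAt (fun v => ‖F v - 1‖) 0 :=
        ((hF.continuous.sub continuous_const).norm).continuousAt
      exact hc.eventually_lt continuousAt_const (by simp [hF0])
  obtain ⟨r, hr, hr'⟩ := Metric.nhds_basis_closedBall.eventually_iff.1 hev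
  refine ⟨D, F, r, min (1 / 4) (r / (8 * (‖K‖ + 1))), hF, hr, by positivity, fun Z hZ hclose => ?_⟩
  obtain ⟨v, hv, hv0⟩ := exists_zero_of_close (g := fun v => K (Z v)) (K.continuous.comp hZ) hr
    (fun v hv => by
      have h1 := (hr' (show v ∈ Metric.closedBall 0 r by simpa using hv)).1
      have h2 : ‖K (Z v - F v)‖ ≤ r / 8 := by
        calc ‖K (Z v - F v)‖ ≤ ‖K‖ * ‖Z v - F v‖ := K.le_opNorm _
          _ ≤ (‖K‖ + 1) * (r / (8 * (‖K‖ + 1))) := by
              gcongr
              · linarith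
              · exact (hclose v hv).trans (min_le_right _ _)
          _ = r / 8 := by field_simp
      calc ‖K (Z v) - v‖ = ‖K (Z v - F v) + (K (F v) - v)‖ := by rw [map_sub]; congr 1; abel
        _ ≤ r / 8 + 1 / 8 * ‖v‖ := (norm_add_le _ _).trans (add_le_add h2 h1)
        _ ≤ r / 4 := by linarith)
  refine ⟨v, hv, fun l => ?_⟩
  obtain ⟨a, ha⟩ := scalar_of_tfree (hK0 _ hv0) l
  rcases ne_or_eq a 0 with h | h
  · exact ⟨a, h, ha⟩
  refine ⟨1, one_ne_zero, ?_⟩
  replace ha : Z v l = 0 := by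
    rw [ha, h]
    ext x : 1
    simp
  have h3 : ‖(Z v - 1) l‖ < 1 := by
    refine lt_of_le_of_lt (norm_le_pi_norm _ l) ?_
    calc ‖Z v - 1‖ ≤ ‖Z v - F v‖ + ‖F v - 1‖ := norm_sub_le_norm_sub_add_norm_sub _ _ _
      _ < 1 / 4 + 1 / 2 := add_lt_add_of_le_of_lt ((hclose v hv).trans (min_le_left _ _))
            (hr' (show v ∈ Metric.closedBall 0 r by simpa using hv)).2
      _ < 1 := by norm_num
  rw [Pi.sub_apply, ha, zero_sub, norm_neg, Pi.one_apply] at h3
  rcases subsingleton_or_nontrivial (Lev (d l)) with hs | hs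
  · ext x i
    rw [Subsingleton.elim x 0]
    simp
  · rw [norm_one] at h3
    exact absurd h3 (lt_irrefl _)

theorem inGS_exp {gens : Set (Tup d)}
    (hgen : ∀ H : Submodule ℝ (Tup d), gens ⊆ H → (∀ Q ∈ gens, ∀ X ∈ H, Q * X - X * Q ∈ H) →
      ∀ X : Tup d, (∀ l, LinearMap.trace ℝ _ (X l).toLinearMap = 0) → X ∈ H)
    (X : Tup d) : InGS gens (exp X) := by
  let := NormedAlgebra.restrictScalars ℚ ℝ (Tup d)
  obtain ⟨m, F, r, η, hF, hr, hη, hrob⟩ := exists_robust hgen
  have hsmall : ∀ᶠ Y in 𝓝 (0 : Tup d), InGS gens (exp Y) := by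
    obtain ⟨C, hC⟩ := (isCompact_closedBall (0 : Vec m) r).exists_bound_of_continuousOn
      hF.continuous.continuousOn
    have hc : ContinuousAt (fun Y : Tup d => ‖exp (-Y) - 1‖ * (max C 0 + 1)) 0 :=
      (((exp_continuous.comp continuous_neg).sub continuous_const).norm.mul
        continuous_const).continuousAt
    filter_upwards [hc.eventually_lt continuousAt_const (show _ < η by simpa using hη)] with Y hY
    obtain ⟨v, -, hv⟩ := hrob (fun v => exp (-Y) * F v) (continuous_const.mul hF.continuous)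
      (fun v hv => by
        have hCv := hC v (by simpa using hv)
        calc ‖exp (-Y) * F v - F v‖ = ‖(exp (-Y) - 1) * F v‖ := by rw [sub_mul, one_mul]
          _ ≤ ‖exp (-Y) - 1‖ * ‖F v‖ := norm_mul_le _ _
          _ ≤ ‖exp (-Y) - 1‖ * (max C 0 + 1) := by
              gcongr
              linarith [le_max_left C 0]
          _ ≤ η := hY.le)
    refine ⟨F v, hF.inG v, fun l => ?_⟩
    obtain ⟨a, ha, h⟩ := hv l
    refine ⟨a⁻¹, inv_ne_zero ha, ?_⟩
    have h' : F v l = (exp Y * (exp (-Y) * F v)) l := by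
      rw [← mul_assoc, exp_mul_exp_neg, one_mul]
    rw [h', Pi.mul_apply, h]
    ext x : 1
    simp [map_smul, smul_smul, inv_mul_cancel₀ ha]
  have ht : Tendsto (fun n : ℕ => ((n : ℝ) + 1)⁻¹ • X) atTop (𝓝 0) := by
    have h : Tendsto (fun n : ℕ => ((n : ℝ) + 1)⁻¹) atTop (𝓝 0) := by
      simpa [one_div] using tendsto_one_div_add_atTop_nhds_zero_nat (𝕜 := ℝ)
    have h' := h.smul_const X
    rwa [zero_smul ℝ X] at h'
  obtain ⟨n, hn⟩ := (ht.eventually hsmall).exists
  have hX : X = (n + 1) • (((n : ℝ) + 1)⁻¹ • X) := by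
    rw [← Nat.cast_smul_eq_nsmul ℝ, smul_smul]
    push_cast
    rw [mul_inv_cancel₀ (by positivity), one_smul]
  rw [hX, exp_nsmul]
  generalize n + 1 = k
  induction k with
  | zero => rw [pow_zero]; exact InGS.one
  | succ k ih => rw [pow_succ]; exact ih.mul hn

/-- The elementary operator `E_{ij}` on one level. -/
noncomputable def elem (l : Fin Lm) (i k : Fin (d l)) : Lev (d l) →L[ℝ] Lev (d l) :=
  (EuclideanSpace.proj k).smulRight (EuclideanSpace.single i (1 : ℝ))

theorem elem_single (l : Fin Lm) (i k t : Fin (d l)) :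
    elem l i k (EuclideanSpace.single t 1) = if k = t then EuclideanSpace.single i 1 else 0 := by
  simp only [elem, ContinuousLinearMap.smulRight_apply, EuclideanSpace.coe_proj,
    EuclideanSpace.single_apply]
  split_ifs <;> simp

/-- Reachable tuples permuting the coordinate axes. -/
def Perms (gens : Set (Tup d)) (σ : (l : Fin Lm) → Equiv.Perm (Fin (d l))) : Prop :=
  ∃ T : Tup d, InGS gens T ∧ ∀ l i, ∃ a : ℝ, a ≠ 0 ∧
    T l (EuclideanSpace.single i 1) = a • EuclideanSpace.single (σ l i) 1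

theorem elem_swap {l : Fin Lm} {i k : Fin (d l)} (hik : i ≠ k) (t : Fin (d l)) :
    ∃ a : ℝ, a ≠ 0 ∧ ((1 + elem l i k) * (1 + -elem l k i) * (1 + elem l i k))
      (EuclideanSpace.single t 1) = a • EuclideanSpace.single (Equiv.swap i k t) 1 := by
  simp only [ContinuousLinearMap.mul_apply, add_apply, neg_apply, ContinuousLinearMap.one_apply,
    elem_single]
  rcases eq_or_ne t i with rfl | hti
  · refine ⟨-1, by norm_num, ?_⟩
    simp [hik, hik.symm, elem_single]
  rcases eq_or_ne t k with rfl | htk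
  · refine ⟨1, one_ne_zero, ?_⟩
    simp [hik, hik.symm, elem_single]
  · refine ⟨1, one_ne_zero, ?_⟩
    simp [hti.symm, htk.symm, Equiv.swap_apply_of_ne_of_ne hti htk, elem_single]

theorem inGS_shear {gens : Set (Tup d)}
    (hgen : ∀ H : Submodule ℝ (Tup d), gens ⊆ H → (∀ Q ∈ gens, ∀ X ∈ H, Q * X - X * Q ∈ H) →
      ∀ X : Tup d, (∀ l, LinearMap.trace ℝ _ (X l).toLinearMap = 0) → X ∈ H)
    (l : Fin Lm) (E : Lev (d l) →L[ℝ] Lev (d l)) (hE : E * E = 0) :
    InGS gens (1 + Pi.single l E : Tup d) := by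
  rw [← exp_of_sq_zero (N := (Pi.single l E : Tup d)) (by rw [← Pi.single_mul, hE, Pi.single_zero])]
  exact inGS_exp hgen _

theorem elem_sq {l : Fin Lm} {p q : Fin (d l)} (hpq : p ≠ q) : elem l p q * elem l p q = 0 := by
  ext x : 1
  simp [elem, hpq.symm]

theorem neg_elem_sq {l : Fin Lm} {p q : Fin (d l)} (hpq : p ≠ q) :
    -elem l p q * -elem l p q = 0 := by
  ext x : 1
  simp [elem, hpq.symm]

theorem perms_swap {gens : Set (Tup d)}
    (hgen : ∀ H : Submodule ℝ (Tup d), gens ⊆ H → (∀ Q ∈ gens, ∀ X ∈ H, Q * X - X * Q ∈ H) →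
      ∀ X : Tup d, (∀ l, LinearMap.trace ℝ _ (X l).toLinearMap = 0) → X ∈ H)
    (l : Fin Lm) {i k : Fin (d l)} (hik : i ≠ k) :
    Perms gens (Function.update (1 : (l : Fin Lm) → Equiv.Perm (Fin (d l))) l (Equiv.swap i k)) := by
  have h1 : InGS gens (1 + Pi.single l (elem l i k) : Tup d) :=
    inGS_shear hgen l _ (elem_sq hik)
  have h2 : InGS gens (1 + Pi.single l (-elem l k i) : Tup d) :=
    inGS_shear hgen l _ (neg_elem_sq hik.symm)
  refine ⟨_, (h1.mul h2).mul h1, fun l' t => ?_⟩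
  rcases eq_or_ne l' l with rfl | hl
  · rw [Function.update_self, Pi.mul_apply, Pi.mul_apply, Pi.add_apply, Pi.add_apply,
      Pi.single_eq_same, Pi.single_eq_same, Pi.one_apply]
    exact elem_swap hik t
  · refine ⟨1, one_ne_zero, ?_⟩
    rw [Function.update_of_ne hl, Pi.mul_apply, Pi.mul_apply, Pi.add_apply, Pi.add_apply,
      Pi.single_eq_of_ne hl, Pi.single_eq_of_ne hl, Pi.one_apply]
    simp

theorem Perms.mul {gens : Set (Tup d)} {σ τ : (l : Fin Lm) → Equiv.Perm (Fin (d l))}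
    (h : Perms gens σ) (h' : Perms gens τ) : Perms gens (σ * τ) := by
  obtain ⟨T, hT, hTa⟩ := h
  obtain ⟨T', hT', hTa'⟩ := h'
  refine ⟨T * T', hT.mul hT', fun l i => ?_⟩
  obtain ⟨a', ha', e'⟩ := hTa' l i
  obtain ⟨a, ha, e⟩ := hTa l (τ l i)
  refine ⟨a' * a, mul_ne_zero ha' ha, ?_⟩
  rw [Pi.mul_apply, ContinuousLinearMap.mul_apply, e', map_smul, e, smul_smul]
  rfl

theorem perms_all {gens : Set (Tup d)}
    (hgen : ∀ H : Submodule ℝ (Tup d), gens ⊆ H → (∀ Q ∈ gens, ∀ X ∈ H, Q * X - X * Q ∈ H) →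
      ∀ X : Tup d, (∀ l, LinearMap.trace ℝ _ (X l).toLinearMap = 0) → X ∈ H)
    (σ : (l : Fin Lm) → Equiv.Perm (Fin (d l))) : Perms gens σ := by
  classical
  have hone : Perms gens (1 : (l : Fin Lm) → Equiv.Perm (Fin (d l))) :=
    ⟨1, InGS.one, fun l i => ⟨1, one_ne_zero, by simp⟩⟩
  have hsingle : ∀ l (π : Equiv.Perm (Fin (d l))), Perms gens (Pi.mulSingle l π) := by
    intro l π
    induction π using Equiv.Perm.swap_induction_on with
    | one => rw [Pi.mulSingle_one]; exact hone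
    | swap_mul f x y hxy ih =>
      rw [Pi.mulSingle_mul]
      exact (perms_swap hgen l hxy).mul ih
  have key : ∀ s : Finset (Fin Lm), Perms gens (fun l => if l ∈ s then σ l else 1) := by
    intro s
    induction s using Finset.induction_on with
    | empty =>
      convert hone using 1
      funext l
      simp
    | insert a s ha ih =>
      convert (hsingle a (σ a)).mul ih using 1
      funext l
      rcases eq_or_ne l a with rfl | hl
      · simp [ha]
      · simp [hl, Pi.mulSingle_eq_of_ne hl]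
  simpa using key Finset.univ

/-- MODULE G. -/
theorem steer : SteerStmt := by
  intro Lm d gens hgen σ
  obtain ⟨T, ⟨g₀, hg₀, hTg⟩, hT⟩ := perms_all hgen σ
  refine ⟨T, hT, ?_⟩
  obtain ⟨m, F, r, η, hF, hr, hη, hrob⟩ := exists_robust hgen
  obtain ⟨g', hg', h1, h2⟩ := hg₀.exists_inv
  obtain ⟨P, Q, c₀, R, hQ, hrep⟩ := (Word.mul (hg₀ m) hF).exists_rep
  refine ⟨P, Q, ‖c₀‖ + ‖R‖ * r, η / (‖g'‖ + 1), hQ, by positivity, fun Z hZ hclose => ?_⟩
  have hB : ∀ v : Vec m, ‖v‖ ≤ r → ‖c₀ + R v‖ ≤ ‖c₀‖ + ‖R‖ * r := fun v hv =>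
    (norm_add_le _ _).trans (add_le_add le_rfl
      ((R.le_opNorm v).trans (mul_le_mul_of_nonneg_left hv (norm_nonneg _))))
  obtain ⟨v, hv, ha⟩ := hrob (fun v => g' * Z (c₀ + R v))
    (continuous_const.mul (hZ.comp (continuous_const.add R.continuous))) (fun v hv => by
      have h3 : F v = g' * slotExp Q (c₀ + R v) := by
        have : slotExp Q (c₀ + R v) = g₀ * F v := (hrep v).symm
        rw [this, ← mul_assoc, h2, one_mul]
      rw [h3, ← mul_sub]
      calc _ ≤ ‖g'‖ * ‖Z (c₀ + R v) - slotExp Q (c₀ + R v)‖ := norm_mul_le _ _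
        _ ≤ (‖g'‖ + 1) * (η / (‖g'‖ + 1)) := by
            gcongr
            · linarith
            · exact hclose _ (hB v hv)
        _ = η := by field_simp)
  choose a ha0 ha using ha
  choose b hb0 hb using hTg
  refine ⟨c₀ + R v, hB v hv, fun l => a l * (b l)⁻¹, fun l => ?_⟩
  refine ⟨mul_ne_zero (ha0 l) (inv_ne_zero (hb0 l)), ?_⟩
  have h4 : Z (c₀ + R v) l = (g₀ * (g' * Z (c₀ + R v))) l := by
    rw [← mul_assoc, h1, one_mul]
  rw [h4, Pi.mul_apply, ha l, hb l]
  ext x : 1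
  simp [map_smul, smul_smul, mul_assoc, inv_mul_cancel₀ (hb0 l)]

end steer

end Vale.Agent.P225
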