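import Vale.Agent.P225.Schedule
import Vale.Agent.P225.Steer
import Vale.Agent.P225.Glue
import Vale.Agent.P225.Average

/-! P225: the analytic core. -/

open Set Filter Topology
open scoped ContDiff RealInnerProductSpace

namespace Vale.Agent.P225

theorem finRotate_iterate_val (m i : ℕ) (j : Fin (m + 1)) :
    (((finRotate (m + 1))^[i] j : Fin (m + 1)) : ℕ) = ((j : ℕ) + i) % (m + 1) := by
  induction i with
  | zero => simp [Nat.mod_eq_of_lt j.isLt]
  | succ i ih =>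
    rw [Function.iterate_succ_apply', finRotate_apply, Fin.val_add, ih, Fin.val_one']
    simp only [Nat.mod_add_mod, Nat.add_mod_mod, Nat.add_assoc]

/-- A permutation moving a given finite set as one cycle. -/
theorem exists_band_cycle {ι : Type*} [DecidableEq ι] (B : Finset ι) :
    ∃ σ : Equiv.Perm ι, ∀ r ∈ B, σ^[B.card] r = r ∧
      ∀ g : ι → ℝ, ∑ i ∈ Finset.range B.card, g (σ^[i + 1] r) = ∑ x ∈ B, g x := by
  classical
  rcases Nat.eq_zero_or_eq_succ_pred B.card with h0 | hs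
  · exact ⟨1, fun r hr => absurd h0 (Finset.card_pos.mpr ⟨r, hr⟩).ne'⟩
  set m := B.card.pred
  let f : Fin (m + 1) ≃ {x // x ∈ B} := (finCongr hs.symm).trans B.equivFin.symm
  refine ⟨(finRotate (m + 1)).extendDomain f, fun r hr => ?_⟩
  have hit : ∀ (i : ℕ) (j : Fin (m + 1)), ((finRotate (m + 1)).extendDomain f)^[i] (f j : ι) =
      (f ((finRotate (m + 1))^[i] j) : ι) := by
    intro i
    induction i with
    | zero => intro j; rfl
    | succ i ih =>
      intro j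
      rw [Function.iterate_succ_apply', ih, Equiv.Perm.extendDomain_apply_image,
        Function.iterate_succ_apply']
  obtain ⟨j, hj⟩ := f.surjective ⟨r, hr⟩
  have hjr : (f j : ι) = r := by rw [hj]
  rw [hs]
  refine ⟨?_, fun g => ?_⟩
  · rw [← hjr, hit]
    congr 2
    apply Fin.ext
    rw [finRotate_iterate_val]
    show ((j : ℕ) + (m + 1)) % (m + 1) = j
    rw [Nat.add_mod_right, Nat.mod_eq_of_lt j.isLt]
  · show ∑ i ∈ Finset.range (m + 1), _ = _
    calc ∑ i ∈ Finset.range (m + 1), g (((finRotate (m + 1)).extendDomain f)^[i + 1] r)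
        = ∑ i ∈ Finset.range (m + 1), g (f ((finRotate (m + 1))^[i + 1] j) : ι) := by
          refine Finset.sum_congr rfl fun i _ => ?_
          rw [← hjr, hit]
      _ = ∑ x : Fin (m + 1), g (f ((finRotate (m + 1))^[(x : ℕ) + 1] j) : ι) :=
          (Fin.sum_univ_eq_sum_range (fun i => g (f ((finRotate (m + 1))^[i + 1] j) : ι)) _).symm
      _ = ∑ x : Fin (m + 1), g (f x : ι) := by
          refine Fintype.sum_equiv (Equiv.addLeft (j + 1)) _ _ fun x => ?_
          congr 3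
          apply Fin.ext
          rw [finRotate_iterate_val, Equiv.coe_addLeft]
          simp only [Fin.val_add, Fin.val_one', Nat.mod_add_mod, Nat.add_mod_mod]
          congr 1
          omega
      _ = ∑ x : {x // x ∈ B}, g x := f.sum_comp (fun x : {x // x ∈ B} => g x)
      _ = ∑ x ∈ B, g x := Finset.sum_coe_sort B g

theorem exp_sd_lt {τ κ : ℝ} (hτ : 0 < τ) (hτ1 : τ < 1) (hgain : 1 < κ * (1 - τ / 20)) :
    0 < κ ∧ Real.exp (Real.log (1 + τ) / 41) < κ := by
  have h20 : 0 < 1 - τ / 20 := by linarith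
  have hκ : 0 < κ := by
    by_contra h
    nlinarith [mul_nonpos_of_nonpos_of_nonneg (not_lt.mp h) h20.le]
  refine ⟨hκ, ?_⟩
  have hlog : Real.log (1 + τ) ≤ τ := by
    have := Real.log_le_sub_one_of_pos (show (0:ℝ) < 1 + τ by linarith)
    linarith
  have h1 : Real.exp (Real.log (1 + τ) / 41) ≤ Real.exp (τ / 41) :=
    Real.exp_le_exp.mpr (by linarith)
  have h2 : Real.exp (τ / 41) * (1 - τ / 41) ≤ 1 := by
    have := mul_le_mul_of_nonneg_left (Real.add_one_le_exp (-(τ / 41))) (Real.exp_pos (τ / 41)).le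
    rw [← Real.exp_add, add_neg_cancel, Real.exp_zero] at this
    linarith
  have h3 : Real.exp (Real.log (1 + τ) / 41) * (1 - τ / 20) ≤ 1 :=
    le_trans (mul_le_mul h1 (by linarith) h20.le (Real.exp_pos _).le) h2
  exact lt_of_mul_lt_mul_right (h3.trans_lt hgain) h20.le

theorem compExp_strict {τ κ : ℝ} (hτ : 0 < τ) (hκ : 0 < κ) {L m : ℕ} (hm : m ≤ L) {ε : ℝ}
    (hε : 0 < ε) :
    0 ≤ compExp τ κ L m ∧
      κ * ((L : ℝ) * (L + 40) - τ / (1 + τ) * (m : ℝ) ^ 2) <
        (compExp τ κ L m + ε) ^ 2 + 40 * (compExp τ κ L m + ε) := by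
  have hm' : (m : ℝ) ^ 2 ≤ (L : ℝ) ^ 2 := pow_le_pow_left₀ (by positivity) (by exact_mod_cast hm) 2
  have hq : τ / (1 + τ) ≤ 1 := (div_le_one (by linarith)).mpr (by linarith)
  have hq0 : 0 ≤ τ / (1 + τ) := by positivity
  have hL : (0:ℝ) ≤ L := Nat.cast_nonneg L
  have hX : 0 ≤ κ * ((L : ℝ) * (L + 40) - τ / (1 + τ) * (m : ℝ) ^ 2) := by
    refine mul_nonneg hκ.le ?_
    nlinarith [mul_le_mul_of_nonneg_right hq (sq_nonneg (m : ℝ))]
  set X := κ * ((L : ℝ) * (L + 40) - τ / (1 + τ) * (m : ℝ) ^ 2)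
  have hs : Real.sqrt (X + 400) ^ 2 = X + 400 := Real.sq_sqrt (by linarith)
  have h20 : 20 ≤ Real.sqrt (X + 400) := by
    calc (20:ℝ) = Real.sqrt (20 ^ 2) := (Real.sqrt_sq (by norm_num)).symm
      _ ≤ _ := Real.sqrt_le_sqrt (by linarith)
  simp only [compExp]
  refine ⟨by linarith, ?_⟩
  nlinarith

theorem toEuclideanCLM_coord {d : ℕ} (M : Matrix (Fin d) (Fin d) ℝ) (v : Lev d) (i : Fin d) :
    Matrix.toEuclideanCLM (𝕜 := ℝ) M v i = ∑ q, M i q * v q := by
  simp [Matrix.mulVec, dotProduct]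

/-- The level data of the given matrices. -/
noncomputable def mkLevel {d P : ℕ} (L : ℕ) (hL : 1 ≤ L) (m : Fin d → ℕ) (hm : ∀ i, m i ≤ L)
    (A : CS20 → Matrix (Fin d) (Fin d) ℝ) (J₀ : CS20)
    (hA : A J₀ = Matrix.diagonal fun i => (m i : ℝ) ^ 2) (Js : Fin P → CS20) : LevelData d P where
  lam := (L : ℝ) * ((L : ℝ) + 40)
  Qs k := Matrix.toEuclideanCLM (𝕜 := ℝ) (A (Js k))
  Q0 := Matrix.toEuclideanCLM (𝕜 := ℝ) (A J₀)
  m i := (m i : ℝ)
  lam_pos := by
    have : (1:ℝ) ≤ L := by exact_mod_cast hL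
    positivity
  Q0_apply v i := by
    rw [hA]
    exact diagOp_apply (fun i => (m i : ℝ) ^ 2) v i
  m_le i := by
    have h1 : (m i : ℝ) ≤ L := by exact_mod_cast hm i
    have h2 : (0:ℝ) ≤ m i := Nat.cast_nonneg _
    nlinarith

theorem scalar_solution_eqs {d : ℕ} {Λ : ℝ → Op d} {b : ℝ → ℝ} {Y : ℝ → Op d × Op d}
    (hY : ∀ t, HasDerivAt Y (sysOp (Λ t) (b t) (Y t)) t) (v : Lev d) (i : Fin d) (t : ℝ) :
    deriv (deriv fun s => (Y s).1 v i) t + b t * deriv (fun s => (Y s).1 v i) t =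
      Λ t ((Y t).1 v) i := by
  have h1 : ∀ t, HasDerivAt (fun s => (Y s).1 v i) ((Y t).2 v i) t := fun t =>
    hasDerivAt_coord ((solOn_apply (a := t) (a' := t) (fun s _ => hY s) v).dU t ⟨le_rfl, le_rfl⟩) i
  have h2 : HasDerivAt (fun s => (Y s).2 v i) ((Λ t ((Y t).1 v) - b t • (Y t).2 v) i) t :=
    hasDerivAt_coord ((solOn_apply (a := t) (a' := t) (fun s _ => hY s) v).dP t ⟨le_rfl, le_rfl⟩) i
  have e : deriv (fun s => (Y s).1 v i) = fun s => (Y s).2 v i := funext fun s => (h1 s).deriv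
  rw [e, h2.deriv]
  simp

theorem core : CoreStmt := by
  intro τ κ hτ hτ1 hgain k Lm d m A hJ hdiag hm hfull band hband
  classical
  obtain ⟨hκ, hexp⟩ := exp_sd_lt hτ hτ1 hgain
  set sd := Real.log (1 + τ)
  set ρi := Real.sqrt (Real.exp (sd / 41) / κ)
  have hρi : 0 < ρi := Real.sqrt_pos.mpr (div_pos (Real.exp_pos _) hκ)
  have hρsq : ρi ^ 2 = Real.exp (sd / 41) / κ := Real.sq_sqrt (by positivity)
  have hρ1 : ρi < 1 := by
    rw [← abs_of_pos hρi, ← abs_one, ← sq_lt_sq, one_pow, hρsq, div_lt_one hκ]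
    exact hexp
  obtain ⟨w, ρ, hrad⟩ := exists_radial hρi hρ1
  let e : Env := ⟨ρi, sd, w, ρ, hrad, hρi, Real.log_pos (by linarith)⟩
  let lamL : Fin Lm → ℝ := fun l => (((l : ℕ) + 2 : ℕ) : ℝ) * ((((l : ℕ) + 2 : ℕ) : ℝ) + 40)
  have hlam : ∀ l, 0 < lamL l := fun l => by simp only [lamL]; positivity
  choose σ hσ using fun l => exists_band_cycle (band l)
  obtain ⟨T, hT, P, Q, Bc, ηs, hQ, hηs, hsteer⟩ :=
    steer Lm d _ (hfull (fun l => -e.gain (lamL l)) fun l => neg_ne_zero.mpr (e.gain_pos (hlam l)).ne') σ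
  choose Js hJs using hQ
  let J₀ : CS20 := ⟨stdJ 20, hJ⟩
  let Ds : (l : Fin Lm) → LevelData (d l) P := fun l =>
    mkLevel ((l : ℕ) + 2) (by omega) (m l) (hm l) (fun J => A J l) J₀ (hdiag l) Js
  have hQeq : (fun k l => (Ds l).gen e k) = Q := funext fun k => funext fun l => by
    rw [← hJs k]
    exact (neg_smul _ _).symm
  set g : (l : Fin Lm) → Fin (d l) → ℝ := fun l q => compExp τ κ ((l : ℕ) + 2) (m l q)
  set ε : Fin Lm → ℝ := fun l =>
    if (band l).Nonempty then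
      ((k : ℝ) * (band l).card - ∑ i ∈ band l, g l i) / (2 * (band l).card) else 1
  have hε : ∀ l, 0 < ε l := fun l => by
    simp only [ε]
    split_ifs with h
    · refine div_pos (sub_pos.mpr (hband l h)) ?_
      have : 0 < (band l).card := Finset.card_pos.mpr h
      positivity
    · exact one_pos
  have hst := fun (l : Fin Lm) q => compExp_strict (L := (l : ℕ) + 2) (m := m l q) hτ hκ (hm l q) (hε l)
  have hfac : Real.exp (sd / 41) / ρi ^ 2 = κ := by
    rw [hρsq]; field_simp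
  have hsdexp : Real.exp (-sd) - 1 = -(τ / (1 + τ)) := by
    rw [Real.exp_neg, Real.exp_log (by linarith)]
    field_simp
    ring
  obtain ⟨i₀, c, hi₀, hc, hcurv, hsol⟩ := exists_schedule e Ds σ T hT hηs (Bc := Bc)
    (fun Z hZc hZ => hsteer Z hZc (by simpa only [hQeq] using hZ))
    (fun l => (((l : ℕ) + 2 : ℕ) : ℝ))
    (fun l => ⟨Nat.cast_nonneg _, by simp only [Ds, mkLevel]; ring⟩)
    (fun l q => g l q + ε l)
    (fun l q => ⟨by linarith [(hst l q).1, hε l], by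
      show Real.exp (sd / 41) / ρi ^ 2 * (_ + (Real.exp (-sd) - 1) * _) < _
      rw [hfac, hsdexp]
      simp only [Ds, mkLevel]
      have := (hst l q).2
      simp only [g]
      linarith⟩)
    (curv_cycle hrad hρi hρ1 hτ hρsq hκ hgain P Bc)
  obtain ⟨hgood, hglue⟩ := glue e P i₀ c Js J₀ Bc hi₀ hc hcurv
  refine ⟨glueProfile e P i₀ c Js J₀, hgood, fun l r hr => ?_⟩
  obtain ⟨hsmooth, hcyc, hflat, hform⟩ :=
    hglue (d l) (Ds l) (fun J => Matrix.toEuclideanCLM (𝕜 := ℝ) (A J l)) (fun k => rfl) rfl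
  set Λ := lamGlue (Ds l) e i₀ c
  set L : ℝ := (((l : ℕ) + 2 : ℕ) : ℝ)
  obtain ⟨Y, hY0, hY⟩ := exists_linearODE (sysOp_continuous hsmooth.continuous e.bF_continuous) 0
    ((1 : Op (d l)), L • (1 : Op (d l)))
  obtain ⟨hneg, K, Cg, hK, hCg, hgrow⟩ := hsol l Λ Y hsmooth.continuous hflat hcyc hY hY0
  set er : Lev (d l) := EuclideanSpace.single r 1
  set f : ℝ → ℝ := fun t => ‖(Y t).1 er‖
  obtain ⟨hper, hsum⟩ := hσ l r hr
  set n := (band l).card
  have hn : 0 < n := Finset.card_pos.mpr ⟨r, hr⟩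
  set μ : ℕ → ℝ := fun i => g l ((σ l)^[i + 1] r) + ε l
  have hμsum : ∑ i ∈ Finset.range n, μ i < (k : ℝ) * n := by
    simp only [μ, Finset.sum_add_distrib, Finset.sum_const, Finset.card_range, nsmul_eq_mul]
    rw [hsum (g l)]
    simp only [ε, if_pos (show (band l).Nonempty from ⟨r, hr⟩)]
    have h1 : 0 < (n : ℝ) := by exact_mod_cast hn
    have h2 : (n : ℝ) * (((k : ℝ) * n - ∑ i ∈ band l, g l i) / (2 * n)) =
        ((k : ℝ) * n - ∑ i ∈ band l, g l i) / 2 := by field_simp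
    have h3 := hband l ⟨r, hr⟩
    linarith
  obtain ⟨C₁, hC₁⟩ := average i₀ n μ k K Cg hi₀ hn hK hCg
    (fun i => by simp only [μ]; linarith [(hst l ((σ l)^[i + 1] r)).1, hε l])
    (fun i => by simp only [μ]; rw [show i + n + 1 = (i + 1) + n by omega,
      Function.iterate_add_apply, hper])
    hμsum f (fun t => norm_nonneg _) (fun i t ht => hgrow r i t (by rwa [gE_succ]))
  have hYc : Continuous Y := continuous_iff_continuousAt.mpr fun t => (hY t).continuousAt
  have hfc : Continuous f := (hYc.fst.clm_apply continuous_const).norm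
  obtain ⟨B, hB⟩ := (isCompact_Icc (a := (0:ℝ)) (b := (i₀ : ℝ) ^ 9)).exists_bound_of_continuousOn
    hfc.continuousOn
  have hYs : ContDiff ℝ ∞ Y := contDiff_solution hsmooth (bF_contDiff e) hY
  refine ⟨fun i t => (Y t).1 er i, max C₁ (max B 0), fun i => ?_, fun i t => ?_, fun i t ht => ?_,
    fun i t ht => ?_⟩
  · exact (PiLp.proj 2 (fun _ : Fin (d l) => ℝ) i : Lev (d l) →L[ℝ] ℝ).contDiff.comp
      (hYs.fst.clm_apply contDiff_const)
  · have h := scalar_solution_eqs hY er i t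
    show deriv (deriv fun s => (Y s).1 er i) t +
        (2 * ((20 : ℕ) : ℝ) + (2 * ((20 : ℕ) : ℝ) + 1) * e.w t) * deriv (fun s => (Y s).1 er i) t = _
    rw [show (2 * ((20 : ℕ) : ℝ) + (2 * ((20 : ℕ) : ℝ) + 1) * e.w t) = e.bF t by
      simp only [Env.bF]; push_cast; ring, h, hform t]
    simp only [smul_apply, add_apply, one_apply_eq_self, PiLp.smul_apply, PiLp.add_apply,
      smul_eq_mul, toEuclideanCLM_coord]
    show Real.exp (sGlue P e.sd i₀ c t / 41) / e.ρ t ^ 2 *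
        ((((l : ℕ) + 2 : ℕ) : ℝ) * ((((l : ℕ) + 2 : ℕ) : ℝ) + 40) * (Y t).1 er i +
          (Real.exp (-sGlue P e.sd i₀ c t) - 1) *
            ∑ q, A (jGlue P e.sd i₀ Js J₀ t) l i q * (Y t).1 er q) =
      Real.exp (sGlue P e.sd i₀ c t / (2 * ((20 : ℕ) : ℝ) + 1)) / e.ρ t ^ 2 *
        ((((l : ℕ) + 2 : ℕ) : ℝ) * ((((l : ℕ) + 2 : ℕ) : ℝ) + 2 * ((20 : ℕ) : ℝ)) * (Y t).1 er i +
          (Real.exp (-sGlue P e.sd i₀ c t) - 1) *
            ∑ q, A (jGlue P e.sd i₀ Js J₀ t) l i q * (Y t).1 er q)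
    norm_num
  · show (Y t).1 er i = _
    rw [hneg t ht]
    simp only [er, smul_apply, one_apply_eq_self, PiLp.smul_apply, smul_eq_mul,
      EuclideanSpace.single_apply, L]
    ring
  · have hcomp : |(Y t).1 er i| ≤ f t := by
      have := PiLp.norm_apply_le ((Y t).1 er) i
      rwa [Real.norm_eq_abs] at this
    refine hcomp.trans ?_
    rcases le_total ((i₀ : ℝ) ^ 9) t with h | h
    · exact (hC₁ t h).trans (mul_le_mul_of_nonneg_right (le_max_left _ _) (Real.exp_pos _).le)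
    · have h1 : f t ≤ max C₁ (max B 0) := ((le_abs_self _).trans
        ((Real.norm_eq_abs _).symm.trans_le (hB t ⟨ht, h⟩))).trans
        ((le_max_left _ _).trans (le_max_right _ _))
      refine h1.trans (le_mul_of_one_le_right ((le_max_right _ _).trans (le_max_right _ _)) ?_)
      exact Real.one_le_exp (mul_nonneg (Nat.cast_nonneg k) ht)

end Vale.Agent.P225
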