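import Vale.Agent.P225.Interfaces

/-!
P225 module E: band averages beat the Euclidean count.

`τ = 1/50`, `κ = s²` with `s = 1000501/10^6`, `k = 10^6 m`.  Band `i` consists of the levels
`L` in `(lam i * m, lam (i+1) * m]` and, in each level, of the branches `p < A i * L / 100`.
All limits in `L` are Riemann sums of the polynomials `(y (1 - y))^e`, `e = 19, 20`.
-/

open scoped BigOperators
open Filter Topology Finset

namespace Vale.Agent.P225
namespace CountGain

/-- `H e a = ∫_0^a (y (1 - y))^e dy`, over the rationals. -/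
def hQ (e : ℕ) (a : ℚ) : ℚ :=
  ∑ i ∈ range (e + 1), ((-1) ^ i * (Nat.choose e i : ℚ)) * a ^ (e + i + 1) / (e + i + 1)

/-- `H e a = ∫_0^a (y (1 - y))^e dy`. -/
noncomputable def hR (e : ℕ) (a : ℝ) : ℝ :=
  ∑ i ∈ range (e + 1), ((-1) ^ i * (Nat.choose e i : ℝ)) * a ^ (e + i + 1) / (e + i + 1)

lemma hR_cast (e : ℕ) (a : ℚ) : hR e (a : ℝ) = (hQ e a : ℝ) := by
  simp only [hR, hQ]; push_cast; rfl

/-- Band cut-offs in the branch parameter, in hundredths. -/
def cA : ℕ → ℕ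
  | 0 => 50 | 1 => 48 | 2 => 46 | 3 => 44 | 4 => 42
  | 5 => 40 | 6 => 38 | 7 => 36 | 8 => 34 | 9 => 31
  | _ => 0

/-- Band cut-offs in the level, in millionths of `k`. -/
def cLam : ℕ → ℕ
  | 0 => 0 | 1 => 999738 | 2 => 999796 | 3 => 999875 | 4 => 999978 | 5 => 1000105
  | 6 => 1000257 | 7 => 1000437 | 8 => 1000643 | 9 => 1000878 | _ => 1001283

/-- The square root of `κ`. -/
def sQ : ℚ := 1000501 / 1000000

/-- Weighted mean (times mass) of the exponent slope in band `i`. -/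
def slopeQ (i : ℕ) : ℚ :=
  sQ * ((1 - 1 / 102) * hQ 19 (cA i / 100) + 4 / 102 * hQ 20 (cA i / 100))

lemma band_ok : ∀ i < 10, (cLam (i + 1) : ℚ) * slopeQ i < 1000000 * hQ 19 (cA i / 100) := by
  decide +kernel

lemma total_ok : (1000000 : ℚ) ^ 41 * (Nat.factorial 20 : ℚ) ^ 2 <
    99999 / 100000 * 20 * (Nat.factorial 40 : ℚ) *
      ∑ i ∈ range 10, hQ 19 (cA i / 100) * ((cLam (i + 1) : ℚ) ^ 41 - (cLam i : ℚ) ^ 41) := by
  decide +kernel

lemma cLam_mono : ∀ i < 10, cLam i ≤ cLam (i + 1) := by decide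

lemma cA_le : ∀ i, cA i ≤ 50 := by
  intro i
  match i with
  | 0 | 1 | 2 | 3 | 4 | 5 | 6 | 7 | 8 | 9 => decide
  | n + 10 => simp [cA]

/-! ### Riemann sums -/

lemma pow_add_one_bounds {x : ℝ} (hx : 0 ≤ x) (e : ℕ) :
    x ^ (e + 1) + (e + 1) * x ^ e ≤ (x + 1) ^ (e + 1) ∧
      (x + 1) ^ (e + 1) ≤ x ^ (e + 1) + (e + 1) * (x + 1) ^ e := by
  induction e with
  | zero => simp
  | succ e ih =>
    have h0 : 0 ≤ x ^ e := by positivity
    have h1 : x * (x + 1) ^ e ≤ (x + 1) * (x + 1) ^ e :=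
      mul_le_mul_of_nonneg_right (by linarith) (by positivity)
    have e1 : (0 : ℝ) ≤ e + 1 := by positivity
    push_cast
    refine ⟨?_, ?_⟩
    · have h2 := mul_le_mul_of_nonneg_left ih.1 (show (0 : ℝ) ≤ x + 1 by linarith)
      have h3 : 0 ≤ ((e : ℝ) + 1) * x ^ e := by positivity
      rw [pow_succ' (x + 1) (e + 1), pow_succ' x (e + 1)]
      have h4 : x ^ (e + 1) = x * x ^ e := pow_succ' x e
      rw [h4] at h2 ⊢
      nlinarith
    · have h2 := mul_le_mul_of_nonneg_left ih.2 hx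
      have h3 := mul_le_mul_of_nonneg_left h1 e1
      rw [pow_succ' (x + 1) (e + 1), pow_succ' x (e + 1)]
      have h4 : (x + 1) ^ (e + 1) = (x + 1) * (x + 1) ^ e := pow_succ' _ e
      rw [h4] at h2 ⊢
      nlinarith

lemma powSum_bounds (e n : ℕ) :
    ((e : ℝ) + 1) * ∑ p ∈ range n, (p : ℝ) ^ e ≤ (n : ℝ) ^ (e + 1) ∧
      (n : ℝ) ^ (e + 1) ≤ ((e : ℝ) + 1) * (∑ p ∈ range n, (p : ℝ) ^ e + (n : ℝ) ^ e) := by
  have key : (n : ℝ) ^ (e + 1) = ∑ p ∈ range n, (((p : ℝ) + 1) ^ (e + 1) - (p : ℝ) ^ (e + 1)) := by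
    have := Finset.sum_range_sub (fun p : ℕ => (p : ℝ) ^ (e + 1)) n
    simpa using this.symm
  refine ⟨?_, ?_⟩
  · rw [key, Finset.mul_sum]
    refine Finset.sum_le_sum fun p _ => ?_
    linarith [(pow_add_one_bounds (Nat.cast_nonneg p) e).1]
  · have h1 : ∑ p ∈ range n, ((p : ℝ) + 1) ^ e ≤ ∑ p ∈ range n, (p : ℝ) ^ e + (n : ℝ) ^ e := by
      rw [← Finset.sum_range_succ (fun p : ℕ => (p : ℝ) ^ e),
        Finset.sum_range_succ' (fun p : ℕ => (p : ℝ) ^ e)]
      push_cast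
      exact le_add_of_nonneg_right (by positivity)
    refine le_trans ?_ (mul_le_mul_of_nonneg_left h1 (by positivity))
    rw [key, Finset.mul_sum]
    refine Finset.sum_le_sum fun p _ => ?_
    linarith [(pow_add_one_bounds (Nat.cast_nonneg p) e).2]

lemma tendsto_nf {A : ℕ} :
    Tendsto (fun L : ℕ => ((A * L / 100 : ℕ) : ℝ) / L) atTop (𝓝 ((A : ℝ) / 100)) := by
  have h0 : Tendsto (fun L : ℕ => ((A : ℝ) / 100) - 1 / (L : ℝ)) atTop (𝓝 ((A : ℝ) / 100)) := by
    simpa using (tendsto_const_nhds (x := (A : ℝ) / 100)).sub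
      (tendsto_one_div_atTop_nhds_zero_nat (𝕜 := ℝ))
  refine tendsto_of_tendsto_of_tendsto_of_le_of_le' h0 tendsto_const_nhds ?_ ?_
  · filter_upwards [eventually_gt_atTop 0] with L hL
    have h1 : A * L ≤ 100 * (A * L / 100) + 100 := by omega
    have h1' : (A : ℝ) * L ≤ 100 * ((A * L / 100 : ℕ) : ℝ) + 100 := by exact_mod_cast h1
    have hLr : (0 : ℝ) < L := by exact_mod_cast hL
    rw [le_div_iff₀ hLr, sub_mul, div_mul_cancel₀ _ hLr.ne']
    linarith
  · filter_upwards [eventually_gt_atTop 0] with L hL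
    have h1 : 100 * (A * L / 100) ≤ A * L := Nat.mul_div_le _ _
    have h1' : 100 * ((A * L / 100 : ℕ) : ℝ) ≤ (A : ℝ) * L := by exact_mod_cast h1
    have hLr : (0 : ℝ) < L := by exact_mod_cast hL
    rw [div_le_iff₀ hLr]
    linarith

lemma tendsto_powSum (A e : ℕ) :
    Tendsto (fun L : ℕ => (∑ p ∈ range (A * L / 100), (p : ℝ) ^ e) / (L : ℝ) ^ (e + 1)) atTop
      (𝓝 (((A : ℝ) / 100) ^ (e + 1) / (e + 1))) := by
  have h := tendsto_nf (A := A)
  have hu := (h.pow (e + 1)).div_const ((e : ℝ) + 1)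
  have hl := hu.sub ((h.pow e).mul (tendsto_one_div_atTop_nhds_zero_nat (𝕜 := ℝ)))
  rw [mul_zero, sub_zero] at hl
  refine tendsto_of_tendsto_of_tendsto_of_le_of_le' hl hu ?_ ?_
  all_goals
    filter_upwards [eventually_gt_atTop 0] with L hL
    have hLr : (0 : ℝ) < L := by exact_mod_cast hL
    have hb := powSum_bounds e (A * L / 100)
    have he : (0 : ℝ) < (e : ℝ) + 1 := by positivity
  · rw [sub_le_iff_le_add, div_pow, div_pow]
    field_simp
    rw [pow_succ (L : ℝ) e]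
    nlinarith [mul_le_mul_of_nonneg_right hb.2 (show (0 : ℝ) ≤ (L : ℝ) ^ e * L by positivity)]
  · rw [div_pow, div_div, div_le_div_iff₀ (by positivity) (by positivity)]
    have := mul_le_mul_of_nonneg_right hb.1 (show (0 : ℝ) ≤ (L : ℝ) ^ (e + 1) by positivity)
    linarith

/-- `∫ (y (1-y))^e` as a limit. -/
lemma tendsto_bell (A e : ℕ) :
    Tendsto (fun L : ℕ =>
        (∑ p ∈ range (A * L / 100), ((p : ℝ) / L * (1 - (p : ℝ) / L)) ^ e) / L) atTop
      (𝓝 (hR e ((A : ℝ) / 100))) := by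
  have key : ∀ L : ℕ, (∑ p ∈ range (A * L / 100), ((p : ℝ) / L * (1 - (p : ℝ) / L)) ^ e) / L =
      ∑ i ∈ range (e + 1), ((-1) ^ i * (Nat.choose e i : ℝ)) *
        ((∑ p ∈ range (A * L / 100), (p : ℝ) ^ (e + i)) / (L : ℝ) ^ (e + i + 1)) := by
    intro L
    have hexp : ∀ p : ℕ, ((p : ℝ) / L * (1 - (p : ℝ) / L)) ^ e =
        ∑ i ∈ range (e + 1), ((-1) ^ i * (Nat.choose e i : ℝ)) * ((p : ℝ) / L) ^ (e + i) := by
      intro p
      rw [mul_pow, sub_eq_neg_add, add_pow, Finset.mul_sum]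
      refine Finset.sum_congr rfl fun i _ => ?_
      rw [one_pow, neg_pow, pow_add]
      ring
    simp only [hexp, Finset.sum_div, Finset.mul_sum]
    rw [Finset.sum_comm]
    refine Finset.sum_congr rfl fun i _ => Finset.sum_congr rfl fun p _ => ?_
    rw [div_pow, pow_succ (L : ℝ) (e + i)]
    ring
  simp only [key, hR]
  refine tendsto_finsetSum _ fun i _ => ?_
  have := (tendsto_powSum A (e + i)).const_mul ((-1) ^ i * (Nat.choose e i : ℝ))
  convert this using 2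
  push_cast
  ring

/-! ### One branch -/

/-- The real density of branch `(p, L-p)`. -/
noncomputable def dens (L p : ℕ) : ℝ :=
  40 / (Nat.factorial 20 : ℝ) ^ 2 * (L : ℝ) ^ 39 * ((p : ℝ) / L * (1 - (p : ℝ) / L)) ^ 19

lemma dens_eq {L p : ℕ} (hL : 0 < L) (hp : p ≤ L) :
    dens L p = 2 * ((20 * L * (p * (L - p)) ^ 19 : ℕ) : ℝ) / (Nat.factorial 20 : ℝ) ^ 2 := by
  have hLr : (L : ℝ) ≠ 0 := by exact_mod_cast hL.ne'
  rw [dens]
  push_cast [Nat.cast_sub hp]
  rw [show (p : ℝ) / L * (1 - (p : ℝ) / L) = (p : ℝ) * ((L : ℝ) - p) / (L : ℝ) ^ 2 by field_simp,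
    div_pow, ← pow_mul, show (L : ℝ) ^ 39 = (L : ℝ) ^ (2 * 19) * L from pow_succ _ _]
  field_simp
  ring

lemma cnt_bounds {L p : ℕ} (hL : 0 < L) (hp : 2 * p < L) :
    dens L p - 2 ≤ (cntLB 20 L p : ℝ) ∧ (cntLB 20 L p : ℝ) ≤ dens L p := by
  rw [dens_eq hL (by omega)]
  have hc : cntLB 20 L p =
      2 * (20 * L * (p * (L - p)) ^ 19 / (Nat.factorial 20) ^ 2) := by
    simp only [cntLB, if_pos hp]
  rw [hc]
  generalize 20 * L * (p * (L - p)) ^ 19 = X
  have hD : 0 < (Nat.factorial 20) ^ 2 := pow_pos (Nat.factorial_pos _) 2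
  generalize hDd : (Nat.factorial 20) ^ 2 = D at hD
  have hDr : (Nat.factorial 20 : ℝ) ^ 2 = (D : ℝ) := by rw [← hDd]; push_cast; rfl
  rw [hDr]
  have hD' : (0 : ℝ) < D := by exact_mod_cast hD
  have h1 : (X / D) * D ≤ X := Nat.div_mul_le_self X D
  have h2 : X < (X / D + 1) * D := by
    rw [mul_comm]; exact Nat.lt_mul_div_succ X hD
  have h1' : ((X / D : ℕ) : ℝ) * D ≤ X := by exact_mod_cast h1
  have h2' : (X : ℝ) ≤ (((X / D : ℕ) : ℝ) + 1) * D := by exact_mod_cast h2.le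
  push_cast
  refine ⟨?_, ?_⟩
  · rw [sub_le_iff_le_add, div_le_iff₀ hD']; linarith
  · rw [le_div_iff₀ hD']; linarith

/-- Parameters. -/
noncomputable def κ₀ : ℝ := (1000501 / 1000000 : ℝ) ^ 2

lemma branch_le {L p : ℕ} (hL : 0 < L) (hp : 2 * p ≤ L) :
    branchExp (1 / 50) κ₀ L p ≤
      (1000501 / 1000000) * ((1 - 1 / 102) + 4 / 102 * ((p : ℝ) / L * (1 - (p : ℝ) / L))) * L
        + 50 := by
  have hLr : (0 : ℝ) < L := by exact_mod_cast hL
  set y : ℝ := (p : ℝ) / L with hy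
  have hy0 : 0 ≤ y := by positivity
  have hy1 : y ≤ 1 / 2 := by
    rw [hy, div_le_iff₀ hLr]
    have : (2 : ℝ) * p ≤ L := by exact_mod_cast hp
    linarith
  have hpy : (p : ℝ) = y * L := by rw [hy, div_mul_cancel₀ _ hLr.ne']
  rw [branchExp, hpy, sub_le_iff_le_add, Real.sqrt_le_left (by nlinarith), κ₀]
  set q := y * (1 - y)
  have hq0 : 0 ≤ q := mul_nonneg hy0 (by linarith)
  have hd : ((L : ℝ) - 2 * (y * L)) ^ 2 = (1 - 4 * q) * (L : ℝ) ^ 2 := by
    simp only [q]; ring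
  rw [hd]
  nlinarith [mul_nonneg hq0 hLr.le, sq_nonneg ((1 - 4 * q) * (L : ℝ))]

/-! ### One band -/

/-- Mass of band `A` in level `L`. -/
noncomputable def mass (A L : ℕ) : ℝ := ∑ p ∈ range (A * L / 100), (cntLB 20 L p : ℝ)

/-- Exponent sum of band `A` in level `L`. -/
noncomputable def expo (A L : ℕ) : ℝ :=
  ∑ p ∈ range (A * L / 100), (cntLB 20 L p : ℝ) * branchExp (1 / 50) κ₀ L p

lemma two_mul_lt {A L p : ℕ} (hA : A ≤ 50) (hp : p ∈ range (A * L / 100)) : 2 * p < L := by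
  have h := Finset.mem_range.1 hp
  have : A * L ≤ 50 * L := Nat.mul_le_mul_right L hA
  omega

lemma eventually_mass {A : ℕ} (hA : A ≤ 50) {g : ℝ}
    (hg : g < 40 / (Nat.factorial 20 : ℝ) ^ 2 * hR 19 ((A : ℝ) / 100)) :
    ∀ᶠ L : ℕ in atTop, g * (L : ℝ) ^ 40 ≤ mass A L := by
  have h := ((tendsto_bell A 19).const_mul (40 / (Nat.factorial 20 : ℝ) ^ 2)).sub
    (tendsto_one_div_atTop_nhds_zero_nat (𝕜 := ℝ))
  rw [sub_zero] at h
  filter_upwards [h.eventually_const_lt hg, eventually_gt_atTop 0] with L hlt hL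
  have hLr : (1 : ℝ) ≤ L := by exact_mod_cast hL
  have h1 : ∑ p ∈ range (A * L / 100), (dens L p - 2) ≤ mass A L :=
    Finset.sum_le_sum fun p hp => (cnt_bounds hL (two_mul_lt hA hp)).1
  have hn : 2 * ((A * L / 100 : ℕ) : ℝ) ≤ L := by
    have : A * L ≤ 50 * L := Nat.mul_le_mul_right L hA
    exact_mod_cast (show 2 * (A * L / 100) ≤ L by omega)
  simp only [Finset.sum_sub_distrib, Finset.sum_const, card_range, nsmul_eq_mul, dens,
    ← Finset.mul_sum] at h1
  have h39 : (L : ℝ) ≤ (L : ℝ) ^ 39 := le_self_pow₀ hLr (by norm_num)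
  have h2 := mul_le_mul_of_nonneg_right hlt.le (show (0 : ℝ) ≤ (L : ℝ) ^ 40 by positivity)
  rw [sub_mul, pow_succ (L : ℝ) 39] at h2
  rw [pow_succ (L : ℝ) 39]
  field_simp at h2 h1 ⊢
  nlinarith

lemma eventually_expo {A : ℕ} (hA : A ≤ 50) {lam : ℝ} (hlam : 0 < lam)
    (hlt : (1000501 / 1000000) * ((1 - 1 / 102) * hR 19 ((A : ℝ) / 100) +
        4 / 102 * hR 20 ((A : ℝ) / 100)) < lam * hR 19 ((A : ℝ) / 100)) :
    ∀ᶠ L : ℕ in atTop, expo A L < lam * (L : ℝ) * mass A L := by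
  obtain ⟨C, hCd⟩ : ∃ C : ℝ, C = 40 / (Nat.factorial 20 : ℝ) ^ 2 := ⟨_, rfl⟩
  have hC : 0 < C := by rw [hCd]; positivity
  have t0 := tendsto_one_div_atTop_nhds_zero_nat (𝕜 := ℝ)
  have hM := (((tendsto_bell A 19).const_mul C).sub t0).const_mul lam
  have hE := (((tendsto_bell A 19).const_mul ((1000501 / 1000000 : ℝ) * (1 - 1 / 102))).add
    ((tendsto_bell A 20).const_mul ((1000501 / 1000000 : ℝ) * (4 / 102)))).const_mul C |>.add
    (((tendsto_bell A 19).const_mul (50 * C)).mul t0)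
  rw [sub_zero] at hM
  rw [mul_zero, add_zero] at hE
  have hpos : (1000501 / 1000000 : ℝ) * (1 - 1 / 102) * hR 19 ((A : ℝ) / 100) +
      (1000501 / 1000000 : ℝ) * (4 / 102) * hR 20 ((A : ℝ) / 100) <
        lam * hR 19 ((A : ℝ) / 100) := by linarith
  have hCineq := mul_lt_mul_of_pos_left hpos hC
  rw [mul_left_comm C lam] at hCineq
  obtain ⟨c, hc1, hc2⟩ := exists_between hCineq
  filter_upwards [hE.eventually_lt_const hc1, hM.eventually_const_lt hc2,
    eventually_gt_atTop 0] with L hE' hM' hL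
  have hLr : (1 : ℝ) ≤ L := by exact_mod_cast hL
  have hL0 : (0 : ℝ) < L := by linarith
  set n := A * L / 100
  set S19 := ∑ p ∈ range n, ((p : ℝ) / L * (1 - (p : ℝ) / L)) ^ 19 with hS19
  set S20 := ∑ p ∈ range n, ((p : ℝ) / L * (1 - (p : ℝ) / L)) ^ 20 with hS20
  have hm : C * (L : ℝ) ^ 39 * S19 - L ≤ mass A L := by
    have h1 : ∑ p ∈ range n, (dens L p - 2) ≤ mass A L :=
      Finset.sum_le_sum fun p hp => (cnt_bounds hL (two_mul_lt hA hp)).1
    have hn : 2 * (n : ℝ) ≤ L := by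
      have : A * L ≤ 50 * L := Nat.mul_le_mul_right L hA
      exact_mod_cast (show 2 * (A * L / 100) ≤ L by omega)
    simp only [Finset.sum_sub_distrib, Finset.sum_const, card_range, nsmul_eq_mul, dens, ← hCd,
      ← Finset.mul_sum] at h1
    linarith
  have he : expo A L ≤ C * (L : ℝ) ^ 39 *
      (((1000501 / 1000000) * (1 - 1 / 102) * S19 + (1000501 / 1000000) * (4 / 102) * S20) * L
        + 50 * S19) := by
    have hr : ∀ p ∈ range n, (cntLB 20 L p : ℝ) * branchExp (1 / 50) κ₀ L p ≤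
        C * (L : ℝ) ^ 39 *
          (((1000501 / 1000000) * (1 - 1 / 102) * ((p : ℝ) / L * (1 - (p : ℝ) / L)) ^ 19 +
            (1000501 / 1000000) * (4 / 102) * ((p : ℝ) / L * (1 - (p : ℝ) / L)) ^ 20) * L
            + 50 * ((p : ℝ) / L * (1 - (p : ℝ) / L)) ^ 19) := by
      intro p hp
      have h2p := two_mul_lt hA hp
      have hb := branch_le hL h2p.le
      have hq : 0 ≤ (p : ℝ) / L * (1 - (p : ℝ) / L) := by
        refine mul_nonneg (by positivity) ?_
        rw [sub_nonneg, div_le_one hL0]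
        exact_mod_cast (show p ≤ L by omega)
      refine (mul_le_mul_of_nonneg_left hb (Nat.cast_nonneg _)).trans ?_
      refine (mul_le_mul_of_nonneg_right (cnt_bounds hL h2p).2 (by nlinarith)).trans (le_of_eq ?_)
      rw [dens, hCd, pow_succ ((p : ℝ) / L * (1 - (p : ℝ) / L)) 19]
      ring
    refine (Finset.sum_le_sum hr).trans (le_of_eq ?_)
    rw [hS19, hS20]
    simp only [← Finset.mul_sum, Finset.sum_add_distrib, ← Finset.sum_mul]
  have hE2 := mul_lt_mul_of_pos_right (hE'.trans hM') (show (0 : ℝ) < (L : ℝ) ^ 41 by positivity)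
  have h39 : (L : ℝ) ≤ (L : ℝ) ^ 39 := le_self_pow₀ hLr (by norm_num)
  calc expo A L ≤ _ := he
    _ = (C * ((1000501 / 1000000) * (1 - 1 / 102) * (S19 / L) +
          (1000501 / 1000000) * (4 / 102) * (S20 / L)) + 50 * C * (S19 / L) * (1 / L)) *
          (L : ℝ) ^ 41 := by field_simp
    _ < lam * (C * (S19 / L) - 1 / L) * (L : ℝ) ^ 41 := hE2
    _ = lam * L * (C * (L : ℝ) ^ 39 * S19 - (L : ℝ) ^ 39) := by field_simp
    _ ≤ lam * L * mass A L := mul_le_mul_of_nonneg_left (by linarith) (by positivity)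

/-! ### Counting -/

lemma pow_sub_pow_le (a : ℕ) {b : ℕ} (h : a ≤ b) :
    ((b : ℝ) ^ 41 - (a : ℝ) ^ 41) / 41 ≤ ∑ L ∈ Ioc a b, (L : ℝ) ^ 40 := by
  induction b, h using Nat.le_induction with
  | base => simp
  | succ b hb ih =>
    rw [Finset.sum_Ioc_succ_top hb]
    push_cast
    have h := (pow_add_one_bounds (Nat.cast_nonneg b) 40).2
    norm_num at h
    linarith

lemma choose_le_pow (N : ℕ) (n : ℕ) : (Nat.choose n N : ℝ) ≤ (n : ℝ) ^ N / (N.factorial : ℝ) :=
  Nat.choose_le_pow_div N n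

lemma euclid_le (k : ℕ) (hk : 1 ≤ k) :
    ((Nat.choose (42 + k - 1) k + Nat.choose (42 + k - 2) (k - 1) : ℕ) : ℝ) ≤
      2 * ((k : ℝ) + 41) ^ 41 / (Nat.factorial 41 : ℝ) := by
  have h1 : Nat.choose (42 + k - 1) k = Nat.choose (42 + k - 1) 41 :=
    Nat.choose_symm_of_eq_add (by omega)
  have h2 : Nat.choose (42 + k - 2) (k - 1) = Nat.choose (42 + k - 2) 41 :=
    Nat.choose_symm_of_eq_add (by omega)
  rw [h1, h2]
  push_cast
  have hf : (0 : ℝ) < (Nat.factorial 41 : ℝ) := by exact_mod_cast Nat.factorial_pos 41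
  have hle : ∀ n : ℕ, n ≤ k + 41 →
      (Nat.choose n 41 : ℝ) ≤ ((k : ℝ) + 41) ^ 41 / (Nat.factorial 41 : ℝ) := by
    intro n hn
    refine (choose_le_pow 41 n).trans (div_le_div_of_nonneg_right ?_ hf.le)
    exact pow_le_pow_left₀ (Nat.cast_nonneg n) (by exact_mod_cast hn) 41
  have := hle (42 + k - 1) (by omega)
  have := hle (42 + k - 2) (by omega)
  rw [mul_div_assoc]
  linarith

/-- Lower bound of the band mass coefficient. -/
noncomputable def gB (i : ℕ) : ℝ :=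
  99999 / 100000 * (40 / (Nat.factorial 20 : ℝ) ^ 2 * hR 19 ((cA i : ℝ) / 100))

lemma hR19_pos {i : ℕ} (hi : i < 10) : 0 < hR 19 ((cA i : ℝ) / 100) := by
  have h : ∀ i < 10, (0 : ℚ) < hQ 19 (cA i / 100) := by decide +kernel
  have := hR_cast 19 ((cA i : ℚ) / 100)
  push_cast at this
  rw [this]
  exact_mod_cast h i hi

lemma main_eventually : ∀ᶠ L₀ : ℕ in atTop, ∀ i < 10, ∀ L ≥ L₀,
    gB i * (L : ℝ) ^ 40 ≤ mass (cA i) L ∧
      expo (cA i) L < 1000000 / (cLam (i + 1) : ℝ) * L * mass (cA i) L := by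
  have hi : ∀ i ∈ range 10, ∀ᶠ L₀ : ℕ in atTop, ∀ L ≥ L₀,
      gB i * (L : ℝ) ^ 40 ≤ mass (cA i) L ∧
        expo (cA i) L < 1000000 / (cLam (i + 1) : ℝ) * L * mass (cA i) L := by
    intro i hi
    have hi' := Finset.mem_range.1 hi
    refine eventually_forall_ge_atTop.2 ?_
    have hp := hR19_pos hi'
    have hlam : (0 : ℝ) < cLam (i + 1) := by
      have : ∀ i < 10, 0 < cLam (i + 1) := by decide
      exact_mod_cast this i hi'
    have hb : ((cLam (i + 1) : ℚ) * slopeQ i : ℝ) < ((1000000 * hQ 19 (cA i / 100) : ℚ) : ℝ) := by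
      exact_mod_cast band_ok i hi'
    simp only [slopeQ, sQ] at hb
    push_cast at hb
    have e19 := hR_cast 19 ((cA i : ℚ) / 100)
    have e20 := hR_cast 20 ((cA i : ℚ) / 100)
    push_cast at e19 e20
    rw [← e19, ← e20] at hb
    refine (eventually_mass (cA_le i) ?_).and (eventually_expo (cA_le i) (by positivity) ?_)
    · rw [gB]
      have : 0 < 40 / (Nat.factorial 20 : ℝ) ^ 2 * hR 19 ((cA i : ℝ) / 100) := by positivity
      linarith
    · rw [div_mul_eq_mul_div (1000000 : ℝ), lt_div_iff₀ hlam]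
      linarith
  filter_upwards [(eventually_all_finset (range 10)).2 hi] with L₀ h i hi L hL
  exact h i (Finset.mem_range.2 hi) L hL

/-- The band cuts. -/
def cut (L₀ m : ℕ) : ℕ → ℕ
  | 0 => L₀
  | i + 1 => cLam (i + 1) * m

lemma total_tendsto (L₀ : ℕ) :
    ∀ᶠ m : ℕ in atTop, 2 * ((1000000 * m : ℝ) + 41) ^ 41 / (Nat.factorial 41 : ℝ) <
      ∑ i ∈ range 10,
        gB i * (((cut L₀ m (i + 1) : ℝ) ^ 41 - (cut L₀ m i : ℝ) ^ 41) / 41) := by
  have t0 := tendsto_one_div_atTop_nhds_zero_nat (𝕜 := ℝ)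
  have hc : ∀ i, Tendsto (fun m : ℕ => (cut L₀ m i : ℝ) / m) atTop (𝓝 (cLam i : ℝ)) := by
    intro i
    match i with
    | 0 =>
      have := t0.const_mul (L₀ : ℝ)
      simpa [cut, cLam, div_eq_mul_inv] using this
    | i + 1 =>
      refine tendsto_const_nhds.congr' ?_
      filter_upwards [eventually_gt_atTop 0] with m hm
      have : (m : ℝ) ≠ 0 := by exact_mod_cast hm.ne'
      simp [cut, this]
  have hR : Tendsto (fun m : ℕ => ∑ i ∈ range 10,
      gB i * ((((cut L₀ m (i + 1) : ℝ) / m) ^ 41 - ((cut L₀ m i : ℝ) / m) ^ 41) / 41)) atTop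
      (𝓝 (∑ i ∈ range 10, gB i * (((cLam (i + 1) : ℝ) ^ 41 - (cLam i : ℝ) ^ 41) / 41))) :=
    tendsto_finsetSum _ fun i _ =>
      (((((hc (i + 1)).pow 41).sub ((hc i).pow 41)).div_const 41).const_mul _)
  have hLhs : Tendsto (fun m : ℕ => 2 * (1000000 + 41 * (1 / (m : ℝ))) ^ 41 /
      (Nat.factorial 41 : ℝ)) atTop (𝓝 (2 * (1000000 : ℝ) ^ 41 / (Nat.factorial 41 : ℝ))) := by
    have := ((((t0.const_mul (41 : ℝ)).const_add (1000000 : ℝ)).pow 41).const_mul
      (2 : ℝ)).div_const (Nat.factorial 41 : ℝ)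
    simpa using this
  have key : 2 * (1000000 : ℝ) ^ 41 / (Nat.factorial 41 : ℝ) <
      ∑ i ∈ range 10, gB i * (((cLam (i + 1) : ℝ) ^ 41 - (cLam i : ℝ) ^ 41) / 41) := by
    have hQ' : (((1000000 : ℚ) ^ 41 * (Nat.factorial 20 : ℚ) ^ 2 : ℚ) : ℝ) <
        ((99999 / 100000 * 20 * (Nat.factorial 40 : ℚ) * ∑ i ∈ range 10,
          hQ 19 (cA i / 100) * ((cLam (i + 1) : ℚ) ^ 41 - (cLam i : ℚ) ^ 41) : ℚ) : ℝ) := by
      exact_mod_cast total_ok
    push_cast at hQ'
    have hsum : ∑ i ∈ range 10, gB i * (((cLam (i + 1) : ℝ) ^ 41 - (cLam i : ℝ) ^ 41) / 41) =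
        99999 / 100000 * (40 / (41 * (Nat.factorial 20 : ℝ) ^ 2)) * ∑ i ∈ range 10,
          (hQ 19 (cA i / 100) : ℝ) * ((cLam (i + 1) : ℝ) ^ 41 - (cLam i : ℝ) ^ 41) := by
      rw [Finset.mul_sum]
      refine Finset.sum_congr rfl fun i _ => ?_
      have e := hR_cast 19 ((cA i : ℚ) / 100)
      push_cast at e
      rw [gB, e]
      ring
    rw [hsum, Nat.factorial_succ 40]
    generalize ∑ i ∈ range 10,
      (hQ 19 (cA i / 100) : ℝ) * ((cLam (i + 1) : ℝ) ^ 41 - (cLam i : ℝ) ^ 41) = T at hQ' ⊢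
    push_cast
    have f40 : (0 : ℝ) < (Nat.factorial 40 : ℝ) := by exact_mod_cast Nat.factorial_pos _
    have f20 : (0 : ℝ) < (Nat.factorial 20 : ℝ) := by exact_mod_cast Nat.factorial_pos _
    generalize (1000000 : ℝ) ^ 41 = P at hQ' ⊢
    field_simp
    ring_nf at hQ' ⊢
    linarith
  filter_upwards [hLhs.eventually_lt hR key, eventually_gt_atTop 0] with m h hm
  have hmr : (0 : ℝ) < m := by exact_mod_cast hm
  have h' := mul_lt_mul_of_pos_right h (show (0 : ℝ) < (m : ℝ) ^ 41 by positivity)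
  rw [Finset.sum_mul] at h'
  refine lt_of_eq_of_lt ?_ (lt_of_lt_of_eq h' (Finset.sum_congr rfl fun i _ => ?_))
  · rw [div_mul_eq_mul_div, mul_assoc, ← mul_pow, add_mul, mul_assoc (41 : ℝ) (1 / (m : ℝ)),
      one_div_mul_cancel hmr.ne', mul_one]
  · rw [div_pow, div_pow, ← sub_div]
    field_simp

end CountGain

open CountGain in
theorem countGain : CountGainStmt := by
  obtain ⟨L₁, hmain, h2⟩ := (main_eventually.and (eventually_ge_atTop 2)).exists
  obtain ⟨m, hcount, hm⟩ :=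
    ((total_tendsto L₁).and (eventually_ge_atTop (L₁ + 1))).exists
  refine ⟨1 / 50, κ₀, by norm_num, by norm_num, by norm_num [κ₀], 1000000 * m, cut L₁ m 10, ?_⟩
  have hstep : ∀ i < 10, cut L₁ m i ≤ cut L₁ m (i + 1) := by
    intro i hi
    match i with
    | 0 => simp only [cut, cLam]; omega
    | i + 1 => exact Nat.mul_le_mul_right m (cLam_mono (i + 1) hi)
  have hmono : ∀ j, j ≤ 10 → ∀ i ≤ j, cut L₁ m i ≤ cut L₁ m j := by
    intro j
    induction j with
    | zero => intro _ i hi; rw [Nat.le_zero.1 hi]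
    | succ j ih =>
      intro hj i hi
      rcases Nat.lt_or_eq_of_le hi with h | h
      · exact (ih (by omega) i (by omega)).trans (hstep j (by omega))
      · rw [h]
  let b : ℕ → ℕ → ℕ := fun L p => ∑ i ∈ range 10,
    if L ∈ Ioc (cut L₁ m i) (cut L₁ m (i + 1)) ∧ p < cA i * L / 100 then cntLB 20 L p else 0
  -- a level lies in at most one band
  have huniq : ∀ i < 10, ∀ L ∈ Ioc (cut L₁ m i) (cut L₁ m (i + 1)), ∀ p,
      b L p = if p < cA i * L / 100 then cntLB 20 L p else 0 := by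
    intro i hi L hL p
    simp only [b]
    rw [Finset.sum_eq_single i]
    · simp [hL]
    · intro i' hi' hne
      rw [if_neg]
      rintro ⟨hL', -⟩
      rw [Finset.mem_Ioc] at hL hL'
      rcases Nat.lt_or_gt_of_ne hne with h | h
      · have := hmono i (by omega) (i' + 1) h; omega
      · have := hmono i' (by have := Finset.mem_range.1 hi'; omega) (i + 1) h; omega
    · simp [hi]
  have hband : ∀ L p, b L p ≠ 0 →
      ∃ i < 10, L ∈ Ioc (cut L₁ m i) (cut L₁ m (i + 1)) ∧ p < cA i * L / 100 := by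
    intro L p hne
    obtain ⟨i, hi, h⟩ := Finset.exists_ne_zero_of_sum_ne_zero hne
    refine ⟨i, Finset.mem_range.1 hi, ?_⟩
    by_contra hc
    exact h (if_neg hc)
  have hsum : ∀ i < 10, ∀ L ∈ Ioc (cut L₁ m i) (cut L₁ m (i + 1)), ∀ f : ℕ → ℝ,
      ∑ p ∈ range (L + 1), (b L p : ℝ) * f p =
        ∑ p ∈ range (cA i * L / 100), (cntLB 20 L p : ℝ) * f p := by
    intro i hi L hL f
    have hn : cA i * L / 100 ≤ L + 1 := by
      have : cA i * L ≤ 50 * L := Nat.mul_le_mul_right L (cA_le i)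
      omega
    rw [← Finset.sum_range_add_sum_Ico _ hn]
    have hz : ∑ p ∈ Ico (cA i * L / 100) (L + 1), (b L p : ℝ) * f p = 0 := by
      refine Finset.sum_eq_zero fun p hp => ?_
      rw [huniq i hi L hL p, if_neg (by have := Finset.mem_Ico.1 hp; omega)]
      simp
    rw [hz, add_zero]
    refine Finset.sum_congr rfl fun p hp => ?_
    rw [huniq i hi L hL p, if_pos (Finset.mem_range.1 hp)]
  have hge : ∀ i < 10, ∀ L ∈ Ioc (cut L₁ m i) (cut L₁ m (i + 1)), L₁ ≤ L := by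
    intro i hi L hL
    have h0 : L₁ ≤ cut L₁ m i := hmono i (by omega) 0 (Nat.zero_le i)
    have := (Finset.mem_Ioc.1 hL).1
    omega
  refine ⟨b, by omega, ?_, ?_, ?_, ?_⟩
  · intro L p hne
    obtain ⟨i, hi, hL, hp⟩ := hband L p hne
    have := hge i hi L hL
    have := hmono 10 le_rfl (i + 1) (by omega)
    have := (Finset.mem_Ioc.1 hL).2
    have := two_mul_lt (cA_le i) (Finset.mem_range.2 hp)
    omega
  · intro L p
    by_cases hne : b L p = 0
    · rw [hne]; exact Nat.zero_le _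
    obtain ⟨i, hi, hL, hp⟩ := hband L p hne
    rw [huniq i hi L hL p, if_pos hp]
  · intro L _ _ hpos
    obtain ⟨p, -, hne⟩ := Finset.exists_ne_zero_of_sum_ne_zero hpos.ne'
    obtain ⟨i, hi, hL, -⟩ := hband L p hne
    have h1 := hsum i hi L hL (branchExp (1 / 50) κ₀ L)
    have h1' := hsum i hi L hL (fun _ => 1)
    simp only [mul_one] at h1'
    rw [h1, h1']
    refine lt_of_lt_of_le (hmain i hi L (hge i hi L hL)).2
      (mul_le_mul_of_nonneg_right ?_ (Finset.sum_nonneg fun p _ => Nat.cast_nonneg _))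
    have hLle : (L : ℝ) ≤ (cLam (i + 1) : ℝ) * m := by
      exact_mod_cast (Finset.mem_Ioc.1 hL).2
    have hlam : (0 : ℝ) < cLam (i + 1) := by
      have : ∀ i < 10, 0 < cLam (i + 1) := by decide
      exact_mod_cast this i hi
    rw [div_mul_eq_mul_div, div_le_iff₀ hlam]
    push_cast
    nlinarith
  · have hk : 1 ≤ 1000000 * m := by omega
    have hlow : ∀ n ≤ 10,
        ∑ i ∈ range n, gB i * (((cut L₁ m (i + 1) : ℝ) ^ 41 - (cut L₁ m i : ℝ) ^ 41) / 41) ≤
          ∑ L ∈ Ioc L₁ (cut L₁ m n), ∑ p ∈ range (L + 1), (b L p : ℝ) := by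
      intro n
      induction n with
      | zero => intro _; simp [cut]
      | succ n ih =>
        intro hn
        have h0 : L₁ ≤ cut L₁ m n := hmono n (by omega) 0 (Nat.zero_le n)
        rw [Finset.sum_range_succ,
          ← Finset.sum_Ioc_consecutive _ h0 (hstep n (by omega))]
        refine add_le_add (ih (by omega)) ?_
        have hg : 0 ≤ gB n := by
          have := hR19_pos (i := n) (by omega)
          rw [gB]; positivity
        refine (mul_le_mul_of_nonneg_left (pow_sub_pow_le _ (hstep n (by omega))) hg).trans ?_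
        rw [Finset.mul_sum]
        refine Finset.sum_le_sum fun L hL => ?_
        have := hsum n (by omega) L hL (fun _ => 1)
        simp only [mul_one] at this
        rw [this]
        exact (hmain n (by omega) L (hge n (by omega) L hL)).1
    have hsub : ∑ L ∈ Ioc L₁ (cut L₁ m 10), ∑ p ∈ range (L + 1), (b L p : ℝ) ≤
        ∑ L ∈ range (cut L₁ m 10 + 1), ∑ p ∈ range (L + 1), (b L p : ℝ) :=
      Finset.sum_le_sum_of_subset_of_nonneg
        (fun L hL => Finset.mem_range.2 (by have := (Finset.mem_Ioc.1 hL).2; omega))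
        (fun L _ _ => Finset.sum_nonneg fun p _ => Nat.cast_nonneg _)
    have he := euclid_le (1000000 * m) hk
    push_cast at he
    have hfin : ((Nat.choose (42 + 1000000 * m - 1) (1000000 * m) +
        Nat.choose (42 + 1000000 * m - 2) (1000000 * m - 1) : ℕ) : ℝ) <
        ((∑ L ∈ range (cut L₁ m 10 + 1), ∑ p ∈ range (L + 1), b L p : ℕ) : ℝ) := by
      push_cast
      linarith [hlow 10 le_rfl]
    exact_mod_cast hfin

end Vale.Agent.P225
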