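import Mathlib

/-! P225: the radial factor `ρ`, decreasing from `1` to a prescribed limit. -/

open MeasureTheory Set Filter Topology
open scoped ContDiff

namespace Vale.Agent.P225

/-- Properties of the radial factor: `w = ρ'/ρ`. -/
structure Radial (ρi : ℝ) (w ρ : ℝ → ℝ) : Prop where
  smooth : ContDiff ℝ ∞ w
  hasDeriv : ∀ t, HasDerivAt ρ (w t * ρ t) t
  flat : ∀ t ≤ 0, w t = 0 ∧ ρ t = 1
  lower : ∀ t, ρi ≤ ρ t
  upper : ∀ t, ρ t ≤ 1
  lim : Tendsto ρ atTop (𝓝 ρi)
  w_mem : ∀ t, -(1 / 4) ≤ w t ∧ w t ≤ 0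
  dw_le : ∀ t, deriv w t ≤ -w t / 4
  w_ge : ∃ c : ℝ, 0 < c ∧ ∀ t ≥ 1, c / (t * Real.sqrt t) ≤ -w t
  decay : ∃ C : ℝ, ∀ t ≥ 1, |w t| ≤ C / t ∧ |deriv w t| ≤ C / t

/-- The unnormalised rate. -/
noncomputable def radBase (M t : ℝ) : ℝ :=
  Real.smoothTransition t * (t ^ 2 + M ^ 2) ^ (-(3 / 4) : ℝ)

theorem radBase_contDiff {M : ℝ} (hM : 0 < M) : ContDiff ℝ ∞ (radBase M) := by
  refine Real.smoothTransition.contDiff.mul ?_
  exact ((contDiff_id.pow 2).add contDiff_const).rpow_const_of_ne fun t =>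
    (by positivity : (0:ℝ) < t ^ 2 + M ^ 2).ne'

theorem radBase_nonneg (M t : ℝ) : 0 ≤ radBase M t :=
  mul_nonneg (Real.smoothTransition.nonneg t) (Real.rpow_nonneg (by positivity) _)

theorem radBase_le {M : ℝ} (hM : 0 < M) (t : ℝ) : radBase M t ≤ (M ^ 2) ^ (-(3 / 4) : ℝ) := by
  refine (mul_le_of_le_one_left (Real.rpow_nonneg (by positivity) _)
    (Real.smoothTransition.le_one t)).trans ?_
  exact Real.rpow_le_rpow_of_nonpos (by positivity) (le_add_of_nonneg_left (sq_nonneg t))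
    (by norm_num)

theorem sq_rpow_three_quarters {x : ℝ} (hx : 0 ≤ x) :
    (x ^ 2) ^ (-(3 / 4) : ℝ) = x ^ (-(3 / 2) : ℝ) := by
  rw [← Real.rpow_natCast x 2, ← Real.rpow_mul hx]
  norm_num

theorem radBase_le_rpow {M t : ℝ} (ht : 0 < t) : radBase M t ≤ t ^ (-(3 / 2) : ℝ) := by
  refine (mul_le_of_le_one_left (Real.rpow_nonneg (by positivity) _)
    (Real.smoothTransition.le_one t)).trans ?_
  rw [← sq_rpow_three_quarters ht.le]
  exact Real.rpow_le_rpow_of_nonpos (by positivity) (le_add_of_nonneg_right (sq_nonneg M))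
    (by norm_num)

theorem radBase_ge {M t : ℝ} (hM : 0 < M) (ht : 1 ≤ t) :
    (1 + M) ^ (-(3 / 2) : ℝ) * t ^ (-(3 / 2) : ℝ) ≤ radBase M t := by
  rw [radBase, Real.smoothTransition.one_of_one_le ht, one_mul,
    ← Real.mul_rpow (by positivity) (by linarith), ← sq_rpow_three_quarters (by positivity)]
  refine Real.rpow_le_rpow_of_nonpos (by positivity) ?_ (by norm_num)
  nlinarith [mul_nonneg (mul_nonneg hM.le hM.le) (show 0 ≤ t ^ 2 - 1 by nlinarith),
    mul_nonneg hM.le (sq_nonneg t)]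

theorem radBase_hasDerivAt {M : ℝ} (hM : 0 < M) (t : ℝ) :
    HasDerivAt (radBase M) (deriv Real.smoothTransition t * (t ^ 2 + M ^ 2) ^ (-(3 / 4) : ℝ) -
      3 / 2 * (t / (t ^ 2 + M ^ 2)) * radBase M t) t := by
  have hq : (0:ℝ) < t ^ 2 + M ^ 2 := by positivity
  have hS : HasDerivAt Real.smoothTransition (deriv Real.smoothTransition t) t :=
    ((Real.smoothTransition.contDiff (n := 1)).differentiable one_ne_zero t).hasDerivAt
  have hp := (((hasDerivAt_id t).pow 2).add_const (M ^ 2)).rpow_const (p := (-(3 / 4) : ℝ))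
    (Or.inl hq.ne')
  refine (hS.mul hp).congr_deriv ?_
  have e : (t ^ 2 + M ^ 2) ^ (-(3 / 4) - 1 : ℝ) =
      (t ^ 2 + M ^ 2) ^ (-(3 / 4) : ℝ) / (t ^ 2 + M ^ 2) := by
    rw [Real.rpow_sub_one hq.ne']
  simp only [radBase, id, Pi.pow_apply]
  rw [e]
  push_cast
  field_simp
  ring

theorem div_sq_add_le {M : ℝ} (hM : 0 < M) (t : ℝ) : |t / (t ^ 2 + M ^ 2)| ≤ 1 / (2 * M) := by
  have hq : (0:ℝ) < t ^ 2 + M ^ 2 := by positivity
  rw [abs_div, abs_of_pos hq, div_le_div_iff₀ hq (by positivity)]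
  nlinarith [sq_nonneg (|t| - M), sq_abs t]

theorem deriv_radBase_ge {M : ℝ} (hM : 3 ≤ M) (t : ℝ) :
    -(radBase M t / 4) ≤ deriv (radBase M) t := by
  have hM0 : 0 < M := by linarith
  rw [(radBase_hasDerivAt hM0 t).deriv]
  have h1 : 0 ≤ deriv Real.smoothTransition t * (t ^ 2 + M ^ 2) ^ (-(3 / 4) : ℝ) :=
    mul_nonneg (Real.smoothTransition.monotone.deriv_nonneg) (Real.rpow_nonneg (by positivity) _)
  have h2 : 3 / 2 * (t / (t ^ 2 + M ^ 2)) ≤ 1 / 4 := by
    have := (le_abs_self _).trans (div_sq_add_le hM0 t)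
    have h3 : 1 / (2 * M) ≤ 1 / 6 := one_div_le_one_div_of_le (by norm_num) (by linarith)
    linarith
  have := mul_le_mul_of_nonneg_right h2 (radBase_nonneg M t)
  linarith

theorem abs_deriv_radBase_le {M t : ℝ} (hM : 3 ≤ M) (ht : 1 < t) :
    |deriv (radBase M) t| ≤ radBase M t := by
  have hM0 : 0 < M := by linarith
  rw [(radBase_hasDerivAt hM0 t).deriv]
  have hz : deriv Real.smoothTransition t = 0 := by
    have : Real.smoothTransition =ᶠ[𝓝 t] fun _ => (1:ℝ) := by
      filter_upwards [eventually_gt_nhds ht] with u hu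
      exact Real.smoothTransition.one_of_one_le hu.le
    rw [this.deriv_eq, deriv_const]
  rw [hz, zero_mul, zero_sub, abs_neg, abs_mul, abs_of_nonneg (radBase_nonneg M t)]
  refine mul_le_of_le_one_left (radBase_nonneg M t) ?_
  have h2 := div_sq_add_le hM0 t
  have h3 : 1 / (2 * M) ≤ 1 / 6 := one_div_le_one_div_of_le (by norm_num) (by linarith)
  rw [abs_mul, abs_of_nonneg (by norm_num : (0:ℝ) ≤ 3 / 2)]
  linarith

theorem radBase_integrableOn {M : ℝ} (hM : 0 < M) : IntegrableOn (radBase M) (Ioi 0) := by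
  have hc := (radBase_contDiff hM).continuous
  rw [← Ioc_union_Ioi_eq_Ioi zero_le_one]
  refine IntegrableOn.union (hc.integrableOn_Ioc) ?_
  refine Integrable.mono' (integrableOn_Ioi_rpow_of_lt (by norm_num : (-(3 / 2) : ℝ) < -1) one_pos)
    hc.aestronglyMeasurable ((ae_restrict_iff' measurableSet_Ioi).mpr (Eventually.of_forall ?_))
  intro t ht
  rw [Real.norm_of_nonneg (radBase_nonneg M t)]
  exact radBase_le_rpow (zero_lt_one.trans ht)

theorem integral_radBase_ge {M : ℝ} (hM : 0 < M) :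
    2 * (1 + M) ^ (-(3 / 2) : ℝ) ≤ ∫ t in Ioi 0, radBase M t := by
  have h1 : (∫ t in Ioi (1:ℝ), (1 + M) ^ (-(3 / 2) : ℝ) * t ^ (-(3 / 2) : ℝ)) ≤
      ∫ t in Ioi (1:ℝ), radBase M t :=
    setIntegral_mono_on ((integrableOn_Ioi_rpow_of_lt (by norm_num) one_pos).const_mul _)
      ((radBase_integrableOn hM).mono_set (Ioi_subset_Ioi zero_le_one)) measurableSet_Ioi
      fun t ht => radBase_ge hM (le_of_lt ht)
  have h2 : (∫ t in Ioi (1:ℝ), radBase M t) ≤ ∫ t in Ioi 0, radBase M t :=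
    setIntegral_mono_set (radBase_integrableOn hM) (Eventually.of_forall (radBase_nonneg M))
      (Ioi_subset_Ioi zero_le_one).eventuallyLE
  rw [integral_const_mul, integral_Ioi_rpow_of_lt (by norm_num) one_pos, Real.one_rpow] at h1
  linarith

theorem integral_radBase_large (A : ℝ) :
    ∃ M : ℝ, 3 ≤ M ∧ A * (M ^ 2) ^ (-(3 / 4) : ℝ) ≤ ∫ t in Ioi 0, radBase M t := by
  set a := max A 0
  refine ⟨(a + 4) ^ 2 + 3, by nlinarith, ?_⟩
  set M := (a + 4) ^ 2 + 3
  have hM : 0 < M := by positivity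
  have hc := (radBase_contDiff hM).continuous
  have h1 : (∫ t in Ioc (1:ℝ) M, ((2 * M ^ 2) ^ (-(3 / 4) : ℝ))) ≤ ∫ t in Ioc (1:ℝ) M, radBase M t := by
    refine setIntegral_mono_on (integrableOn_const (by simp)) hc.integrableOn_Ioc measurableSet_Ioc
      fun t ht => ?_
    rw [radBase, Real.smoothTransition.one_of_one_le ht.1.le, one_mul]
    refine Real.rpow_le_rpow_of_nonpos (by positivity) ?_ (by norm_num)
    nlinarith [ht.1, ht.2]
  have h2 : (∫ t in Ioc (1:ℝ) M, radBase M t) ≤ ∫ t in Ioi 0, radBase M t :=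
    setIntegral_mono_set (radBase_integrableOn hM) (Eventually.of_forall (radBase_nonneg M))
      (Ioc_subset_Ioi_self.trans (Ioi_subset_Ioi zero_le_one)).eventuallyLE
  have hM1 : 1 ≤ M := le_add_of_nonneg_of_le (sq_nonneg _) (by norm_num)
  rw [setIntegral_const, Real.volume_real_Ioc_of_le hM1, smul_eq_mul,
    Real.mul_rpow (by norm_num) (by positivity)] at h1
  have h3 : (1 / 2 : ℝ) ≤ (2:ℝ) ^ (-(3 / 4) : ℝ) := by
    calc (1 / 2 : ℝ) = (2:ℝ) ^ (-1 : ℝ) := by norm_num [Real.rpow_neg_one]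
      _ ≤ _ := Real.rpow_le_rpow_of_exponent_le one_le_two (by norm_num)
  have hA : A ≤ (M - 1) * (1 / 2) := by
    have : A ≤ a := le_max_left _ _
    have : 0 ≤ a := le_max_right _ _
    nlinarith
  have hp : 0 ≤ (M ^ 2) ^ (-(3 / 4) : ℝ) := by positivity
  have h4 := mul_le_mul_of_nonneg_right (hA.trans (mul_le_mul_of_nonneg_left h3
    (sub_nonneg.mpr hM1))) hp
  linarith

/-- Existence of the radial factor. -/
theorem exists_radial {ρi : ℝ} (h0 : 0 < ρi) (h1 : ρi < 1) : ∃ w ρ, Radial ρi w ρ := by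
  obtain ⟨M, hM, hI⟩ := integral_radBase_large (-4 * Real.log ρi)
  have hM0 : 0 < M := by linarith
  set I := ∫ t in Ioi 0, radBase M t with hIdef
  have hIpos : 0 < I := lt_of_lt_of_le (by positivity) (integral_radBase_ge hM0)
  set c := -Real.log ρi / I with hcdef
  have hc : 0 < c := div_pos (neg_pos.mpr (Real.log_neg h0 h1)) hIpos
  have hcI : c * I = -Real.log ρi := div_mul_cancel₀ _ hIpos.ne'
  have hcont := (radBase_contDiff hM0).continuous
  have hint : ∀ t, (∫ s in (0:ℝ)..t, radBase M s) ≤ I ∧ 0 ≤ ∫ s in (0:ℝ)..t, radBase M s := by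
    intro t
    rcases le_total t 0 with ht | ht
    · have h : (∫ s in (0:ℝ)..t, radBase M s) = 0 := by
        have : Set.EqOn (radBase M) (fun _ => (0:ℝ)) (Set.uIcc 0 t) := fun s hs => by
          rw [Set.uIcc_of_ge ht] at hs
          simp [radBase, Real.smoothTransition.zero_of_nonpos hs.2]
        rw [intervalIntegral.integral_congr this]; simp
      rw [h]; exact ⟨hIpos.le, le_rfl⟩
    · refine ⟨?_, intervalIntegral.integral_nonneg ht fun s _ => radBase_nonneg M s⟩
      rw [intervalIntegral.integral_of_le ht]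
      exact setIntegral_mono_set (radBase_integrableOn hM0)
        (Eventually.of_forall (radBase_nonneg M)) Ioc_subset_Ioi_self.eventuallyLE
  refine ⟨fun t => -c * radBase M t, fun t => Real.exp (-c * ∫ s in (0:ℝ)..t, radBase M s),
    ⟨contDiff_const.mul (radBase_contDiff hM0), fun t => ?_, fun t ht => ?_, fun t => ?_,
      fun t => ?_, ?_, fun t => ?_, fun t => ?_, ?_, ?_⟩⟩
  · exact (((hcont.integral_hasStrictDerivAt 0 t).hasDerivAt).const_mul (-c)).exp.congr_deriv
      (by ring)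
  · have hz : radBase M t = 0 := by simp [radBase, Real.smoothTransition.zero_of_nonpos ht]
    have h : (∫ s in (0:ℝ)..t, radBase M s) = 0 := by
      have : Set.EqOn (radBase M) (fun _ => (0:ℝ)) (Set.uIcc 0 t) := fun s hs => by
        rw [Set.uIcc_of_ge ht] at hs
        simp [radBase, Real.smoothTransition.zero_of_nonpos hs.2]
      rw [intervalIntegral.integral_congr this]; simp
    simp [hz, h]
  · rw [← Real.exp_log h0]
    refine Real.exp_le_exp.mpr ?_
    have := mul_le_mul_of_nonneg_left (hint t).1 hc.le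
    linarith
  · exact Real.exp_le_one_iff.mpr (mul_nonpos_of_nonpos_of_nonneg (by linarith) (hint t).2)
  · have h := intervalIntegral_tendsto_integral_Ioi 0 (radBase_integrableOn hM0) tendsto_id
    have h2 := (Real.continuous_exp.tendsto _).comp (h.const_mul (-c))
    have e : Real.exp (-c * I) = ρi := by rw [neg_mul, hcI, neg_neg, Real.exp_log h0]
    simp only [← hIdef] at h2
    rw [e] at h2
    exact h2
  · refine ⟨?_, mul_nonpos_of_nonpos_of_nonneg (by linarith) (radBase_nonneg M t)⟩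
    have h := mul_le_mul_of_nonneg_left (radBase_le hM0 t) hc.le
    have h2 : c * (M ^ 2) ^ (-(3 / 4) : ℝ) ≤ 1 / 4 := by
      have := mul_le_mul_of_nonneg_left hI hc.le
      rw [hcI] at this
      have hlog := Real.log_neg h0 h1
      nlinarith
    linarith
  · rw [deriv_const_mul_field]
    have := mul_le_mul_of_nonneg_left (deriv_radBase_ge hM t) hc.le
    linarith
  · refine ⟨c * (1 + M) ^ (-(3 / 2) : ℝ), by positivity, fun t ht => ?_⟩
    have e : t ^ (-(3 / 2) : ℝ) = 1 / (t * Real.sqrt t) := by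
      rw [Real.rpow_neg (by linarith), one_div, show ((3:ℝ) / 2) = 1 + 1 / 2 by norm_num,
        Real.rpow_add (by linarith), Real.rpow_one, Real.sqrt_eq_rpow]
    have := mul_le_mul_of_nonneg_left (radBase_ge hM0 ht) hc.le
    rw [e] at this
    calc c * (1 + M) ^ (-(3 / 2) : ℝ) / (t * Real.sqrt t)
        = c * ((1 + M) ^ (-(3 / 2) : ℝ) * (1 / (t * Real.sqrt t))) := by ring
      _ ≤ c * radBase M t := this
      _ = _ := by ring
  · obtain ⟨B, hB⟩ := (isCompact_Icc (a := (1:ℝ)) (b := 1)).exists_bound_of_continuousOn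
      ((radBase_contDiff hM0).continuous_deriv (by simp)).continuousOn
    refine ⟨c * (1 + |B|), fun t ht => ?_⟩
    have hle : radBase M t ≤ 1 / t := by
      refine (radBase_le_rpow (by linarith)).trans ?_
      calc t ^ (-(3 / 2) : ℝ) ≤ t ^ (-1 : ℝ) :=
            Real.rpow_le_rpow_of_exponent_le ht (by norm_num)
        _ = _ := by rw [Real.rpow_neg_one, one_div]
    have hd : |deriv (radBase M) t| ≤ (1 + |B|) / t := by
      rcases ht.eq_or_lt with rfl | ht'
      · have := hB 1 ⟨le_rfl, le_rfl⟩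
        rw [Real.norm_eq_abs] at this
        rw [div_one]; linarith [le_abs_self B]
      · refine (abs_deriv_radBase_le hM ht').trans (hle.trans ?_)
        exact div_le_div_of_nonneg_right (le_add_of_nonneg_right (abs_nonneg _)) (by linarith)
    refine ⟨?_, ?_⟩
    · rw [abs_mul, abs_neg, abs_of_pos hc, abs_of_nonneg (radBase_nonneg M t), mul_div_assoc]
      refine mul_le_mul_of_nonneg_left (hle.trans ?_) hc.le
      exact div_le_div_of_nonneg_right (le_add_of_nonneg_right (abs_nonneg _)) (by linarith)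
    · rw [deriv_const_mul_field, abs_mul, abs_neg, abs_of_pos hc, mul_div_assoc]
      exact mul_le_mul_of_nonneg_left hd hc.le

end Vale.Agent.P225
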