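import Vale.Agent.P225.Sched
import Vale.Agent.P225.Radial

/-! P225: curvature signs for the profile, `j = 20`. -/

open Set Filter Topology
open scoped ContDiff

namespace Vale.Agent.P225

/-- The three curvature conditions at one time, `N = 41`. -/
def CurvOK (w ρ s : ℝ → ℝ) (t : ℝ) : Prop :=
  0 ≤ -41 * (w t + deriv w t + w t ^ 2) - 20 * deriv s t ^ 2 / 82 ∧
  (let al := w t - deriv s t / 82
   let al' := deriv w t - deriv (deriv s) t / 82
   0 ≤ (42 - 2 * Real.exp (s t)) * Real.exp (s t / 41) / ρ t ^ 2 + 1 + al - al' -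
     41 * (1 + w t) * (1 + al)) ∧
  (let nu := w t + deriv s t * 40 / 82
   let nu' := deriv w t + deriv (deriv s) t * 40 / 82
   0 ≤ 40 * Real.exp (s t + s t / 41) / ρ t ^ 2 + 1 + nu - nu' - 41 * (1 + w t) * (1 + nu))

theorem CurvOK.congr {w ρ s s' : ℝ → ℝ} {t : ℝ} (h : CurvOK w ρ s t) (he : s' =ᶠ[𝓝 t] s) :
    CurvOK w ρ s' t := by
  simpa only [CurvOK, he.eq_of_nhds, he.deriv_eq, he.deriv.deriv_eq] using h

theorem curv_flat {ρi : ℝ} {w ρ s : ℝ → ℝ} (hr : Radial ρi w ρ) (hρi : 0 < ρi) {t : ℝ}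
    (hs : s =ᶠ[𝓝 t] fun _ => 0) : CurvOK w ρ s t := by
  refine CurvOK.congr ?_ hs
  obtain ⟨hw1, hw2⟩ := hr.w_mem t
  have hd := hr.dw_le t
  have hsq : w t ^ 2 ≤ -w t / 4 := by nlinarith
  have hρ : 0 < ρ t := hρi.trans_le (hr.lower t)
  have h40 : (40 : ℝ) ≤ 40 / ρ t ^ 2 := by
    rw [le_div_iff₀ (pow_pos hρ 2)]
    nlinarith [hr.upper t]
  simp only [CurvOK, deriv_const', deriv_const, Real.exp_zero, zero_div, sub_zero, add_zero,
    zero_mul, mul_one, ne_eq, OfNat.ofNat_ne_zero, not_false_eq_true, zero_pow, mul_zero]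
  refine ⟨by linarith, ?_, ?_⟩
  · norm_num
    nlinarith
  · nlinarith

theorem horizontal_antitone :
    AntitoneOn (fun s : ℝ => (42 - 2 * Real.exp s) * Real.exp (s / 41)) (Ici (-(1 / 2))) := by
  have hd : ∀ s : ℝ, HasDerivAt (fun s : ℝ => (42 - 2 * Real.exp s) * Real.exp (s / 41))
      (Real.exp (s / 41) * (42 - 84 * Real.exp s) / 41) s := fun s => by
    refine ((((Real.hasDerivAt_exp s).const_mul 2).const_sub 42).mul
      ((hasDerivAt_id s).div_const 41).exp).congr_deriv ?_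
    simp only [id]
    ring
  refine antitoneOn_of_hasDerivWithinAt_nonpos (convex_Ici _)
    (fun s _ => (hd s).continuousAt.continuousWithinAt) (fun s _ => (hd s).hasDerivWithinAt)
    fun s hs => ?_
  have hs' : -(1 / 2) ≤ s := interior_subset hs
  have := Real.add_one_le_exp s
  exact div_nonpos_of_nonpos_of_nonneg
    (mul_nonpos_of_nonneg_of_nonpos (Real.exp_pos _).le (by linarith)) (by norm_num)

theorem perturb_bound {e w w' d d' : ℝ} (he : e ≤ 1) (hw : |w| ≤ e) (hw' : |w'| ≤ e) (hd : |d| ≤ e)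
    (hd' : |d'| ≤ e) :
    -(209 * e) ≤ (w + d) - (w' + d') - 41 * (w + (w + d) + w * (w + d)) := by
  obtain ⟨a1, a2⟩ := abs_le.mp hw
  obtain ⟨b1, b2⟩ := abs_le.mp hw'
  obtain ⟨c1, c2⟩ := abs_le.mp hd
  obtain ⟨d1, d2⟩ := abs_le.mp hd'
  have h : |w * (w + d)| ≤ 2 * e := by
    rw [abs_mul]
    calc |w| * |w + d| ≤ 1 * (2 * e) := mul_le_mul (hw.trans he)
          ((abs_add_le _ _).trans (by linarith)) (abs_nonneg _) zero_le_one
      _ = _ := one_mul _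
  linarith [(abs_le.mp h).2]

theorem curv_small {w ρ s : ℝ → ℝ} {t σ e : ℝ} (he : 209 * e ≤ σ) (he1 : e ≤ 1) (hw : |w t| ≤ e)
    (hw' : |deriv w t| ≤ e) (hd : |deriv s t| ≤ e) (hd' : |deriv (deriv s) t| ≤ e)
    (hR : 0 ≤ -41 * (w t + deriv w t + w t ^ 2) - 20 * deriv s t ^ 2 / 82)
    (hH : 40 + σ ≤ (42 - 2 * Real.exp (s t)) * Real.exp (s t / 41) / ρ t ^ 2)
    (hV : 40 + σ ≤ 40 * Real.exp (s t + s t / 41) / ρ t ^ 2) : CurvOK w ρ s t := by
  refine ⟨hR, ?_, ?_⟩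
  · have h := perturb_bound (d := -deriv s t / 82) (d' := -deriv (deriv s) t / 82) he1 hw hw'
      (by rw [abs_div, abs_neg, abs_of_pos (by norm_num : (0:ℝ) < 82)]; linarith [abs_nonneg (deriv s t)])
      (by rw [abs_div, abs_neg, abs_of_pos (by norm_num : (0:ℝ) < 82)]; linarith [abs_nonneg (deriv (deriv s) t)])
    dsimp only
    linarith
  · have h := perturb_bound (d := deriv s t * 40 / 82) (d' := deriv (deriv s) t * 40 / 82) he1 hw hw'
      (by rw [abs_div, abs_mul, abs_of_pos (by norm_num : (0:ℝ) < 82),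
        abs_of_pos (by norm_num : (0:ℝ) < 40)]; linarith [abs_nonneg (deriv s t)])
      (by rw [abs_div, abs_mul, abs_of_pos (by norm_num : (0:ℝ) < 82),
        abs_of_pos (by norm_num : (0:ℝ) < 40)]; linarith [abs_nonneg (deriv (deriv s) t)])
    dsimp only
    linarith

/-- The cycle with index `ν`. -/
noncomputable abbrev parN (P : ℕ) (sd : ℝ) (ν : ℕ) : CycPar :=
  ⟨P, (ν : ℝ) ^ 9, ((ν : ℝ) + 1) ^ 9, (ν : ℝ) ^ 7, sd⟩

theorem parN_gap {ν : ℕ} (hν : 1 ≤ ν) :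
    (ν : ℝ) ^ 9 + 9 * (ν : ℝ) ^ 8 ≤ ((ν : ℝ) + 1) ^ 9 := by
  have h : (1:ℝ) ≤ ν := by exact_mod_cast hν
  have e : ((ν : ℝ) + 1) ^ 9 - ((ν : ℝ) ^ 9 + 9 * (ν : ℝ) ^ 8) = 36 * (ν:ℝ) ^ 7 + 84 * (ν:ℝ) ^ 6 +
      126 * (ν:ℝ) ^ 5 + 126 * (ν:ℝ) ^ 4 + 84 * (ν:ℝ) ^ 3 + 36 * (ν:ℝ) ^ 2 + 9 * (ν:ℝ) + 1 := by ring
  have : 0 ≤ 36 * (ν:ℝ) ^ 7 + 84 * (ν:ℝ) ^ 6 + 126 * (ν:ℝ) ^ 5 + 126 * (ν:ℝ) ^ 4 + 84 * (ν:ℝ) ^ 3 +
      36 * (ν:ℝ) ^ 2 + 9 * (ν:ℝ) + 1 := by positivity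
  linarith

theorem parN_ok {P : ℕ} {sd : ℝ} (hsd : 0 ≤ sd) {ν : ℕ} (hν : 1 ≤ ν) : (parN P sd ν).OK := by
  have h : (1:ℝ) ≤ ν := by exact_mod_cast hν
  refine ⟨one_le_pow₀ h, ?_, hsd⟩
  have := parN_gap hν
  have : (ν : ℝ) ^ 7 ≤ (ν : ℝ) ^ 8 := pow_le_pow_right₀ h (by norm_num)
  have : 0 ≤ (ν : ℝ) ^ 7 := by positivity
  simp only [parN]
  linarith

theorem parN_E'_le {ν : ℕ} (hν : 1 ≤ ν) : ((ν : ℝ) + 1) ^ 9 ≤ 512 * (ν : ℝ) ^ 9 := by
  have h : (1:ℝ) ≤ ν := by exact_mod_cast hν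
  calc ((ν : ℝ) + 1) ^ 9 ≤ (2 * ν) ^ 9 := pow_le_pow_left₀ (by positivity) (by linarith) 9
    _ = _ := by ring

/-- On a cycle, large time means large index. -/
theorem tendsto_parN_E : Tendsto (fun ν : ℕ => (ν : ℝ) ^ 9) atTop atTop :=
  (tendsto_pow_atTop (by norm_num)).comp tendsto_natCast_atTop_atTop

theorem tendsto_parN_R : Tendsto (fun ν : ℕ => (ν : ℝ) ^ 7) atTop atTop :=
  (tendsto_pow_atTop (by norm_num)).comp tendsto_natCast_atTop_atTop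

/-- All cycles with large index have the right curvature signs, for all bounded coefficients. -/
theorem curv_cycle {ρi τ κ : ℝ} {w ρ : ℝ → ℝ} (hr : Radial ρi w ρ) (hρi : 0 < ρi) (hρ1 : ρi < 1)
    (hτ : 0 < τ) (hρeq : ρi ^ 2 = Real.exp (Real.log (1 + τ) / 41) / κ) (hκ : 0 < κ)
    (hgain : 1 < κ * (1 - τ / 20)) (P : ℕ) (Bc : ℝ) :
    ∀ᶠ ν in atTop, ∀ c : Fin P → ℝ, ‖c‖ ≤ Bc →
      ∀ t, CurvOK w ρ ((parN P (Real.log (1 + τ)) ν).sFun c) t := by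
  set sd := Real.log (1 + τ)
  have hsd : 0 ≤ sd := Real.log_nonneg (by linarith)
  obtain ⟨C, hC0, hC⟩ := exists_sched_bound P sd (max Bc 0) hsd (le_max_right _ _)
  obtain ⟨C', hC'⟩ := hr.decay
  obtain ⟨cw, hcw, hwge⟩ := hr.w_ge
  set f := fun s : ℝ => (42 - 2 * Real.exp s) * Real.exp (s / 41)
  have hfs : 40 * ρi ^ 2 < f sd := by
    have e : Real.exp sd = 1 + τ := Real.exp_log (by linarith)
    simp only [f, e, hρeq]
    rw [mul_div_assoc', div_lt_iff₀ hκ]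
    have := mul_lt_mul_of_pos_right hgain (mul_pos (by norm_num : (0:ℝ) < 40) (Real.exp_pos (sd / 41)))
    linarith
  set σ := min ((f sd / ρi ^ 2 - 40) / 2) ((40 / ρi ^ 2 - 40) / 4)
  have hσ : 0 < σ := by
    refine lt_min (half_pos ?_) (div_pos ?_ (by norm_num))
    · rw [sub_pos, lt_div_iff₀ (pow_pos hρi 2)]; exact hfs
    · rw [sub_pos, lt_div_iff₀ (pow_pos hρi 2)]
      nlinarith
  -- choices of the small lower end
  have hlimV : Tendsto (fun x : ℝ => 40 * Real.exp (-(2 * x))) (𝓝 0) (𝓝 40) := by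
    have : Continuous fun x : ℝ => 40 * Real.exp (-(2 * x)) := by fun_prop
    simpa using this.tendsto 0
  obtain ⟨ε₀, hε₀, hε₀'⟩ : ∃ ε₀ : ℝ, 0 < ε₀ ∧ ∀ x, |x| ≤ ε₀ →
      (40 + 3 * σ) * ρi ^ 2 ≤ 40 * Real.exp (-(2 * x)) := by
    have h1 : (40 + 3 * σ) * ρi ^ 2 < 40 := by
      have := min_le_right ((f sd / ρi ^ 2 - 40) / 2) ((40 / ρi ^ 2 - 40) / 4)
      have h2 : (40 + 4 * σ) ≤ 40 / ρi ^ 2 := by linarith
      rw [le_div_iff₀ (pow_pos hρi 2)] at h2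
      nlinarith [pow_pos hρi 2]
    obtain ⟨d, hd, hd'⟩ := Metric.eventually_nhds_iff.mp (hlimV.eventually_const_le h1)
    exact ⟨d / 2, half_pos hd, fun x hx => hd' (by rw [Real.dist_eq, sub_zero]; linarith)⟩
  set ε := min ε₀ (1 / 2)
  have hε : 0 < ε := lt_min hε₀ (by norm_num)
  have hρ2 : Tendsto (fun t => ρ t ^ 2) atTop (𝓝 (ρi ^ 2)) := hr.lim.pow 2
  have evH : ∀ᶠ t in atTop, (40 + σ) * ρ t ^ 2 ≤ f sd := by
    have h := hρ2.const_mul (40 + σ)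
    refine h.eventually_le_const ?_
    have := min_le_left ((f sd / ρi ^ 2 - 40) / 2) ((40 / ρi ^ 2 - 40) / 4)
    have h2 : 40 + 2 * σ ≤ f sd / ρi ^ 2 := by linarith
    rw [le_div_iff₀ (pow_pos hρi 2)] at h2
    nlinarith [pow_pos hρi 2]
  have evV : ∀ᶠ t in atTop, (40 + σ) * ρ t ^ 2 ≤ (40 + 3 * σ) * ρi ^ 2 :=
    (hρ2.const_mul (40 + σ)).eventually_le_const (by nlinarith [pow_pos hρi 2])
  have hsd0 : 0 < sd := Real.log_pos (by linarith)
  set e := min (σ / 209) 1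
  have he0 : 0 < e := lt_min (div_pos hσ (by norm_num)) one_pos
  have evt : ∀ᶠ t in atTop, 1 ≤ t ∧ C' / t ≤ e ∧ (40 + σ) * ρ t ^ 2 ≤ f sd ∧
      (40 + σ) * ρ t ^ 2 ≤ (40 + 3 * σ) * ρi ^ 2 := by
    refine (eventually_ge_atTop 1).and ?_
    exact ((tendsto_const_nhds.div_atTop tendsto_id).eventually_le_const he0).and (evH.and evV)
  obtain ⟨T₀, hT₀⟩ := eventually_atTop.mp evt
  have evν : ∀ᶠ ν : ℕ in atTop, 1 ≤ ν ∧ T₀ ≤ (ν : ℝ) ^ 9 ∧ C / (ν : ℝ) ^ 7 ≤ min e (min ε sd) ∧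
      512 ^ 3 * C ^ 4 ≤ cw ^ 2 * ν := by
    refine (eventually_ge_atTop 1).and ((tendsto_parN_E.eventually_ge_atTop T₀).and (?_ : _))
    refine ((tendsto_const_nhds.div_atTop tendsto_parN_R).eventually_le_const (lt_min he0 (lt_min hε hsd0))).and ?_
    exact (tendsto_natCast_atTop_atTop.const_mul_atTop (pow_pos hcw 2)).eventually_ge_atTop _
  filter_upwards [evν] with ν ⟨hν, hνT, hνR, hνc⟩ c hc t
  set p := parN P sd ν
  have hp : p.OK := parN_ok hsd hν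
  have hz : ∀ u, u ≤ p.E ∨ p.E' - p.R ≤ u → p.sFun c u = 0 := fun u hu =>
    CycPar.sFun_eq_zero hp hu
  have hR0 : 0 < p.R := CycPar.R_pos hp
  rcases lt_or_ge t p.E with hlt | hge
  · exact curv_flat hr hρi (eventually_lt_nhds hlt |>.mono fun u hu => hz u (Or.inl hu.le))
  rcases lt_or_ge p.E' t with hgt | hle
  · exact curv_flat hr hρi (eventually_gt_nhds hgt |>.mono fun u hu => hz u (Or.inr (by linarith)))
  have htT : T₀ ≤ t := hνT.trans hge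
  obtain ⟨ht1, htw, htH, htV⟩ := hT₀ t htT
  have hck : ∀ k, |c k| ≤ max Bc 0 := fun k =>
    ((Real.norm_eq_abs _).symm.trans_le (norm_le_pi_norm c k)).trans (hc.trans (le_max_left _ _))
  obtain ⟨-, -, hlo, hhi, hd1, hd2⟩ := hC p hp rfl rfl c hck t
  have hCR : C / p.R ≤ min e (min ε sd) := hνR
  have hρt : 0 < ρ t := hρi.trans_le (hr.lower t)
  refine curv_small (e := e) (σ := σ) (by linarith [min_le_left (σ / 209) (1:ℝ)]) (min_le_right _ _)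
    ((hC' t ht1).1.trans htw) ((hC' t ht1).2.trans htw) (hd1.trans (hCR.trans (min_le_left _ _)))
    (hd2.trans (hCR.trans (min_le_left _ _))) ?_ ?_ ?_
  · obtain ⟨hw1, hw2⟩ := hr.w_mem t
    have hsq : w t ^ 2 ≤ -w t / 4 := by nlinarith
    have hdw := hr.dw_le t
    have hds : deriv (p.sFun c) t ^ 2 ≤ cw / (t * Real.sqrt t) := by
      have h1 : deriv (p.sFun c) t ^ 2 ≤ (C / p.R) ^ 2 := sq_le_sq' (abs_le.mp hd1).1 (abs_le.mp hd1).2
      refine h1.trans ?_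
      have ht0 : 0 < t := by linarith
      rw [div_pow, div_le_div_iff₀ (pow_pos hR0 2) (by positivity)]
      refine le_of_pow_le_pow_left₀ two_ne_zero (by positivity) ?_
      have ht3 : t ^ 3 ≤ 512 ^ 3 * (ν : ℝ) ^ 27 := by
        calc t ^ 3 ≤ (512 * (ν : ℝ) ^ 9) ^ 3 :=
              pow_le_pow_left₀ ht0.le (hle.trans (parN_E'_le hν)) 3
          _ = _ := by ring
      calc (C ^ 2 * (t * Real.sqrt t)) ^ 2 = C ^ 4 * t ^ 3 := by
            rw [mul_pow, mul_pow, Real.sq_sqrt ht0.le]; ring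
        _ ≤ C ^ 4 * (512 ^ 3 * (ν : ℝ) ^ 27) := mul_le_mul_of_nonneg_left ht3 (by positivity)
        _ = (512 ^ 3 * C ^ 4) * (ν : ℝ) ^ 27 := by ring
        _ ≤ (cw ^ 2 * ν) * (ν : ℝ) ^ 27 := mul_le_mul_of_nonneg_right hνc (by positivity)
        _ = _ := by simp only [p, parN]; ring
    have := hwge t ht1
    linarith
  · rw [le_div_iff₀ (pow_pos hρt 2)]
    have hεs : -(1 / 2) ≤ p.sFun c t := by
      linarith [min_le_right ε₀ (1 / 2 : ℝ), hCR.trans ((min_le_right _ _).trans (min_le_left _ _))]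
    have hle : p.sFun c t ≤ sd :=
      hhi.trans (max_le le_rfl (hCR.trans ((min_le_right _ _).trans (min_le_right _ _))))
    exact htH.trans (horizontal_antitone hεs (by simp only [mem_Ici]; linarith) hle)
  · rw [le_div_iff₀ (pow_pos hρt 2)]
    refine htV.trans ?_
    set x := C / p.R
    have hx0 : 0 ≤ x := div_nonneg hC0 hR0.le
    refine (hε₀' x (by rw [abs_of_nonneg hx0]; exact hCR.trans ((min_le_right _ _).trans ((min_le_left _ _).trans (min_le_left _ _))))).trans ?_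
    exact mul_le_mul_of_nonneg_left (Real.exp_le_exp.mpr (by linarith)) (by norm_num)

end Vale.Agent.P225
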