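import Vale.Agent.P225.Interfaces2

/-!
P225: interfaces for the algebraic level data (H) and the analytic core; the final assembly
combines `LevelsStmt`, `CountGainStmt`, `MetricStmt` and `CoreStmt`.
-/

open scoped BigOperators ContDiff
open Filter Topology

namespace Vale.Agent.P225

/-- Complex structures on `ℝ^42`. -/
abbrev CS20 := {J : Matrix (Fin (amb 20)) (Fin (amb 20)) ℝ // IsCS J}

/-- The generators built from matrices of `Q_J` with level weights. -/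
noncomputable def levelGens {Lm : ℕ} {d : Fin Lm → ℕ}
    (A : CS20 → (l : Fin Lm) → Matrix (Fin (d l)) (Fin (d l)) ℝ) (c : Fin Lm → ℝ) : Set (Tup d) :=
  Set.range fun J : CS20 => fun l => c l • Matrix.toEuclideanCLM (𝕜 := ℝ) (A J l)

/-- The Lie fullness hypothesis of `SteerStmt`. -/
def GensFull {Lm : ℕ} {d : Fin Lm → ℕ} (gens : Set (Tup d)) : Prop :=
  ∀ H : Submodule ℝ (Tup d), gens ⊆ H → (∀ Q ∈ gens, ∀ X ∈ H, Q * X - X * Q ∈ H) →
    ∀ X : Tup d, (∀ l, LinearMap.trace ℝ _ (X l).toLinearMap = 0) → X ∈ H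

/-- MODULE H: bases of the levels `L = l + 2`, the matrices of `Q_J`, and Lie fullness. -/
def LevelsStmt : Prop :=
  ∀ Lm : ℕ, ∃ (d : Fin Lm → ℕ)
    (b : (l : Fin Lm) → Fin (d l) → MvPolynomial (Fin (amb 20)) ℝ)
    (m : (l : Fin Lm) → Fin (d l) → ℕ)
    (A : CS20 → (l : Fin Lm) → Matrix (Fin (d l)) (Fin (d l)) ℝ),
    (∀ (l : Fin Lm) i, b l i ∈ harm (amb 20) ((l : ℕ) + 2)) ∧
    (∀ l, LinearIndependent ℝ (b l)) ∧
    (∀ J l k, qOp J.1 (b l k) = ∑ i, A J l i k • b l i) ∧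
    (∀ J : CS20, J.1 = stdJ 20 → ∀ l, A J l = Matrix.diagonal fun i => (m l i : ℝ) ^ 2) ∧
    (∀ (l : Fin Lm) i, m l i ≤ (l : ℕ) + 2) ∧
    (∀ l : Fin Lm, ∀ p, 2 * p ≤ (l : ℕ) + 2 →
      cntLB 20 ((l : ℕ) + 2) p ≤ (Finset.univ.filter fun i => m l i = (l : ℕ) + 2 - 2 * p).card) ∧
    IsCS (stdJ 20) ∧
    ∀ c : Fin Lm → ℝ, (∀ l, c l ≠ 0) → GensFull (levelGens A c)

/-- Growth exponent of the component with index `m` of the level `L` on the plateau. -/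
noncomputable def compExp (τ κ : ℝ) (L m : ℕ) : ℝ :=
  Real.sqrt (κ * ((L : ℝ) * (L + 40) - τ / (1 + τ) * (m : ℝ) ^ 2) + 400) - 20

/-- THE CORE: a good profile whose harmonic solutions on each band grow like `exp (k t)`. -/
def CoreStmt : Prop :=
  ∀ τ κ : ℝ, 0 < τ → τ < 1 → 1 < κ * (1 - τ / 20) →
  ∀ (k Lm : ℕ) (d : Fin Lm → ℕ) (m : (l : Fin Lm) → Fin (d l) → ℕ)
    (A : CS20 → (l : Fin Lm) → Matrix (Fin (d l)) (Fin (d l)) ℝ) (hJ : IsCS (stdJ 20)),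
    (∀ l, A ⟨stdJ 20, hJ⟩ l = Matrix.diagonal fun i => (m l i : ℝ) ^ 2) →
    (∀ (l : Fin Lm) i, m l i ≤ (l : ℕ) + 2) →
    (∀ c : Fin Lm → ℝ, (∀ l, c l ≠ 0) → GensFull (levelGens A c)) →
    ∀ band : (l : Fin Lm) → Finset (Fin (d l)),
      (∀ l : Fin Lm, (band l).Nonempty →
        ∑ i ∈ band l, compExp τ κ ((l : ℕ) + 2) (m l i) < (k : ℝ) * (band l).card) →
      ∃ (S : Profile 20) (hS : S.Good), ∀ l : Fin Lm, ∀ r ∈ band l,
        ∃ (φ : Fin (d l) → ℝ → ℝ) (C : ℝ), (∀ i, ContDiff ℝ ∞ (φ i)) ∧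
          (∀ i t, deriv (deriv (φ i)) t +
              (2 * (20 : ℕ) + (2 * (20 : ℕ) + 1) * S.w t) * deriv (φ i) t =
            Real.exp (S.s t / (2 * (20 : ℕ) + 1)) / S.rho t ^ 2 *
              ((((l : ℕ) + 2 : ℕ) * ((((l : ℕ) + 2 : ℕ) : ℝ) + 2 * (20 : ℕ)) : ℝ) * φ i t +
                (Real.exp (-S.s t) - 1) * ∑ q, A ⟨S.J t, hS.isCS t⟩ l i q * φ q t)) ∧
          (∀ i, ∀ t ≤ 0, φ i t = (if i = r then (1:ℝ) else 0) * Real.exp ((((l : ℕ) + 2 : ℕ) : ℝ) * t)) ∧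
          ∀ i t, 0 ≤ t → |φ i t| ≤ C * Real.exp ((k : ℝ) * t)

/-- The final statement. -/
def FinalStmt : Prop :=
  ∃ g : Pt 42 → Matrix (Fin 42) (Fin 42) ℝ,
    IsMetric g ∧ IsCompleteMetric g ∧ RicciNonneg g ∧
      ∃ k : ℕ, 1 ≤ k ∧
        ∃ u : Fin (Nat.choose (42 + k - 1) k + Nat.choose (42 + k - 2) (k - 1) + 1) → Pt 42 → ℝ,
          LinearIndependent ℝ u ∧ ∀ i, IsPolyHarmonic g k (u i)

/-- MODULE I: the final assembly. -/
def AssemblyStmt : Prop :=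
  LevelsStmt → CountGainStmt → MetricStmt → CoreStmt → FinalStmt

end Vale.Agent.P225
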