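import Vale.Agent.P225.LevelBound
import Vale.Agent.P225.Interfaces3

/-! P225: four self-contained analytic modules of the core. -/

open Set Filter Topology
open scoped ContDiff RealInnerProductSpace

namespace Vale.Agent.P225

/-- MODULE J: on a long flat stretch the logarithmic derivative locks to the reference rate. -/
def LockStmt : Prop :=
  ∀ (d : ℕ) (e : Env) (lam Cc η : ℝ), 0 < lam → 0 ≤ Cc → 0 < η →
    ∃ T₀ : ℝ, 1 ≤ T₀ ∧ ∀ (L : ℝ → Op d) (U U' : ℝ → Lev d) (a a' : ℝ),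
      T₀ ≤ a' - a → T₀ * (a' - a) ≤ a → SolOn L e.bF U U' a a' →
      (∀ t ∈ Icc a a', L t = (lam / e.ρ t ^ 2) • (1 : Op d)) →
      0 ≤ ⟪U a, U' a⟫ → ‖U' a‖ ≤ Cc * ‖U a‖ →
        ‖U' a' - e.dl lam a' • U a'‖ ≤ η * ‖U a'‖

/-- MODULE K: growth within a cycle of a column ending in the single component `q`. -/
def PlateauStmt : Prop :=
  ∀ (d P : ℕ) (D : LevelData d P) (e : Env) (Bc Cc : ℝ) (q : Fin d) (δ : ℝ), 0 ≤ Cc → 0 < δ →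
    Real.exp (e.sd / 41) / e.ρi ^ 2 * (D.lam + (Real.exp (-e.sd) - 1) * D.m q ^ 2) <
      δ ^ 2 + 40 * δ →
    ∃ K Cg : ℝ, 1 ≤ K ∧ 0 ≤ Cg ∧ ∀ᶠ ν in atTop, ∀ c : Fin P → ℝ, ‖c‖ ≤ Bc →
      ∀ U U' : ℝ → Lev d,
        SolOn (D.lamN e ν c) e.bF U U' (parN P e.sd ν).E (parN P e.sd ν).E' →
        0 ≤ ⟪U (parN P e.sd ν).E, U' (parN P e.sd ν).E⟫ →
        ‖U' (parN P e.sd ν).E‖ ≤ Cc * ‖U (parN P e.sd ν).E‖ →
        (∀ i, i ≠ q → U (parN P e.sd ν).E' i = 0) →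
        ∀ t ∈ Icc (parN P e.sd ν).E (parN P e.sd ν).E',
          ‖U t‖ ≤ K * Real.exp (Cg * (parN P e.sd ν).R + δ * (t - (parN P e.sd ν).E)) *
            ‖U (parN P e.sd ν).E‖

/-- MODULE L: periodic rates with average below `k` give growth `exp (k t)`. -/
def AverageStmt : Prop :=
  ∀ (i₀ per : ℕ) (μ : ℕ → ℝ) (k K Cg : ℝ), 1 ≤ i₀ → 0 < per → 1 ≤ K → 0 ≤ Cg → (∀ i, 0 ≤ μ i) →
    (∀ i, μ (i + per) = μ i) → ∑ i ∈ Finset.range per, μ i < k * per →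
    ∀ f : ℝ → ℝ, (∀ t, 0 ≤ f t) →
      (∀ i, ∀ t ∈ Icc (((i + i₀ : ℕ) : ℝ) ^ 9) ((((i + i₀ : ℕ) : ℝ) + 1) ^ 9),
        f t ≤ K * Real.exp (Cg * ((i + i₀ : ℕ) : ℝ) ^ 7 + μ i * (t - ((i + i₀ : ℕ) : ℝ) ^ 9)) *
          f (((i + i₀ : ℕ) : ℝ) ^ 9)) →
      ∃ C : ℝ, ∀ t, ((i₀ : ℝ)) ^ 9 ≤ t → f t ≤ C * Real.exp (k * t)

/-- Start of cycle `i` when the first index is `i₀`. -/
noncomputable def gE (i₀ i : ℕ) : ℝ := ((i + i₀ : ℕ) : ℝ) ^ 9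

/-- The glued squashing function. -/
noncomputable def sGlue (P : ℕ) (sd : ℝ) (i₀ : ℕ) (c : ℕ → Fin P → ℝ) (t : ℝ) : ℝ :=
  (parN P sd (cycleIdx (gE i₀) t + i₀)).sFun (c (cycleIdx (gE i₀) t)) t

/-- The glued complex structure. -/
noncomputable def jGlue (P : ℕ) (sd : ℝ) (i₀ : ℕ) (Js : Fin P → CS20) (J₀ : CS20) (t : ℝ) : CS20 :=
  (parN P sd (cycleIdx (gE i₀) t + i₀)).pick Js J₀ t

/-- The glued coefficient operator. -/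
noncomputable def lamGlue {d P : ℕ} (D : LevelData d P) (e : Env) (i₀ : ℕ) (c : ℕ → Fin P → ℝ)
    (t : ℝ) : Op d :=
  D.lamN e (cycleIdx (gE i₀) t + i₀) (c (cycleIdx (gE i₀) t)) t

/-- The glued profile. -/
noncomputable def glueProfile (e : Env) (P i₀ : ℕ) (c : ℕ → Fin P → ℝ) (Js : Fin P → CS20)
    (J₀ : CS20) : Profile 20 :=
  ⟨e.w, e.ρ, sGlue P e.sd i₀ c, fun t => (jGlue P e.sd i₀ Js J₀ t).1⟩

/-- MODULE M: the glued profile is good and the glued operator has the expected form. -/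
def GlueStmt : Prop :=
  ∀ (e : Env) (P i₀ : ℕ) (c : ℕ → Fin P → ℝ) (Js : Fin P → CS20) (J₀ : CS20) (Bc : ℝ), 1 ≤ i₀ →
    (∀ i, ‖c i‖ ≤ Bc) → (∀ i t, CurvOK e.w e.ρ ((parN P e.sd (i + i₀)).sFun (c i)) t) →
    (glueProfile e P i₀ c Js J₀).Good ∧
    ∀ (d : ℕ) (D : LevelData d P) (Q : CS20 → Op d),
      (∀ k, D.Qs k = Q (Js k)) → D.Q0 = Q J₀ →
        ContDiff ℝ ∞ (lamGlue D e i₀ c) ∧
        (∀ i, ∀ t ∈ Icc (gE i₀ i) (gE i₀ (i + 1)), lamGlue D e i₀ c t = D.lamN e (i + i₀) (c i) t) ∧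
        (∀ t ≤ gE i₀ 0, lamGlue D e i₀ c t = (D.lam / e.ρ t ^ 2) • (1 : Op d)) ∧
        ∀ t, lamGlue D e i₀ c t = (Real.exp (sGlue P e.sd i₀ c t / 41) / e.ρ t ^ 2) •
          (D.lam • (1 : Op d) +
            (Real.exp (-sGlue P e.sd i₀ c t) - 1) • Q (jGlue P e.sd i₀ Js J₀ t))

end Vale.Agent.P225
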