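import Vale.Agent.P225.Transit
import Vale.Agent.P225.Interfaces4

/-! P225 MODULE J: locking on flat stretches. -/

open Set Filter Topology
open scoped ContDiff RealInnerProductSpace

namespace Vale.Agent.P225

theorem lock : LockStmt := by
  intro d e lam Cc η hlam hCc hη
  obtain ⟨Kd, hKd0, hKd⟩ := e.dl_deriv_le hlam
  obtain ⟨C', hC'⟩ := e.rad.decay
  set G := 2 * e.dlMax lam + 40
  have hdM : 0 ≤ e.dlMax lam := (e.dl_pos hlam 0).le.trans (e.dl_mem hlam 0).2
  have hG : 0 ≤ G := by simp only [G]; linarith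
  obtain ⟨K, hK0, hK⟩ := transit_estimate (V := Lev d) (show (0:ℝ) < 29 by norm_num) hG zero_le_one
  set Cd := (4 * Kd + 41) * |C'| + 1
  set β := 1 + (Cc + e.dlMax lam) ^ 2
  set θ := min (1 / 4) (η / 4)
  have hθ : 0 < θ := lt_min (by norm_num) (by linarith)
  set T₀ := max (2 * Cd) (K * β * (2 + Cd) / θ ^ 2)
  have hCd : 1 ≤ Cd := le_add_of_nonneg_left (by positivity)
  have hT1 : 1 ≤ T₀ := le_max_of_le_left (by linarith)
  refine ⟨T₀, hT1, fun L U U' a a' hlen hstart hsol hL hq hP => ?_⟩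
  set S := a' - a
  have hS : 1 ≤ S := hT1.trans hlen
  have hT0 : 0 < T₀ := lt_of_lt_of_le one_pos hT1
  have ha1 : 1 ≤ a := le_trans (one_le_mul_of_one_le_of_one_le hT1 hS) hstart
  set ε := Cd / a
  have hε : ε ≤ 1 / S := by
    rw [div_le_div_iff₀ (by linarith) (by linarith)]
    have := mul_le_mul_of_nonneg_right (show Cd ≤ T₀ from (by linarith : Cd ≤ 2 * Cd).trans
      (le_max_left _ _)) (by linarith : (0:ℝ) ≤ S)
    linarith
  have hdd : ∀ t ∈ Icc a a', |deriv (e.dl lam) t| ≤ 2 * Kd * (|C'| / a) ∧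
      |deriv e.w t| ≤ |C'| / a := by
    intro t ht
    have ht1 : 1 ≤ t := ha1.trans ht.1
    have hb : ∀ x, |x| ≤ C' / t → |x| ≤ |C'| / a := fun x hx =>
      hx.trans ((div_le_div_of_nonneg_right (le_abs_self C') (by linarith)).trans
        (div_le_div_of_nonneg_left (abs_nonneg _) (by linarith) ht.1))
    refine ⟨(hKd t).trans ?_, hb _ (hC' t ht1).2⟩
    have := mul_le_mul_of_nonneg_left (add_le_add (hb _ (hC' t ht1).1) (hb _ (hC' t ht1).2)) hKd0
    linarith
  set X : ℝ → Lev d := fun t => (phiF e lam a t)⁻¹ • U t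
  set Pf : ℝ → Lev d := fun t => (phiF e lam a t)⁻¹ • (U' t - e.dl lam t • U t)
  set γ : ℝ → ℝ := fun u => 2 * e.dl lam u + e.bF u
  have hγb : ∀ t, 29 ≤ γ t ∧ γ t ≤ G := fun t => by
    have := e.dl_mem hlam t
    have := e.dl_pos hlam t
    have := e.bF_mem t
    simp only [γ, G]
    constructor <;> linarith
  set z := X a + (γ a)⁻¹ • Pf a
  have hCa : 0 ≤ |C'| / a := by positivity
  have hT : Transit 29 G 1 a a' (1 / S) ε γ (fun t => 2 * deriv (e.dl lam) t + 41 * deriv e.w t)
      (fun t => L t - (lam / e.ρ t ^ 2 + deriv (e.dl lam) t) • (1 : Op d)) (fun _ => 0)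
      X Pf (fun _ => z) :=
    { lt := by linarith
      mu_pos := by positivity
      mu_le := (div_le_one (by linarith)).mpr hS
      eps_nonneg := by positivity
      eps_le := hε
      mu_len := le_of_eq (by simp only [S] at *; field_simp)
      dgamma := fun t _ => ((e.dl_hasDerivAt hlam t).const_mul 2).add
        ((((e.rad.smooth.differentiable (by simp)) t).hasDerivAt.const_mul 41).const_add 40)
      gamma_bd := fun t _ => hγb t
      gammad_le := fun t ht => by
        refine (abs_add_le _ _).trans ?_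
        rw [abs_mul, abs_mul, abs_two, abs_of_pos (by norm_num : (0:ℝ) < 41)]
        have e1 : ε = (4 * Kd + 41) * (|C'| / a) + 1 / a := by simp only [ε, Cd]; ring
        have := (hdd t ht).1
        have := (hdd t ht).2
        have : (0:ℝ) ≤ 1 / a := by positivity
        linarith
      ideal_le := fun t _ => by rw [norm_zero]; positivity
      near_le := fun t ht => by
        have e0 : (lam / e.ρ t ^ 2) • (1 : Op d) - (lam / e.ρ t ^ 2 + deriv (e.dl lam) t) • (1 : Op d) =
            -(deriv (e.dl lam) t • (1 : Op d)) := by module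
        rw [smul_zero, sub_zero, hL t ht, e0, norm_neg, norm_smul, Real.norm_eq_abs]
        refine (mul_le_of_le_one_right (abs_nonneg _) ContinuousLinearMap.norm_id_le).trans ?_
        have e1 : ε = (4 * Kd + 41) * (|C'| / a) + 1 / a := by simp only [ε, Cd]; ring
        have := (hdd t ht).1
        have : (0:ℝ) ≤ 1 / a := by positivity
        have : 0 ≤ Kd * (|C'| / a) := mul_nonneg hKd0 hCa
        linarith
      dX := fun t ht => (conj_system e hlam hsol ht).1
      dP := fun t ht => (conj_system e hlam hsol ht).2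
      dPsi := fun t _ => by simpa using hasDerivAt_const t z
      psi_start := rfl }
  have hXa : X a = U a := by simp [X, phiF]
  have hPa : Pf a = U' a - e.dl lam a • U a := by simp [Pf, phiF]
  have hδ := e.dl_mem hlam a
  have hδ0 := e.dl_pos hlam a
  have hE₀ : ‖X a‖ ^ 2 + ‖Pf a‖ ^ 2 ≤ β * ‖U a‖ ^ 2 := by
    rw [hXa, hPa]
    have h1 : ‖U' a - e.dl lam a • U a‖ ≤ (Cc + e.dlMax lam) * ‖U a‖ := by
      refine (norm_sub_le _ _).trans ?_
      rw [norm_smul, Real.norm_of_nonneg hδ0.le, add_mul]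
      exact add_le_add hP (mul_le_mul_of_nonneg_right hδ.2 (norm_nonneg _))
    have h2 := pow_le_pow_left₀ (norm_nonneg _) h1 2
    rw [mul_pow] at h2
    simp only [β]
    linarith
  have hTe : transitErr (1 / S) ε S ≤ (2 + Cd) / T₀ := by
    have h1 : ε ^ 2 * S / (1 / S) = (ε * S) ^ 2 := by field_simp
    have h2 : ε * S ≤ Cd / T₀ := by
      rw [div_mul_eq_mul_div, div_le_div_iff₀ (by linarith) hT0]
      calc Cd * S * T₀ = Cd * (T₀ * S) := by ring
        _ ≤ Cd * a := mul_le_mul_of_nonneg_left hstart (by linarith)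
    have h3 : Cd / T₀ ≤ 1 := (div_le_one hT0).mpr (by
      linarith [le_max_left (2 * Cd) (K * β * (2 + Cd) / θ ^ 2)])
    have hz : 0 ≤ ε * S := by positivity
    have h4 : (ε * S) ^ 2 ≤ Cd / T₀ :=
      (by nlinarith : (ε * S) ^ 2 ≤ ε * S).trans h2
    have h5 : 1 / S ≤ 1 / T₀ := one_div_le_one_div_of_le hT0 hlen
    simp only [transitErr]
    rw [h1, add_div]
    have : (2:ℝ) / T₀ = 1 / T₀ + 1 / T₀ := by ring
    linarith
  have hmain := (hK _ _ _ _ _ _ _ _ _ _ _ hT).trans
    (mul_le_mul (mul_le_mul_of_nonneg_left hTe hK0) hE₀ (by positivity) (by positivity))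
  have hbound : ‖X a' - z‖ ^ 2 + ‖Pf a'‖ ^ 2 ≤ (θ * ‖U a‖) ^ 2 := by
    refine hmain.trans ?_
    rw [mul_pow]
    calc K * ((2 + Cd) / T₀) * (β * ‖U a‖ ^ 2) = K * β * (2 + Cd) / T₀ * ‖U a‖ ^ 2 := by ring
      _ ≤ θ ^ 2 * ‖U a‖ ^ 2 := by
        refine mul_le_mul_of_nonneg_right ?_ (sq_nonneg _)
        have := le_max_right (2 * Cd) (K * β * (2 + Cd) / θ ^ 2)
        rw [div_le_iff₀ hT0]
        rw [div_le_iff₀ (pow_pos hθ 2)] at this
        linarith
  have hX1 : ‖X a' - z‖ ≤ θ * ‖U a‖ := le_of_pow_le_pow_left₀ two_ne_zero (by positivity)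
    ((le_add_of_nonneg_right (sq_nonneg _)).trans hbound)
  have hP1 : ‖Pf a'‖ ≤ θ * ‖U a‖ := le_of_pow_le_pow_left₀ two_ne_zero (by positivity)
    ((le_add_of_nonneg_left (sq_nonneg _)).trans hbound)
  have hz2 : ‖U a‖ / 2 ≤ ‖z‖ := by
    have hin : ‖U a‖ ^ 2 / 2 ≤ ⟪U a, z⟫ := by
      simp only [z, hXa, hPa, inner_add_right, real_inner_smul_right, inner_sub_right,
        real_inner_self_eq_norm_sq]
      have hg := (hγb a).1
      have h1 : e.dl lam a * (γ a)⁻¹ ≤ 1 / 2 := by
        rw [← div_eq_mul_inv, div_le_iff₀ (by linarith)]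
        have := e.bF_mem a
        simp only [γ] at hg ⊢
        linarith
      have h2 := mul_le_mul_of_nonneg_right h1 (sq_nonneg ‖U a‖)
      have h3 := mul_nonneg (inv_nonneg.mpr (by linarith : (0:ℝ) ≤ γ a)) hq
      rw [mul_sub]
      linarith
    have h := hin.trans (real_inner_le_norm _ _)
    rcases (norm_nonneg (U a)).eq_or_lt with h0 | h0
    · rw [← h0]; simp
    · nlinarith
  have hlow : ‖U a‖ / 4 ≤ ‖X a'‖ := by
    have h := norm_sub_norm_le z (X a')
    rw [norm_sub_rev] at h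
    have := mul_le_mul_of_nonneg_right (min_le_left (1 / 4) (η / 4)) (norm_nonneg (U a))
    linarith
  have hfin : ‖Pf a'‖ ≤ η * ‖X a'‖ := by
    refine hP1.trans ?_
    have h := mul_le_mul_of_nonneg_left hlow hη.le
    have := mul_le_mul_of_nonneg_right (min_le_right (1 / 4) (η / 4)) (norm_nonneg (U a))
    linarith
  simp only [X, Pf, norm_smul, Real.norm_eq_abs] at hfin
  have hpos : 0 < |(phiF e lam a a')⁻¹| := abs_pos.mpr (inv_ne_zero (phiF_pos e _ _ _).ne')
  rw [mul_left_comm] at hfin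
  exact le_of_mul_le_mul_left hfin hpos

end Vale.Agent.P225
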