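import Vale.Agent.P225.Dwell
import Vale.Agent.P225.Lock

/-! P225: exact steering of a cycle on all levels, and propagation of the entry state. -/

open Set Filter Topology
open scoped ContDiff RealInnerProductSpace

namespace Vale.Agent.P225

variable (e : Env)

/-- The entry state of the cycle `ν` is close to the reference rate. -/
def NearAt {d : ℕ} (lam η : ℝ) (ν : ℕ) (D0 : Op d) : Prop :=
  ‖D0 - e.dl lam ((ν : ℝ) ^ 9) • (1 : Op d)‖ ≤ η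

theorem cycle_exists {Lm P : ℕ} {d : Fin Lm → ℕ} (Ds : (l : Fin Lm) → LevelData (d l) P) (T : Tup d)
    {Bc ηs : ℝ} (hηs : 0 < ηs)
    (hsteer : ∀ Z : (Fin P → ℝ) → Tup d, Continuous Z →
      (∀ c, ‖c‖ ≤ Bc → ‖Z c - slotExp (fun k l => (Ds l).gen e k) c‖ ≤ ηs) →
      ∃ c, ‖c‖ ≤ Bc ∧ ∃ a : Fin Lm → ℝ, ∀ l, a l ≠ 0 ∧ Z c l = a l • T l) :
    ∃ η' : Fin Lm → ℝ, (∀ l, 0 < η' l) ∧ ∀ᶠ ν in atTop, ∀ D0 : Tup d,
      (∀ l, NearAt e (Ds l).lam (η' l) ν (D0 l)) →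
      ∃ c : Fin P → ℝ, ‖c‖ ≤ Bc ∧ ∀ l, ∃ b : Fin (d l) → ℝ, (∀ i, b i ≠ 0) ∧
        ∀ v i, ((Ds l).cyc e ν (D0 l) c (parN P e.sd ν).E').1 v i = b i * T l v i := by
  choose η' hη' hev using fun l => cycle_level (Ds l) e Bc ηs hηs
  refine ⟨η', hη', ?_⟩
  filter_upwards [eventually_all.mpr hev] with ν hν D0 hD0
  choose Z a hZc hZn ha hZ using fun l => hν l (D0 l) (hD0 l)
  obtain ⟨c, hc, α, hα⟩ := hsteer (fun c l => Z l c) (continuous_pi hZc) fun c hc => by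
    refine (pi_norm_le_iff_of_nonneg hηs.le).mpr fun l => ?_
    rw [Pi.sub_apply, slotExp_apply]
    exact hZn l c hc
  refine ⟨c, hc, fun l => ⟨fun i => a l c i * α l, fun i => mul_ne_zero (ha l c i).ne' (hα l).1,
    fun v i => ?_⟩⟩
  have h := hZ l c v i
  have h2 := (hα l).2
  rw [h2] at h
  rw [h]
  simp only [smul_apply, PiLp.smul_apply, smul_eq_mul]
  ring

variable {d P : ℕ} (D : LevelData d P)

theorem lamN_flat {ν : ℕ} (hν : 1 ≤ ν) (c : Fin P → ℝ) {t : ℝ}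
    (ht : (parN P e.sd ν).E' - (parN P e.sd ν).R ≤ t) :
    D.lamN e ν c t = (D.lam / e.ρ t ^ 2) • (1 : Op d) := by
  have hp := parN_ok (P := P) e.sd_pos.le hν
  have hR := CycPar.R_pos hp
  have hl := hp.long
  refine ContinuousLinearMap.ext fun v => PiLp.ext fun i => ?_
  rw [lamN_apply_of_late D e hν (by linarith) c v i]
  simp only [LevelData.lamC, CycPar.plateau_eq_zero hp (Or.inr ht), zero_div, neg_zero, Real.exp_zero,
    sub_self, zero_mul, add_zero, smul_apply, one_apply_eq_self, PiLp.smul_apply, smul_eq_mul]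
  ring

theorem exists_quotient {d : ℕ} (U U' : Op d) (δ η : ℝ) (hη : 0 ≤ η)
    (hinj : ∀ v, U v = 0 → v = 0) (hbound : ∀ v, ‖U' v - δ • U v‖ ≤ η * ‖U v‖) :
    ∃ D1 : Op d, ‖D1 - δ • (1 : Op d)‖ ≤ η ∧ U' = D1 * U := by
  have hinj' : Function.Injective U.toLinearMap :=
    (injective_iff_map_eq_zero U.toLinearMap).mpr hinj
  set W := LinearEquiv.ofInjectiveEndo U.toLinearMap hinj'
  refine ⟨U' * LinearMap.toContinuousLinearMap W.symm.toLinearMap, ?_, ?_⟩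
  · refine ContinuousLinearMap.opNorm_le_bound _ hη fun w => ?_
    have hw : U (W.symm w) = w := W.apply_symm_apply w
    have h := hbound (W.symm w)
    rw [hw] at h
    exact h
  · refine ContinuousLinearMap.ext fun v => ?_
    show U' v = U' (W.symm (U v))
    rw [show U v = W v from rfl, W.symm_apply_apply]

theorem near_entry {η Cc : ℝ} {ν : ℕ} {D0 : Op d} (h : NearAt e D.lam η ν D0) (hη1 : η ≤ 1)
    (hηm : η ≤ e.dlMin D.lam) (hCc : e.dlMax D.lam + 1 ≤ Cc) (v : Lev d) :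
    0 ≤ ⟪v, D0 v⟫ ∧ ‖D0 v‖ ≤ Cc * ‖v‖ := by
  have hδ := e.dl_mem D.lam_pos ((ν : ℝ) ^ 9)
  have herr : ‖D0 v - e.dl D.lam ((ν : ℝ) ^ 9) • v‖ ≤ η * ‖v‖ := by
    have := ((D0 - e.dl D.lam ((ν : ℝ) ^ 9) • (1 : Op d)).le_opNorm v).trans
      (mul_le_mul_of_nonneg_right h (norm_nonneg _))
    simpa only [sub_apply, smul_apply, one_apply_eq_self] using this
  constructor
  · have h1 := (abs_real_inner_le_norm v (D0 v - e.dl D.lam ((ν : ℝ) ^ 9) • v)).trans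
      (mul_le_mul_of_nonneg_left herr (norm_nonneg v))
    rw [inner_sub_right, real_inner_smul_right, real_inner_self_eq_norm_sq] at h1
    have h2 := mul_le_mul_of_nonneg_right (hηm.trans hδ.1) (sq_nonneg ‖v‖)
    linarith [(abs_le.mp h1).1]
  · have h1 := norm_le_norm_add_norm_sub' (D0 v) (e.dl D.lam ((ν : ℝ) ^ 9) • v)
    rw [norm_smul, Real.norm_of_nonneg (e.dl_pos D.lam_pos _).le] at h1
    have h2 := mul_le_mul_of_nonneg_right (add_le_add hδ.2 hη1) (norm_nonneg v)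
    have h3 := mul_le_mul_of_nonneg_right hCc (norm_nonneg v)
    linarith

theorem end_lock {d : ℕ} {lam Cc η T₀ Lb : ℝ}
    (hlock : ∀ (L : ℝ → Op d) (U U' : ℝ → Lev d) (a a' : ℝ),
      T₀ ≤ a' - a → T₀ * (a' - a) ≤ a → SolOn L e.bF U U' a a' →
      (∀ t ∈ Icc a a', L t = (lam / e.ρ t ^ 2) • (1 : Op d)) →
      0 ≤ ⟪U a, U' a⟫ → ‖U' a‖ ≤ Cc * ‖U a‖ →
        ‖U' a' - e.dl lam a' • U a'‖ ≤ η * ‖U a'‖)
    {L : ℝ → Op d} {U U' : ℝ → Lev d} {E E' R : ℝ} (hs : SolOn L e.bF U U' E E')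
    (hpos : ∀ t ∈ Icc E E', ∀ x, 0 ≤ ⟪x, L t x⟫) (hL : ∀ t ∈ Icc E E', ‖L t‖ ≤ Lb)
    (hflat : ∀ t, E' - R ≤ t → L t = (lam / e.ρ t ^ 2) • (1 : Op d)) (hLb : Lb / 29 ≤ Cc)
    (hq : 0 ≤ ⟪U E, U' E⟫) (hC : ‖U' E‖ ≤ Cc * ‖U E‖) (hR : 0 ≤ R) (hEE : E ≤ E' - R)
    (hT : T₀ ≤ R) (hT' : T₀ * R ≤ E' - R) :
    ‖U' E' - e.dl lam E' • U E'‖ ≤ η * ‖U E'‖ := by
  have hmem : E' - R ∈ Icc E E' := ⟨hEE, by linarith⟩
  refine hlock L U U' (E' - R) E' (by linarith) (by rw [sub_sub_cancel]; exact hT')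
    (hs.mono hEE le_rfl) (fun t ht => hflat t ht.1)
    (hs.inner_nonneg e.bF_continuous hpos hq _ hmem)
    (hs.norm_deriv_le e.bF_continuous hpos hq (by norm_num : (0:ℝ) < 29)
      (fun t _ => (e.bF_mem t).1) hL hLb hC _ hmem)

/-- Propagation along a cycle: monotone norms, a bound on the derivative, and locking at the end. -/
theorem cycle_next (Bc η : ℝ) (hη : 0 < η) (hη1 : η ≤ 1) (hηm : η ≤ e.dlMin D.lam) :
    ∃ Cc : ℝ, 0 ≤ Cc ∧ ∀ᶠ ν in atTop, ∀ c : Fin P → ℝ, ‖c‖ ≤ Bc → ∀ D0 : Op d,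
      NearAt e D.lam η ν D0 →
      (∀ v, SolOn (D.lamN e ν c) e.bF (fun t => (D.cyc e ν D0 c t).1 v)
          (fun t => (D.cyc e ν D0 c t).2 v) (parN P e.sd ν).E (parN P e.sd ν).E' ∧
        0 ≤ ⟪(D.cyc e ν D0 c (parN P e.sd ν).E).1 v, (D.cyc e ν D0 c (parN P e.sd ν).E).2 v⟫ ∧
        ‖(D.cyc e ν D0 c (parN P e.sd ν).E).2 v‖ ≤ Cc * ‖(D.cyc e ν D0 c (parN P e.sd ν).E).1 v‖) ∧
      ∃ D1 : Op d, NearAt e D.lam η (ν + 1) D1 ∧
        (D.cyc e ν D0 c (parN P e.sd ν).E').2 = D1 * (D.cyc e ν D0 c (parN P e.sd ν).E').1 := by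
  obtain ⟨Lb, hLb0, hLb⟩ := lamN_bounds D e Bc
  set Cc := max (Lb / 29) (e.dlMax D.lam + 1)
  have hCc : 0 ≤ Cc := le_max_of_le_left (by positivity)
  refine ⟨Cc, hCc, ?_⟩
  obtain ⟨T₀, hT₀1, hlock⟩ := lock d e D.lam Cc η D.lam_pos hCc hη
  have ev : ∀ᶠ ν : ℕ in atTop, 1 ≤ ν ∧ T₀ ≤ (ν : ℝ) ^ 7 ∧ T₀ ≤ (ν : ℝ) ^ 2 :=
    (eventually_ge_atTop 1).and ((tendsto_parN_R.eventually_ge_atTop T₀).and
      (((tendsto_pow_atTop two_ne_zero).comp tendsto_natCast_atTop_atTop).eventually_ge_atTop T₀))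
  filter_upwards [hLb, ev] with ν hνL ⟨hν, hνR, hν2⟩ c hc D0 hD0
  set p := parN P e.sd ν
  have hp : p.OK := parN_ok e.sd_pos.le hν
  have hR := CycPar.R_pos hp
  have hl := hp.long
  have h0 : D.cyc e ν D0 c p.E = (1, D0) := cyc_init D e ν D0 c
  have hsol : ∀ v : Lev d, SolOn (D.lamN e ν c) e.bF (fun t => (D.cyc e ν D0 c t).1 v)
      (fun t => (D.cyc e ν D0 c t).2 v) p.E p.E' :=
    fun v => solOn_apply (fun t _ => cyc_deriv D e ν D0 c t) v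
  have hv : ∀ v : Lev d, 0 ≤ ⟪(D.cyc e ν D0 c p.E).1 v, (D.cyc e ν D0 c p.E).2 v⟫ ∧
      ‖(D.cyc e ν D0 c p.E).2 v‖ ≤ Cc * ‖(D.cyc e ν D0 c p.E).1 v‖ := fun v => by
    rw [h0]
    exact near_entry e D hD0 hη1 hηm (le_max_right _ _) v
  refine ⟨fun v => ⟨hsol v, hv v⟩, ?_⟩
  have hpos : ∀ t ∈ Icc p.E p.E', ∀ x, 0 ≤ ⟪x, D.lamN e ν c t x⟫ := fun t _ => (hνL c hc t).2
  have hinj : ∀ v, (D.cyc e ν D0 c p.E').1 v = 0 → v = 0 := fun v hv0 => by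
    have := (hsol v).norm_mono e.bF_continuous hpos (hv v).1 p.E' ⟨by linarith, le_rfl⟩
    rw [h0, hv0, norm_zero] at this
    exact norm_le_zero_iff.mp this
  have hbound : ∀ v, ‖(D.cyc e ν D0 c p.E').2 v - e.dl D.lam p.E' • (D.cyc e ν D0 c p.E').1 v‖ ≤
      η * ‖(D.cyc e ν D0 c p.E').1 v‖ := fun v => by
    have hT : T₀ * p.R ≤ p.E' - p.R := by
      have : T₀ * p.R ≤ p.E := by
        calc T₀ * p.R ≤ (ν : ℝ) ^ 2 * p.R := mul_le_mul_of_nonneg_right hν2 hR.le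
          _ = p.E := by simp only [p]; ring
      linarith
    exact end_lock e hlock (U := fun t => (D.cyc e ν D0 c t).1 v)
      (U' := fun t => (D.cyc e ν D0 c t).2 v) (hsol v) hpos (fun t _ => (hνL c hc t).1)
      (fun t ht => lamN_flat e D hν c ht) (le_max_left _ _) (hv v).1 (hv v).2 hR.le
      (by linarith) hνR hT
  obtain ⟨D1, hD1, heq⟩ := exists_quotient _ _ _ η hη.le hinj hbound
  refine ⟨D1, ?_, heq⟩
  have hcast : (((ν + 1 : ℕ) : ℝ)) ^ 9 = p.E' := by push_cast; rfl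
  rw [NearAt, hcast]
  exact hD1

end Vale.Agent.P225
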