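import Vale.Agent.P225.Transit

/-! P225: one cycle on one level as a map of the pulse coefficients. -/

open Set Filter Topology
open scoped ContDiff RealInnerProductSpace

namespace Vale.Agent.P225

/-- A diagonal operator. -/
noncomputable def diagOp {d : ℕ} (g : Fin d → ℝ) : Op d :=
  Matrix.toEuclideanCLM (𝕜 := ℝ) (Matrix.diagonal g)

theorem diagOp_apply {d : ℕ} (g : Fin d → ℝ) (v : Lev d) (i : Fin d) :
    diagOp g v i = g i * v i := by
  simp [diagOp, Matrix.mulVec_diagonal]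

theorem diagOp_norm_le {d : ℕ} {g : Fin d → ℝ} {B : ℝ} (hB : 0 ≤ B) (hg : ∀ i, |g i| ≤ B) :
    ‖diagOp g‖ ≤ B := by
  refine ContinuousLinearMap.opNorm_le_bound _ hB fun v => ?_
  refine le_of_pow_le_pow_left₀ two_ne_zero (by positivity) ?_
  rw [EuclideanSpace.norm_sq_eq, mul_pow, EuclideanSpace.norm_sq_eq, Finset.mul_sum]
  refine Finset.sum_le_sum fun i _ => ?_
  rw [diagOp_apply, Real.norm_eq_abs, Real.norm_eq_abs, sq_abs, sq_abs, mul_pow]
  refine mul_le_mul_of_nonneg_right ?_ (sq_nonneg _)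
  rw [← sq_abs (g i)]
  exact pow_le_pow_left₀ (abs_nonneg _) (hg i) 2

theorem hasDerivAt_coord {d : ℕ} {f : ℝ → Lev d} {f' : Lev d} {t : ℝ} (h : HasDerivAt f f' t)
    (i : Fin d) : HasDerivAt (fun s => f s i) (f' i) t :=
  (PiLp.proj 2 (fun _ : Fin d => ℝ) i : Lev d →L[ℝ] ℝ).hasFDerivAt.comp_hasDerivAt t h

/-- Fundamental solutions of a scalar equation. -/
theorem fundamental {lam b : ℝ → ℝ} (hlam : Continuous lam) (hb : Continuous b) {a e : ℝ}
    (hae : a < e) (hpos : ∀ t ∈ Icc a e, 0 ≤ lam t) :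
    ∃ C S : ℝ, 0 < C ∧ 0 < S ∧ ∀ u u' : ℝ → ℝ, (∀ t ∈ Icc a e, HasDerivAt u (u' t) t) →
      (∀ t ∈ Icc a e, HasDerivAt u' (lam t * u t - b t * u' t) t) →
        u e = C * u a + S * u' a := by
  have hA : Continuous fun t => sysOp (lam t) (b t) := sysOp_continuous hlam hb
  obtain ⟨X, hX0, hX⟩ := exists_linearODE hA a ((1 : ℝ), (0 : ℝ))
  obtain ⟨Y, hY0, hY⟩ := exists_linearODE hA a ((0 : ℝ), (1 : ℝ))
  have comp : ∀ (Z : ℝ → ℝ × ℝ), (∀ t, HasDerivAt Z (sysOp (lam t) (b t) (Z t)) t) →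
      (∀ t, HasDerivAt (fun s => (Z s).1) (Z t).2 t) ∧
      ∀ t, HasDerivAt (fun s => (Z s).2) (lam t * (Z t).1 - b t * (Z t).2) t := fun Z hZ =>
    ⟨fun t => by
      have h := hZ t
      rw [sysOp_apply] at h
      exact (ContinuousLinearMap.fst ℝ ℝ ℝ).hasFDerivAt.comp_hasDerivAt t h, fun t => by
      have h := hZ t
      rw [sysOp_apply] at h
      exact (ContinuousLinearMap.snd ℝ ℝ ℝ).hasFDerivAt.comp_hasDerivAt t h⟩
  obtain ⟨hX1, hX2⟩ := comp X hX
  obtain ⟨hY1, hY2⟩ := comp Y hY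
  have hC := pos_of_supersolution (fun t _ => hX1 t) (fun t _ => hX2 t) hpos hb
    (fun t _ => le_of_eq (by ring)) (by simp [hX0]) (by simp [hX0]) e ⟨hae.le, le_rfl⟩
  have hSne : (Y e).1 ≠ 0 := by
    intro h0
    have hz : ∀ t ∈ Icc a e, (Y t).1 = 0 := fun t ht => by
      have := abs_le_left_of_zero_end (fun t _ => hY1 t) (fun t _ => hY2 t) hb hpos h0 t ht
      simpa [hY0] using this
    have hd : HasDerivWithinAt (fun s => (Y s).1) 0 (Ici a) a := by
      refine (hasDerivWithinAt_const a (Ici a) (0:ℝ)).congr_of_eventuallyEq ?_ (hz a ⟨le_rfl, hae.le⟩)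
      filter_upwards [inter_mem_nhdsWithin (Ici a) (eventually_le_nhds hae)] with s hs
      exact hz s ⟨hs.1, hs.2⟩
    have := (uniqueDiffWithinAt_Ici a).eq_deriv _ (hY1 a).hasDerivWithinAt hd
    simp [hY0] at this
  have hS : 0 < (Y e).1 := by
    refine lt_of_le_of_ne ?_ hSne.symm
    refine le_of_forall_pos_le_add fun ε hε => ?_
    have hpos' := pos_of_supersolution
      (z := fun s => (Y s).1 + ε / (X e).1 * (X s).1) (z' := fun s => (Y s).2 + ε / (X e).1 * (X s).2)
      (z'' := fun s => (lam s * (Y s).1 - b s * (Y s).2) +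
        ε / (X e).1 * (lam s * (X s).1 - b s * (X s).2))
      (fun t _ => (hY1 t).add ((hX1 t).const_mul _)) (fun t _ => (hY2 t).add ((hX2 t).const_mul _))
      hpos hb (fun t _ => le_of_eq (by ring))
      (by simp only [hX0, hY0]; have := hC.1; simp; positivity) (by simp [hX0, hY0]) e
      ⟨hae.le, le_rfl⟩
    have h := hpos'.1
    simp only [div_mul_cancel₀ _ hC.1.ne'] at h
    exact h.le
  refine ⟨(X e).1, (Y e).1, hC.1, hS, fun u u' hu hu' => ?_⟩
  have hZ : ∀ t ∈ Icc a e, HasDerivAt (fun s => (u s, u' s))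
      (sysOp (lam t) (b t) (u t, u' t)) t := fun t ht => by
    rw [sysOp_apply]
    exact (hu t ht).prodMk (hu' t ht)
  have hW : ∀ t ∈ Icc a e, HasDerivAt (fun s => u a • X s + u' a • Y s)
      (sysOp (lam t) (b t) (u a • X t + u' a • Y t)) t := fun t _ => by
    rw [map_add, map_smul, map_smul]
    exact ((hX t).const_smul (u a)).add ((hY t).const_smul (u' a))
  have h0 : (fun s => (u s, u' s)) a = (fun s => u a • X s + u' a • Y s) a := by
    simp [hX0, hY0]
  have := congrArg Prod.fst (linearODE_unique hA (a := a) (b := e) ⟨le_rfl, hae.le⟩ hZ hW h0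
    ⟨hae.le, le_rfl⟩)
  simp only [Prod.fst_add, Prod.smul_fst, smul_eq_mul] at this
  rw [this]
  ring

theorem key_identity (C S x p φ δ : ℝ) {sc : ℝ} (hφ : φ ≠ 0) (hsc : sc ≠ 0)
    (hD : C + δ * S ≠ 0) :
    C * x + S * p =
      φ * (C + δ * S) * sc * (sc⁻¹ * (φ⁻¹ * x + S / (C + δ * S) * (φ⁻¹ * (p - δ * x)))) := by
  obtain ⟨D, rfl⟩ : ∃ D, C = D - δ * S := ⟨C + δ * S, by ring⟩
  rw [sub_add_cancel] at hD ⊢
  field_simp
  ring

variable {d P : ℕ} (D : LevelData d P) (e : Env)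

theorem cycle_system_continuous (ν : ℕ) :
    Continuous fun q : (Fin P → ℝ) × ℝ => sysOp (D.lamN e ν q.1 q.2) (e.bF q.2) :=
  sysOp_continuous (lamN_continuous_pair D e ν) (e.bF_continuous.comp continuous_snd)

/-- The solution of one cycle starting from the identity with derivative `D0`. -/
noncomputable def LevelData.cyc (ν : ℕ) (D0 : Op d) (c : Fin P → ℝ) : ℝ → Op d × Op d :=
  (exists_linearODE ((cycle_system_continuous D e ν).comp (continuous_const (y := c) |>.prodMk
    continuous_id)) (parN P e.sd ν).E ((1 : Op d), D0)).choose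

theorem cyc_init (ν : ℕ) (D0 : Op d) (c : Fin P → ℝ) :
    D.cyc e ν D0 c (parN P e.sd ν).E = (1, D0) :=
  (exists_linearODE ((cycle_system_continuous D e ν).comp (continuous_const (y := c) |>.prodMk
    continuous_id)) (parN P e.sd ν).E ((1 : Op d), D0)).choose_spec.1

theorem cyc_deriv (ν : ℕ) (D0 : Op d) (c : Fin P → ℝ) (t : ℝ) :
    HasDerivAt (D.cyc e ν D0 c) (sysOp (D.lamN e ν c t) (e.bF t) (D.cyc e ν D0 c t)) t :=
  (exists_linearODE ((cycle_system_continuous D e ν).comp (continuous_const (y := c) |>.prodMk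
    continuous_id)) (parN P e.sd ν).E ((1 : Op d), D0)).choose_spec.2 t

theorem cyc_continuous_param {ν : ℕ} (D0 : Op d) {t : ℝ}
    (ht : (parN P e.sd ν).E ≤ t) : Continuous fun c => D.cyc e ν D0 c t :=
  continuous_param (cycle_system_continuous D e ν) ht (fun c s _ => cyc_deriv D e ν D0 c s)
    fun c => cyc_init D e ν D0 c

/-- The end of a cycle is a positive diagonal times a map close to the ideal word. -/
theorem cycle_level (Bc η : ℝ) (hη : 0 < η) :
    ∃ η' : ℝ, 0 < η' ∧ ∀ᶠ ν in atTop, ∀ D0 : Op d,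
      ‖D0 - e.dl D.lam (parN P e.sd ν).E • (1 : Op d)‖ ≤ η' →
      ∃ (Z : (Fin P → ℝ) → Op d) (a : (Fin P → ℝ) → Fin d → ℝ), Continuous Z ∧
        (∀ c, ‖c‖ ≤ Bc → ‖Z c - wordExp (D.gen e) c‖ ≤ η) ∧ (∀ c i, 0 < a c i) ∧
        ∀ c v i, (D.cyc e ν D0 c (parN P e.sd ν).E').1 v i = a c i * Z c v i := by
  have hdm := e.dlMin_pos D.lam_pos
  have hlin : Continuous fun c : Fin P → ℝ => e.gain D.lam * (D.lam / 41) * ∑ k, c k :=
    (continuous_finsetSum _ fun k _ => continuous_apply k).const_mul _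
  obtain ⟨Bs, hBs⟩ := (isCompact_closedBall (0 : Fin P → ℝ) Bc).exists_bound_of_continuousOn
    hlin.neg.rexp.continuousOn
  set B := max Bs 1
  have hB : 1 ≤ B := le_max_right _ _
  obtain ⟨η', hη', hev⟩ := transit_level D e Bc (η / (B * (1 + 1 / e.dlMin D.lam))) (by positivity)
  refine ⟨η', hη', ?_⟩
  filter_upwards [hev, eventually_ge_atTop 1] with ν hνt hν D0 hD0
  set p := parN P e.sd ν
  have hp : p.OK := parN_ok e.sd_pos.le hν
  have hR0 : 0 < p.R := CycPar.R_pos hp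
  set s₁ := p.E + 2 * p.R
  have hs₁ : s₁ < p.E' := by simp only [s₁]; linarith [hp.long]
  choose C S hC hS hfund using fun i => fundamental (lamC_continuous D e ν i) e.bF_continuous hs₁
    fun t _ => lamC_nonneg D e hν i t
  set δ := e.dl D.lam s₁
  have hδ : 0 < δ := e.dl_pos D.lam_pos _
  have hden : ∀ i, 0 < C i + δ * S i := fun i => by
    have := mul_pos hδ (hS i)
    linarith [hC i]
  set φ := phiF e D.lam p.E s₁
  have hφ : 0 < φ := phiF_pos e _ _ _
  set G : Op d := diagOp fun i => S i / (C i + δ * S i)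
  have hG : ‖G‖ ≤ 1 / e.dlMin D.lam := by
    refine diagOp_norm_le (by positivity) fun i => ?_
    rw [abs_of_pos (div_pos (hS i) (hden i)), div_le_div_iff₀ (hden i) hdm, one_mul]
    have := mul_le_mul_of_nonneg_right (e.dl_mem D.lam_pos s₁).1 (hS i).le
    linarith [hC i]
  let Xm : (Fin P → ℝ) → Op d := fun c => φ⁻¹ • (D.cyc e ν D0 c s₁).1
  let Pm : (Fin P → ℝ) → Op d := fun c =>
    φ⁻¹ • ((D.cyc e ν D0 c s₁).2 - δ • (D.cyc e ν D0 c s₁).1)
  refine ⟨fun c => (D.scal e c)⁻¹ • (Xm c + G * Pm c),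
    fun c i => φ * (C i + δ * S i) * D.scal e c, ?_, ?_, ?_, ?_⟩
  · have hY := cyc_continuous_param D e D0 (t := s₁) (by simp only [s₁]; linarith)
    have hsc : Continuous fun c => (D.scal e c)⁻¹ :=
      (hlin.rexp).inv₀ fun c => (Real.exp_pos _).ne'
    exact hsc.fun_smul ((hY.fst.const_smul φ⁻¹).add
      (continuous_const.mul ((hY.snd.sub (hY.fst.const_smul δ)).const_smul φ⁻¹)))
  · intro c hc
    obtain ⟨hX, hP⟩ := hνt c hc D0 hD0 (D.cyc e ν D0 c) (fun t _ => cyc_deriv D e ν D0 c t)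
      (cyc_init D e ν D0 c)
    have hscal : 0 < D.scal e c := Real.exp_pos _
    have hsB : (D.scal e c)⁻¹ ≤ B := by
      rw [LevelData.scal, ← Real.exp_neg]
      exact ((le_abs_self _).trans ((Real.norm_eq_abs _).symm.trans_le
        (hBs c (mem_closedBall_zero_iff.mpr hc)))).trans (le_max_left _ _)
    have e1 : (D.scal e c)⁻¹ • (Xm c + G * Pm c) - wordExp (D.gen e) c =
        (D.scal e c)⁻¹ • ((Xm c - D.scal e c • wordExp (D.gen e) c) + G * Pm c) := by
      simp only [smul_add, smul_sub, smul_smul, inv_mul_cancel₀ hscal.ne', one_smul]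
      abel
    show ‖(D.scal e c)⁻¹ • (Xm c + G * Pm c) - _‖ ≤ η
    rw [e1, norm_smul, Real.norm_of_nonneg (inv_pos.mpr hscal).le]
    set q := η / (B * (1 + 1 / e.dlMin D.lam))
    have h2 : ‖(Xm c - D.scal e c • wordExp (D.gen e) c) + G * Pm c‖ ≤
        q + 1 / e.dlMin D.lam * q :=
      (norm_add_le _ _).trans (add_le_add hX ((norm_mul_le _ _).trans
        (mul_le_mul hG hP (norm_nonneg _) (by positivity))))
    calc (D.scal e c)⁻¹ * _ ≤ B * (q + 1 / e.dlMin D.lam * q) :=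
          mul_le_mul hsB h2 (norm_nonneg _) (by linarith)
      _ = η := by simp only [q]; field_simp
  · intro c i
    exact mul_pos (mul_pos hφ (hden i)) (Real.exp_pos _)
  · intro c v i
    have hsol := solOn_apply (fun t (_ : t ∈ Icc s₁ p.E') => cyc_deriv D e ν D0 c t) v
    have h := hfund i (fun t => (D.cyc e ν D0 c t).1 v i) (fun t => (D.cyc e ν D0 c t).2 v i)
      (fun t ht => hasDerivAt_coord (hsol.dU t ht) i)
      (fun t ht => (hasDerivAt_coord (hsol.dP t ht) i).congr_deriv (by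
        simp only [PiLp.sub_apply, PiLp.smul_apply, smul_eq_mul]
        rw [lamN_apply_of_late D e hν (by simp only [s₁] at ht; linarith [ht.1]) c]))
    rw [h]
    have hscal : D.scal e c ≠ 0 := (Real.exp_pos _).ne'
    have := hφ.ne'
    have := (hden i).ne'
    have emul : ∀ (A B : Op d) (x : Lev d), (A * B) x = A (B x) := fun _ _ _ => rfl
    simp only [Xm, Pm, G, smul_apply, add_apply, sub_apply, emul,
      PiLp.smul_apply, PiLp.add_apply, PiLp.sub_apply, diagOp_apply, smul_eq_mul]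
    exact key_identity _ _ _ _ _ δ hφ.ne' hscal (hden i).ne'

end Vale.Agent.P225
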