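import Mathlib

/-! P225: harmonic polynomials, complex structures and the operators `Q_J`. -/

open scoped BigOperators
open MvPolynomial

namespace Vale.Agent.P225

/-- Ambient dimension `2j+2`. -/
abbrev amb (j : ℕ) : ℕ := 2 * (j + 1)

variable {n : ℕ}

/-- Orthogonal complex structures. -/
def IsCS (J : Matrix (Fin n) (Fin n) ℝ) : Prop :=
  J.transpose = -J ∧ J * J = -1

/-- The standard complex structure pairing the coordinates `2a, 2a+1`. -/
def stdJ (j : ℕ) : Matrix (Fin (amb j)) (Fin (amb j)) ℝ := Matrix.of fun i k =>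
  if (i : ℕ) % 2 = 1 ∧ (k : ℕ) + 1 = i then 1
  else if (k : ℕ) % 2 = 1 ∧ (i : ℕ) + 1 = k then -1 else 0

/-- The linear vector field `x ↦ J x` acting on polynomials as a derivation. -/
noncomputable def derJ (J : Matrix (Fin n) (Fin n) ℝ) :
    MvPolynomial (Fin n) ℝ →ₗ[ℝ] MvPolynomial (Fin n) ℝ :=
  ∑ i, ∑ k, J i k • ((LinearMap.mulLeft ℝ (X k)).comp (pderiv i).toLinearMap)

/-- `Q_J = -(J x · ∇)^2`. -/
noncomputable def qOp (J : Matrix (Fin n) (Fin n) ℝ) :
    MvPolynomial (Fin n) ℝ →ₗ[ℝ] MvPolynomial (Fin n) ℝ :=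
  -((derJ J).comp (derJ J))

/-- Euclidean Laplacian on polynomials. -/
noncomputable def polyLap (n : ℕ) : MvPolynomial (Fin n) ℝ →ₗ[ℝ] MvPolynomial (Fin n) ℝ :=
  ∑ i : Fin n, (pderiv i).toLinearMap.comp (pderiv i).toLinearMap

/-- Homogeneous harmonic polynomials of degree `L`. -/
noncomputable def harm (n L : ℕ) : Submodule ℝ (MvPolynomial (Fin n) ℝ) :=
  homogeneousSubmodule (Fin n) ℝ L ⊓ LinearMap.ker (polyLap n)

/-- The Fischer inner product. -/
noncomputable def fischer (P R : MvPolynomial (Fin n) ℝ) : ℝ :=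
  ∑ e ∈ P.support, ((∏ i, (e i).factorial : ℕ) : ℝ) * coeff e P * coeff e R

theorem derJ_apply (J : Matrix (Fin n) (Fin n) ℝ) (f : MvPolynomial (Fin n) ℝ) :
    derJ J f = ∑ i, ∑ k, J i k • (X k * pderiv i f) := by
  simp [derJ, LinearMap.sum_apply]

theorem pderiv_comm' (a b : Fin n) (f : MvPolynomial (Fin n) ℝ) :
    pderiv a (pderiv b f) = pderiv b (pderiv a f) := by
  induction f using MvPolynomial.induction_on' with
  | monomial e c =>
    simp only [pderiv_monomial, Finsupp.tsub_apply]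
    rcases eq_or_ne a b with rfl | h
    · rfl
    · simp [h, Ne.symm h, tsub_right_comm]; ring_nf
  | add p q hp hq => simp [hp, hq]

theorem polyLap_derJ {J : Matrix (Fin n) (Fin n) ℝ} (hJ : J.transpose = -J)
    (f : MvPolynomial (Fin n) ℝ) : polyLap n (derJ J f) = derJ J (polyLap n f) := by
  have hterm : ∀ i k, polyLap n (X k * pderiv i f) =
      X k * pderiv i (polyLap n f) + (2 : ℝ) • pderiv k (pderiv i f) := by
    intro i k
    simp only [polyLap, LinearMap.sum_apply, LinearMap.comp_apply, Derivation.coeFn_coe, map_sum,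
      Finset.mul_sum]
    have : ∀ a : Fin n, pderiv a (pderiv a (X k * pderiv i f)) =
        X k * pderiv i (pderiv a (pderiv a f)) +
          (if a = k then (2 : ℝ) • pderiv k (pderiv i f) else 0) := by
      intro a
      rw [Derivation.leibniz, pderiv_X, smul_eq_mul, smul_eq_mul, pderiv_comm' i a (pderiv a f),
        pderiv_comm' i a f]
      rcases eq_or_ne a k with rfl | h
      · simp [Derivation.leibniz, two_smul]; ring
      · simp [Derivation.leibniz, h, Ne.symm h]
    simp only [this, Finset.sum_add_distrib, Finset.sum_ite_eq', Finset.mem_univ, if_true]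
  have hskew : ∑ i, ∑ k, J i k • pderiv k (pderiv i f) = 0 := by
    have hanti : ∀ i k, J k i = -J i k := fun i k => by
      have := congrFun (congrFun hJ i) k
      simpa using this
    have h : ∑ i, ∑ k, J i k • pderiv k (pderiv i f) =
        -∑ i, ∑ k, J i k • pderiv k (pderiv i f) := by
      conv_lhs => rw [Finset.sum_comm]
      simp only [← Finset.sum_neg_distrib]
      refine Finset.sum_congr rfl fun a _ => Finset.sum_congr rfl fun b _ => ?_
      rw [hanti a b, pderiv_comm' a b, neg_smul]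
    have h2 : (2 : ℝ) • ∑ i, ∑ k, J i k • pderiv k (pderiv i f) = 0 := by
      rw [two_smul]; nth_rw 1 [h]; simp
    exact (smul_eq_zero.mp h2).resolve_left two_ne_zero
  rw [derJ_apply, derJ_apply, map_sum]
  simp only [map_sum, map_smul, hterm, smul_add, smul_comm (J _ _) (2:ℝ), Finset.sum_add_distrib,
    ← Finset.smul_sum, hskew, smul_zero, add_zero]

theorem derJ_homogeneous (J : Matrix (Fin n) (Fin n) ℝ) {L : ℕ} {f : MvPolynomial (Fin n) ℝ}
    (hf : f.IsHomogeneous L) : (derJ J f).IsHomogeneous L := by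
  rw [derJ_apply]
  refine IsHomogeneous.sum _ _ _ fun i _ => IsHomogeneous.sum _ _ _ fun k _ => ?_
  refine (homogeneousSubmodule (Fin n) ℝ L).smul_mem _ ?_
  rcases L with _ | L
  · have h0 : pderiv i f = 0 := by
      obtain ⟨c, hc⟩ : ∃ c, f = C c :=
        ⟨coeff 0 f, totalDegree_eq_zero_iff_eq_C.mp (Nat.le_zero.mp hf.totalDegree_le)⟩
      rw [hc, pderiv_C]
    rw [h0, mul_zero]
    exact zero_mem _
  · rw [mem_homogeneousSubmodule, add_comm L 1]
    exact (isHomogeneous_X ℝ k).mul (by simpa using hf.pderiv (i := i))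

theorem qOp_mem_harm {J : Matrix (Fin n) (Fin n) ℝ} (hJ : J.transpose = -J) {L : ℕ}
    {f : MvPolynomial (Fin n) ℝ} (hf : f ∈ harm n L) : qOp J f ∈ harm n L := by
  obtain ⟨h1, h2⟩ := hf
  rw [SetLike.mem_coe, LinearMap.mem_ker] at h2
  refine Submodule.mem_inf.mpr ⟨?_, LinearMap.mem_ker.mpr ?_⟩
  · exact Submodule.neg_mem _ (derJ_homogeneous J (derJ_homogeneous J h1))
  · simp [qOp, polyLap_derJ hJ, h2]

/-- `Q_J` on harmonic polynomials of degree `L`. -/
noncomputable def qRes (J : {J : Matrix (Fin n) (Fin n) ℝ // IsCS J}) (L : ℕ) :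
    Module.End ℝ (harm n L) :=
  (qOp J.1).restrict fun _ hf => qOp_mem_harm J.2.1 hf

end Vale.Agent.P225
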