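import Vale.Agent.P225.Geom
import Vale.Agent.P225.Harm

/-!
P225 module interfaces.  Each `...Stmt` is to be proved as a theorem in its own file
(no definition below occurs in the final statement, only in intermediate lemmas).
-/

open scoped BigOperators ContDiff
open Filter Topology

namespace Vale.Agent.P225

/-- Euclidean radius. -/
noncomputable def rad {n : ℕ} (x : Pt n) : ℝ := Real.sqrt (∑ i, x i ^ 2)

/-- The model metric `dr^2 + r^2 (a(log r) g_hor + v(log r) g_ver)` of the Berger fibration of `J`,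
as a matrix, away from the origin. -/
noncomputable def bergerMat {n : ℕ} (J : Matrix (Fin n) (Fin n) ℝ) (a v : ℝ → ℝ) (x : Pt n) :
    Matrix (Fin n) (Fin n) ℝ := Matrix.of fun i k =>
  x i * x k / rad x ^ 2 +
    a (Real.log (rad x)) *
      ((1 : Matrix (Fin n) (Fin n) ℝ) i k - x i * x k / rad x ^ 2 -
        J.mulVec x i * J.mulVec x k / rad x ^ 2) +
    v (Real.log (rad x)) * (J.mulVec x i * J.mulVec x k / rad x ^ 2)

/-- MODULE A: Ricci curvature and Laplacian of the model metric near a point `x ≠ 0`.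
With `t = log r`, `α = a'/(2a)`, `ν = v'/(2v)`, `tr = 2jα + ν`:
radial `rr = -tr - tr' - (2jα²+ν²)`, horizontal and vertical as below. -/
def BergerCalcStmt : Prop :=
  ∀ (j : ℕ) (J : Matrix (Fin (amb j)) (Fin (amb j)) ℝ), IsCS J →
  ∀ (a v : ℝ → ℝ), ContDiff ℝ ∞ a → ContDiff ℝ ∞ v → (∀ t, 0 < a t) → (∀ t, 0 < v t) →
  ∀ (g : Pt (amb j) → Matrix (Fin (amb j)) (Fin (amb j)) ℝ) (x : Pt (amb j)), x ≠ 0 →
  (∀ᶠ y in 𝓝 x, g y = bergerMat J a v y) →
    let t := Real.log (rad x)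
    let N : ℝ := 2 * j + 1
    let al : ℝ → ℝ := fun s => deriv a s / (2 * a s)
    let nu : ℝ → ℝ := fun s => deriv v s / (2 * v s)
    let tr : ℝ → ℝ := fun s => 2 * j * al s + nu s
    let cR : ℝ := -tr t - deriv tr t - (2 * j * al t ^ 2 + nu t ^ 2)
    let cH : ℝ := a t * ((2 * j + 2 - 2 * v t / a t) / a t + 1 + al t - deriv al t -
      (N + tr t) * (1 + al t))
    let cV : ℝ := v t * (2 * j * v t / a t ^ 2 + 1 + nu t - deriv nu t - (N + tr t) * (1 + nu t))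
    (∀ w : Pt (amb j), ∑ i, ∑ k, ricci g i k x * w i * w k =
      (cR * (∑ i, x i * w i) ^ 2 / rad x ^ 2 +
        cH * ((∑ i, w i ^ 2) - (∑ i, x i * w i) ^ 2 / rad x ^ 2 -
          (∑ i, J.mulVec x i * w i) ^ 2 / rad x ^ 2) +
        cV * ((∑ i, J.mulVec x i * w i) ^ 2 / rad x ^ 2)) / rad x ^ 2) ∧
    (∀ (φ : ℝ → ℝ), ContDiff ℝ ∞ φ → ∀ (L : ℕ), ∀ P ∈ harm (amb j) L,
      laplacian g (fun y => φ (Real.log (rad y)) / rad y ^ L * MvPolynomial.eval y P) x =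
        ((deriv (deriv φ) t + (N - 1 + tr t) * deriv φ t -
            (L * (L + 2 * j) : ℝ) / a t * φ t) * MvPolynomial.eval x P -
          (1 / v t - 1 / a t) * φ t * MvPolynomial.eval x (qOp J P)) / rad x ^ (L + 2))

/-- Lower bound for the dimension of the `(p, L-p)` eigenspace (real form). -/
def cntLB (j L p : ℕ) : ℕ :=
  let lb := j * L * (p * (L - p)) ^ (j - 1) / (j.factorial) ^ 2
  if 2 * p < L then 2 * lb else if 2 * p = L then lb else 0

/-- MODULE C1: Fischer-orthonormal eigenbasis of `Q_{J0}` on harmonic polynomials. -/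
def EigenbasisStmt : Prop :=
  ∀ j L : ℕ, 1 ≤ j →
    (∀ J : Matrix (Fin (amb j)) (Fin (amb j)) ℝ, IsCS J →
      ∀ P ∈ harm (amb j) L, ∀ R ∈ harm (amb j) L,
        fischer (qOp J P) R = fischer P (qOp J R) ∧ 0 ≤ fischer (qOp J P) P) ∧
    ∃ (d : ℕ) (b : Fin d → MvPolynomial (Fin (amb j)) ℝ) (m : Fin d → ℕ),
      (∀ i, b i ∈ harm (amb j) L) ∧
      (∀ i k, fischer (b i) (b k) = if i = k then 1 else 0) ∧
      Submodule.span ℝ (Set.range b) = harm (amb j) L ∧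
      (∀ i, qOp (stdJ j) (b i) = ((m i : ℝ) ^ 2) • b i) ∧
      (∀ i, m i ≤ L) ∧
      ∀ p, 2 * p ≤ L → cntLB j L p ≤ (Finset.univ.filter fun i => m i = L - 2 * p).card

/-- MODULE C2: the weighted operators `(c_L Q_J)_L` generate everything of trace zero, on all
levels at once. -/
def LieFullStmt : Prop :=
  ∀ (j Lmax : ℕ), 3 ≤ j → ∀ (c : Fin Lmax → ℝ), (∀ L, c L ≠ 0) →
  ∀ (H : Submodule ℝ ((L : Fin Lmax) → Module.End ℝ (harm (amb j) ((L : ℕ) + 2)))),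
    (∀ J : {J : Matrix (Fin (amb j)) (Fin (amb j)) ℝ // IsCS J},
      (fun L : Fin Lmax => c L • qRes J ((L : ℕ) + 2)) ∈ H) →
    (∀ J : {J : Matrix (Fin (amb j)) (Fin (amb j)) ℝ // IsCS J}, ∀ X ∈ H,
      (fun L : Fin Lmax => c L • (qRes J ((L : ℕ) + 2) * X L - X L * qRes J ((L : ℕ) + 2))) ∈ H) →
    ∀ X : (L : Fin Lmax) → Module.End ℝ (harm (amb j) ((L : ℕ) + 2)),
      (∀ L : Fin Lmax, LinearMap.trace ℝ (harm (amb j) ((L : ℕ) + 2)) (X L) = 0) → X ∈ H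

/-- Growth exponent of the `(p, L-p)` branch for the dwell metric, `j = 20`. -/
noncomputable def branchExp (τ κ : ℝ) (L p : ℕ) : ℝ :=
  Real.sqrt (κ * ((L : ℝ) * (L + 40) - τ / (1 + τ) * ((L : ℝ) - 2 * p) ^ 2) + 400) - 20

/-- MODULE E: band averages beat the Euclidean count (`j = 20`, `n = 42`). -/
def CountGainStmt : Prop :=
  ∃ τ κ : ℝ, 0 < τ ∧ τ < 1 ∧ 1 < κ * (1 - τ / 20) ∧
    ∃ (k Lmax : ℕ) (b : ℕ → ℕ → ℕ), 1 ≤ k ∧
      (∀ L p, b L p ≠ 0 → 2 ≤ L ∧ L ≤ Lmax ∧ 2 * p ≤ L) ∧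
      (∀ L p, b L p ≤ cntLB 20 L p) ∧
      (∀ L, 2 ≤ L → L ≤ Lmax → 0 < ∑ p ∈ Finset.range (L + 1), b L p →
        ∑ p ∈ Finset.range (L + 1), (b L p : ℝ) * branchExp τ κ L p <
          (k : ℝ) * ∑ p ∈ Finset.range (L + 1), (b L p : ℝ)) ∧
      Nat.choose (42 + k - 1) k + Nat.choose (42 + k - 2) (k - 1) <
        ∑ L ∈ Finset.range (Lmax + 1), ∑ p ∈ Finset.range (L + 1), b L p

end Vale.Agent.P225
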