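import Vale.Agent.P225.Eigen.Fischer
import Vale.Agent.P225.Eigen.Count

/-! P225 MODULE C1: Fischer-orthonormal eigenbasis of `Q_{J₀}` on harmonic polynomials. -/

open scoped BigOperators Matrix
open MvPolynomial

namespace Vale.Agent.P225

namespace Eigen

open LieFull

variable {j : ℕ}

theorem stdJ_skew (j : ℕ) : (stdJ j).transpose = -stdJ j := by
  ext i k
  simp only [Matrix.transpose_apply, Matrix.neg_apply, stdJ, Matrix.of_apply]
  split_ifs <;> first | omega | norm_num

theorem Qc_fwd (g : ZP j) :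
    Qc (stdJ j) (fwd j g) = fwd j (-(diagD j (diagD j g))) := by
  show -(der (cMat (stdJ j)) (der (cMat (stdJ j)) (fwd j g))) = _
  rw [der_fwd, der_fwd, map_neg]

theorem coeff_Q_diag (e : Zv j →₀ ℕ) (g : ZP j) : coeff e (-(diagD j (diagD j g))) =
    coeff e g * ((bideg j false e : ℂ) - bideg j true e) ^ 2 := by
  rw [coeff_neg, coeff_diagD, coeff_diagD,
    show coeff e g * (Complex.I * ((bideg j false e : ℂ) - bideg j true e)) *
      (Complex.I * ((bideg j false e : ℂ) - bideg j true e)) =
      (Complex.I * Complex.I) * (coeff e g * ((bideg j false e : ℂ) - bideg j true e) ^ 2) by ring,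
    Complex.I_mul_I]
  ring

theorem isHomogeneous_bwd {L : ℕ} {f : CP (amb j)} (hf : f.IsHomogeneous L) :
    (bwd j f).IsHomogeneous L := by
  have h := hf.aeval (n := 1) (fun i => bwd j (X i)) fun i => by
    rcases ev_or_od j i with ⟨a, rfl⟩ | ⟨a, rfl⟩
    · rw [bwd_ev]; exact ((isHomogeneous_X ℂ _).add (isHomogeneous_X ℂ _)).C_mul _
    · rw [bwd_od]; exact ((isHomogeneous_X ℂ _).sub (isHomogeneous_X ℂ _)).C_mul _
  rw [one_mul] at h
  have e : aeval (fun i => bwd j (X i)) f = bwd j f :=
    (DFunLike.congr_fun (MvPolynomial.aeval_unique (bwd j)) f).symm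
  rwa [e] at h

theorem isHomogeneous_fwd {L : ℕ} {g : ZP j} (hg : g.IsHomogeneous L) :
    (fwd j g).IsHomogeneous L := by
  have h := hg.aeval (n := 1) (fun v => fwd j (X v)) fun v => by
    rw [fwd_X]; exact (isHomogeneous_X ℂ _).add ((isHomogeneous_X ℂ _).C_mul _)
  rw [one_mul] at h
  have e : aeval (fun v => fwd j (X v)) g = fwd j g :=
    (DFunLike.congr_fun (MvPolynomial.aeval_unique (fwd j)) g).symm
  rwa [e] at h

/-- Bidegree pieces land in the eigenspaces. -/
theorem fwd_K {p q : ℕ} {g : ZP j} (hg : g ∈ K j p q) :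
    fwd j g ∈ V (amb j) (p + q) ∧ Qc (stdJ j) (fwd j g) = (((p:ℂ) - q) ^ 2) • fwd j g := by
  obtain ⟨hW, hker⟩ := hg
  refine ⟨mem_V.mpr ⟨isHomogeneous_fwd fun e he => ?_, ?_⟩, ?_⟩
  · obtain ⟨h1, h2⟩ := (mem_W j).mp hW e he
    rw [Pi.one_def, ← Finsupp.degree_eq_weight_one, degree_eq, h1, h2]
  · rw [lapC_fwd, LinearMap.mem_ker.mp hker, map_zero, smul_zero]
  · rw [Qc_fwd, ← map_smul]
    congr 1
    ext e
    rw [coeff_Q_diag, coeff_smul, smul_eq_mul]
    by_cases he : coeff e g = 0
    · simp [he]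
    · obtain ⟨h1, h2⟩ := (mem_W j).mp hW e he
      rw [h1, h2, mul_comm]

/-- Eigenvalues on degree `L` are squares of integers at most `L`. -/
theorem eigenvalue_sq {L : ℕ} {b : MvPolynomial (Fin (amb j)) ℝ} (hb : b ∈ harm (amb j) L)
    (hne : b ≠ 0) {lam : ℝ} (h : qOp (stdJ j) b = lam • b) :
    ∃ m : ℕ, m ≤ L ∧ lam = (m : ℝ) ^ 2 := by
  set g := bwd j (iota b) with hg
  have hgne : g ≠ 0 := by
    intro h0
    apply hne
    have : iota b = 0 := by rw [← fwd_bwd j (iota b), ← hg, h0, map_zero]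
    exact map_injective (algebraMap ℝ ℂ) Complex.ofReal_injective (by rw [map_zero]; exact this)
  obtain ⟨e, he⟩ := exists_coeff_ne_zero hgne
  have hdeg : e.degree = L := by
    have := isHomogeneous_bwd (IsHomogeneous.map hb.1 (algebraMap ℝ ℂ)) he
    rwa [Pi.one_def, ← Finsupp.degree_eq_weight_one] at this
  have hQ : -(diagD j (diagD j g)) = (lam : ℂ) • g := by
    have h1 : Qc (stdJ j) (iota b) = (lam : ℂ) • iota b := by
      rw [Qc_iota, h, iota_smul]
    rw [← fwd_bwd j (iota b), ← hg, Qc_fwd, ← map_smul] at h1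
    have h2 := congrArg (bwd j) h1
    rwa [bwd_fwd, bwd_fwd] at h2
  have h3 := congrArg (coeff e) hQ
  rw [coeff_Q_diag, coeff_smul, smul_eq_mul, mul_comm (lam : ℂ)] at h3
  have h4 := mul_left_cancel₀ he h3
  rw [degree_eq] at hdeg
  refine ⟨Int.natAbs ((bideg j false e : ℤ) - bideg j true e), by omega, ?_⟩
  have h5 : ((((bideg j false e : ℝ) - bideg j true e) ^ 2 : ℝ) : ℂ) = (lam : ℂ) := by
    push_cast; exact h4
  rw [← Complex.ofReal_injective h5, Nat.cast_natAbs, Int.cast_abs, sq_abs]
  push_cast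
  rfl

end Eigen

open Eigen LieFull in
theorem eigenbasis : EigenbasisStmt := by
  intro j L hj
  refine ⟨fun J hJ P _ R _ => ⟨(fischer_qOp hJ.1 P R).1, (fischer_qOp hJ.1 P R).2⟩, ?_⟩
  classical
  let cd : InnerProductSpace.Core ℝ (harm (amb j) L) :=
    { inner := fun P R => fischer P.1 R.1
      conj_inner_symm := fun P R => by simpa using fischer_symm R.1 P.1
      re_inner_nonneg := fun P => by simpa using fischer_self_nonneg P.1
      add_left := fun P P' R => fischer_add_left _ _ _
      smul_left := fun P R c => by simpa using fischer_smul_left c P.1 R.1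
      definite := fun P h => Subtype.ext (fischer_definite P.1 h) }
  let _ : NormedAddCommGroup (harm (amb j) L) :=
    InnerProductSpace.Core.toNormedAddCommGroup (cd := cd)
  let _ : InnerProductSpace ℝ (harm (amb j) L) := InnerProductSpace.ofCore cd.toCore
  let T : Module.End ℝ (harm (amb j) L) :=
    (qOp (stdJ j)).restrict fun _ hf => qOp_mem_harm (stdJ_skew j) hf
  have hT : T.IsSymmetric := fun P R => (fischer_qOp (stdJ_skew j) P.1 R.1).1
  set d := Module.finrank ℝ (harm (amb j) L) with hd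
  let B := hT.eigenvectorBasis hd.symm
  have hB : ∀ i, qOp (stdJ j) (B i).1 = hT.eigenvalues hd.symm i • (B i).1 := fun i => by
    have := congrArg Subtype.val (hT.apply_eigenvectorBasis hd.symm i)
    exact this
  have hne : ∀ i, (B i).1 ≠ 0 := fun i h0 => B.orthonormal.ne_zero i (Subtype.ext h0)
  choose m hmL hm using fun i => eigenvalue_sq (B i).2 (hne i) (hB i)
  refine ⟨d, fun i => (B i).1, m, fun i => (B i).2, fun i k => ?_, ?_, fun i => ?_, hmL, ?_⟩
  · exact orthonormal_iff_ite.mp B.orthonormal i k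
  · have h1 := B.toBasis.span_eq
    have h2 := congrArg (Submodule.map (harm (amb j) L).subtype) h1
    rw [Submodule.map_span, ← Set.range_comp, Submodule.map_top, Submodule.range_subtype] at h2
    simpa [Function.comp_def] using h2
  · rw [hB i, hm i]
  intro p hp
  set q := L - p with hq
  set M := L - 2 * p with hM
  set S := Finset.univ.filter fun i => m i = M with hS
  set U : Submodule ℂ (CP (amb j)) :=
    Submodule.span ℂ ((S.image fun i => iota (B i).1 : Finset (CP (amb j))) : Set (CP (amb j)))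
      with hU
  have hUcard : Module.finrank ℂ U ≤ S.card :=
    le_trans (finrank_span_finset_le_card _) Finset.card_image_le
  have hreal : ∀ g ∈ harm (amb j) L, qOp (stdJ j) g = ((M:ℝ) ^ 2) • g → iota g ∈ U := by
    intro g hg hQ
    have hexp := B.sum_repr ⟨g, hg⟩
    have hzero : ∀ i, m i ≠ M → B.repr ⟨g, hg⟩ i = 0 := by
      intro i hi
      rw [OrthonormalBasis.repr_apply_apply]
      have e1 := hT (B i) ⟨g, hg⟩
      have hTg : T ⟨g, hg⟩ = ((M:ℝ) ^ 2) • ⟨g, hg⟩ := Subtype.ext hQ
      rw [hT.apply_eigenvectorBasis hd.symm i, hTg, real_inner_smul_left, real_inner_smul_right,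
        hm i] at e1
      simp only [RCLike.ofReal_real_eq_id, id_eq] at e1
      by_contra hne'
      have h6 := mul_right_cancel₀ hne' e1
      exact hi (Nat.pow_left_injective two_ne_zero (by exact_mod_cast h6))
    have hexp' := congrArg Subtype.val hexp
    rw [Submodule.coe_sum] at hexp'
    rw [show iota g = iota _ from congrArg _ hexp'.symm, map_sum]
    refine Submodule.sum_mem _ fun i _ => ?_
    by_cases hi : m i = M
    · rw [Submodule.coe_smul, iota_smul]
      exact Submodule.smul_mem _ _ (Submodule.subset_span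
        (Finset.mem_image_of_mem (fun i => iota (B i).1) (Finset.mem_filter.mpr ⟨Finset.mem_univ _, hi⟩)))
    · simp [hzero i hi]
  have hKU : ∀ p' q', p' + q' = L → ((p':ℂ) - q') ^ 2 = (M:ℂ) ^ 2 →
      ∀ g ∈ K j p' q', fwd j g ∈ U := by
    intro p' q' hpq hsq g hg
    obtain ⟨hV, hQ⟩ := fwd_K hg
    rw [hpq] at hV
    obtain ⟨a, b, ha, hb, hab⟩ := V_re_im hV
    rw [hab, hsq, map_add, map_smul, Qc_iota, Qc_iota, smul_add, smul_comm ((M:ℂ) ^ 2) Complex.I,
      show ((M:ℂ) ^ 2) = (((M:ℝ) ^ 2 : ℝ) : ℂ) by push_cast; rfl, ← iota_smul, ← iota_smul] at hQ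
    have hQ' : iota (qOp (stdJ j) a - ((M:ℝ) ^ 2) • a) +
        Complex.I • iota (qOp (stdJ j) b - ((M:ℝ) ^ 2) • b) = 0 := by
      rw [map_sub, map_sub, smul_sub]
      linear_combination hQ
    obtain ⟨ha', hb'⟩ := re_im_unique hQ'
    rw [hab]
    exact Submodule.add_mem _ (hreal a ha (sub_eq_zero.mp ha'))
      (Submodule.smul_mem _ _ (hreal b hb (sub_eq_zero.mp hb')))
  have hMc : (M : ℂ) = (q : ℂ) - p := by
    rw [hM, hq, Nat.cast_sub hp, Nat.cast_sub (by omega : p ≤ L)]
    push_cast
    ring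
  have hfinj : Function.Injective (fwd j).toLinearMap :=
    Function.LeftInverse.injective (g := bwd j) (bwd_fwd j)
  have hUfin : Module.Finite ℂ U := Module.Finite.span_of_finite ℂ (Finset.finite_toSet _)
  have hsub : ∀ X : Submodule ℂ (ZP j), X.map (fwd j).toLinearMap ≤ U →
      Module.finrank ℂ X ≤ S.card := fun X hX => by
    rw [LinearEquiv.finrank_eq (Submodule.equivMapOfInjective _ hfinj X)]
    exact le_trans (Submodule.finrank_mono hX) hUcard
  have h1 : (K j p q).map (fwd j).toLinearMap ≤ U := Submodule.map_le_iff_le_comap.mpr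
    fun g hg => hKU p q (by omega) (by rw [hMc]; ring) g hg
  have h2 : (K j q p).map (fwd j).toLinearMap ≤ U := Submodule.map_le_iff_le_comap.mpr
    fun g hg => hKU q p (by omega) (by rw [hMc]) g hg
  have hb1 := count_bound j hj p q
  have hk1 := finrank_K j p q
  have hk2 := finrank_K j q p
  rw [Nat.mul_comm ((q + j).choose j), Nat.mul_comm ((q + j - 1).choose j)] at hk2
  unfold cntLB
  rw [show p + q = L by omega] at hb1
  simp only [← hq]
  split_ifs with hlt heq
  · have hdis : K j p q ⊓ K j q p = ⊥ := by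
      rw [eq_bot_iff]
      intro g hg
      rw [Submodule.mem_bot]
      ext e
      rw [coeff_zero]
      by_contra he
      have a1 := (mem_W j).mp hg.1.1 e he
      have a2 := (mem_W j).mp hg.2.1 e he
      omega
    have hsum := Submodule.finrank_sup_add_finrank_inf_eq (K j p q) (K j q p)
    rw [hdis, finrank_bot, add_zero] at hsum
    have := hsub (K j p q ⊔ K j q p) (by rw [Submodule.map_sup]; exact sup_le h1 h2)
    omega
  · have := hsub (K j p q) h1
    omega
  · exact Nat.zero_le _

end Vale.Agent.P225
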