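import Vale.Agent.P225.Ode

/-! P225: energy estimates for second order linear systems. -/

open MeasureTheory Set Filter Topology
open scoped RealInnerProductSpace

namespace Vale.Agent.P225

variable {V : Type*} [NormedAddCommGroup V] [InnerProductSpace ℝ V]

/-- `U' = P`, `P' = Lam U - b P` on an interval. -/
structure SolOn (Lam : ℝ → V →L[ℝ] V) (b : ℝ → ℝ) (U P : ℝ → V) (a e : ℝ) : Prop where
  dU : ∀ t ∈ Icc a e, HasDerivAt U (P t) t
  dP : ∀ t ∈ Icc a e, HasDerivAt P (Lam t (U t) - b t • P t) t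

theorem SolOn.mono {Lam : ℝ → V →L[ℝ] V} {b : ℝ → ℝ} {U P : ℝ → V} {a e a' e' : ℝ}
    (h : SolOn Lam b U P a e) (ha : a ≤ a') (he : e' ≤ e) : SolOn Lam b U P a' e' :=
  ⟨fun t ht => h.dU t ⟨ha.trans ht.1, ht.2.trans he⟩, fun t ht => h.dP t ⟨ha.trans ht.1, ht.2.trans he⟩⟩

variable {Lam : ℝ → V →L[ℝ] V} {b : ℝ → ℝ} {U P : ℝ → V} {a e : ℝ}

theorem SolOn.inner_nonneg (h : SolOn Lam b U P a e) (hb : Continuous b)
    (hpos : ∀ t ∈ Icc a e, ∀ x, 0 ≤ ⟪x, Lam t x⟫) (h0 : 0 ≤ ⟪U a, P a⟫) :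
    ∀ t ∈ Icc a e, 0 ≤ ⟪U t, P t⟫ := by
  set B : ℝ → ℝ := fun t => ∫ s in a..t, b s
  have hd : ∀ t ∈ Icc a e, HasDerivAt (fun s => Real.exp (B s) * ⟪U s, P s⟫)
      (Real.exp (B t) * (⟪P t, P t⟫ + ⟪U t, Lam t (U t)⟫)) t := fun t ht => by
    have hB : HasDerivAt B (b t) t := (hb.integral_hasStrictDerivAt a t).hasDerivAt
    refine (hB.exp.mul ((h.dU t ht).inner ℝ (h.dP t ht))).congr_deriv ?_
    rw [inner_sub_right, real_inner_smul_right]
    ring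
  have hm : MonotoneOn (fun s => Real.exp (B s) * ⟪U s, P s⟫) (Icc a e) :=
    monotoneOn_of_hasDerivWithinAt_nonneg (convex_Icc a e)
      (fun s hs => (hd s hs).continuousAt.continuousWithinAt)
      (fun s hs => (hd s (interior_subset hs)).hasDerivWithinAt) fun s hs =>
        mul_nonneg (Real.exp_pos _).le
          (add_nonneg real_inner_self_nonneg (hpos s (interior_subset hs) _))
  intro t ht
  have := hm ⟨le_rfl, ht.1.trans ht.2⟩ ht ht.1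
  exact nonneg_of_mul_nonneg_right ((mul_nonneg (Real.exp_pos _).le h0).trans this) (Real.exp_pos _)

theorem SolOn.norm_mono (h : SolOn Lam b U P a e) (hb : Continuous b)
    (hpos : ∀ t ∈ Icc a e, ∀ x, 0 ≤ ⟪x, Lam t x⟫) (h0 : 0 ≤ ⟪U a, P a⟫) :
    ∀ t ∈ Icc a e, ‖U a‖ ≤ ‖U t‖ := by
  intro t ht
  have hm : MonotoneOn (fun s => ‖U s‖ ^ 2) (Icc a e) :=
    monotoneOn_of_hasDerivWithinAt_nonneg (convex_Icc a e)
      (fun s hs => (h.dU s hs).continuousAt.norm.pow 2 |>.continuousWithinAt)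
      (fun s hs => ((h.dU s (interior_subset hs)).norm_sq).hasDerivWithinAt) fun s hs =>
        mul_nonneg zero_le_two (h.inner_nonneg hb hpos h0 s (interior_subset hs))
  exact le_of_pow_le_pow_left₀ two_ne_zero (norm_nonneg _) (hm ⟨le_rfl, ht.1.trans ht.2⟩ ht ht.1)

theorem SolOn.norm_deriv_le (h : SolOn Lam b U P a e) (hb : Continuous b)
    (hpos : ∀ t ∈ Icc a e, ∀ x, 0 ≤ ⟪x, Lam t x⟫) (h0 : 0 ≤ ⟪U a, P a⟫) {b₀ Lb C : ℝ}
    (hb₀ : 0 < b₀) (hbb : ∀ t ∈ Icc a e, b₀ ≤ b t) (hLb : ∀ t ∈ Icc a e, ‖Lam t‖ ≤ Lb)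
    (hC : Lb / b₀ ≤ C) (hC0 : ‖P a‖ ≤ C * ‖U a‖) :
    ∀ t ∈ Icc a e, ‖P t‖ ≤ C * ‖U t‖ := by
  intro t ht
  have hLb0 : 0 ≤ Lb := (norm_nonneg _).trans (hLb t ht)
  have hCn : 0 ≤ C := le_trans (by positivity) hC
  have key : ∀ s ∈ Icc a e,
      2 * ⟪P s, Lam s (U s) - b s • P s⟫ - C ^ 2 * (2 * ⟪U s, P s⟫) ≤
        -b₀ * (‖P s‖ ^ 2 - C ^ 2 * ‖U s‖ ^ 2) := by
    intro s hs
    have h1 : ⟪P s, Lam s (U s)⟫ ≤ Lb * (‖P s‖ * ‖U s‖) := by
      refine (real_inner_le_norm _ _).trans ?_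
      calc ‖P s‖ * ‖Lam s (U s)‖ ≤ ‖P s‖ * (Lb * ‖U s‖) :=
            mul_le_mul_of_nonneg_left (((Lam s).le_opNorm _).trans
              (mul_le_mul_of_nonneg_right (hLb s hs) (norm_nonneg _))) (norm_nonneg _)
        _ = _ := by ring
    have h2 := mul_nonneg (mul_self_nonneg C) (h.inner_nonneg hb hpos h0 s hs)
    have hC' : Lb ≤ C * b₀ := (div_le_iff₀ hb₀).mp hC
    rw [inner_sub_right, real_inner_smul_right, real_inner_self_eq_norm_sq]
    have h3 := mul_le_mul_of_nonneg_right (hbb s hs) (sq_nonneg ‖P s‖)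
    have h4 := mul_le_mul_of_nonneg_right hC' (mul_nonneg (norm_nonneg (P s)) (norm_nonneg (U s)))
    nlinarith [mul_nonneg hb₀.le (sq_nonneg (‖P s‖ - C * ‖U s‖))]
  have hd : ∀ s ∈ Icc a e, HasDerivAt (fun u => ‖P u‖ ^ 2 - C ^ 2 * ‖U u‖ ^ 2)
      (2 * ⟪P s, Lam s (U s) - b s • P s⟫ - C ^ 2 * (2 * ⟪U s, P s⟫)) s := fun s hs =>
    (h.dP s hs).norm_sq.sub ((h.dU s hs).norm_sq.const_mul _)
  have := le_exp_mul_of_deriv_le hd key t ht
  have h0' : ‖P a‖ ^ 2 - C ^ 2 * ‖U a‖ ^ 2 ≤ 0 := by nlinarith [norm_nonneg (P a)]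
  have hle : ‖P t‖ ^ 2 - C ^ 2 * ‖U t‖ ^ 2 ≤ 0 :=
    this.trans (mul_nonpos_of_nonpos_of_nonneg h0' (Real.exp_pos _).le)
  refine le_of_pow_le_pow_left₀ two_ne_zero (by positivity) ?_
  rw [mul_pow]; linarith

theorem SolOn.norm_le_exp (h : SolOn Lam b U P a e) {C : ℝ}
    (hP : ∀ t ∈ Icc a e, ‖P t‖ ≤ C * ‖U t‖) :
    ∀ t ∈ Icc a e, ‖U t‖ ≤ ‖U a‖ * Real.exp (C * (t - a)) := by
  intro t ht
  have key : ∀ s ∈ Icc a e, 2 * ⟪U s, P s⟫ ≤ 2 * C * ‖U s‖ ^ 2 := fun s hs => by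
    have := (real_inner_le_norm (U s) (P s)).trans
      (mul_le_mul_of_nonneg_left (hP s hs) (norm_nonneg _))
    nlinarith
  have := le_exp_mul_of_deriv_le (fun s hs => (h.dU s hs).norm_sq) key t ht
  refine le_of_pow_le_pow_left₀ two_ne_zero (by positivity) (this.trans_eq ?_)
  rw [mul_pow, ← Real.exp_nat_mul]
  congr 2
  push_cast
  ring

/-! ### Scalar components -/

/-- A component which vanishes at the right end is bounded by its initial value. -/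
theorem abs_le_left_of_zero_end {u u' lam b : ℝ → ℝ} {a e : ℝ}
    (hu : ∀ t ∈ Icc a e, HasDerivAt u (u' t) t)
    (hu' : ∀ t ∈ Icc a e, HasDerivAt u' (lam t * u t - b t * u' t) t) (hb : Continuous b)
    (hlam : ∀ t ∈ Icc a e, 0 ≤ lam t) (hend : u e = 0) :
    ∀ t ∈ Icc a e, |u t| ≤ |u a| := by
  set B : ℝ → ℝ := fun t => ∫ s in a..t, b s
  have hm : MonotoneOn (fun s => Real.exp (B s) * (u s * u' s)) (Icc a e) := by
    have hd : ∀ t ∈ Icc a e, HasDerivAt (fun s => Real.exp (B s) * (u s * u' s))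
        (Real.exp (B t) * (u' t ^ 2 + lam t * u t ^ 2)) t := fun t ht => by
      have hB : HasDerivAt B (b t) t := (hb.integral_hasStrictDerivAt a t).hasDerivAt
      refine (hB.exp.mul ((hu t ht).mul (hu' t ht))).congr_deriv ?_
      simp only [Pi.mul_apply]
      ring
    exact monotoneOn_of_hasDerivWithinAt_nonneg (convex_Icc a e)
      (fun s hs => (hd s hs).continuousAt.continuousWithinAt)
      (fun s hs => (hd s (interior_subset hs)).hasDerivWithinAt) fun s hs =>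
        mul_nonneg (Real.exp_pos _).le
          (add_nonneg (sq_nonneg _) (mul_nonneg (hlam s (interior_subset hs)) (sq_nonneg _)))
  intro t ht
  have hanti : AntitoneOn (fun s => u s ^ 2) (Icc a e) :=
    antitoneOn_of_hasDerivWithinAt_nonpos (f' := fun s => 2 * (u s * u' s)) (convex_Icc a e)
      (fun s hs => ((hu s hs).continuousAt.pow 2).continuousWithinAt)
      (fun s hs => ((((hu s (interior_subset hs)).pow 2)).congr_deriv (by ring)).hasDerivWithinAt)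
      fun s hs => by
        have hs' := interior_subset hs
        have := hm hs' ⟨hs'.1.trans hs'.2, le_rfl⟩ hs'.2
        simp only [hend, zero_mul, mul_zero] at this
        exact mul_nonpos_of_nonneg_of_nonpos zero_le_two
          (nonpos_of_mul_nonpos_right this (Real.exp_pos _))
  exact abs_le_of_sq_le_sq' (by rw [sq_abs]; exact hanti ⟨le_rfl, ht.1.trans ht.2⟩ ht ht.1)
    (abs_nonneg _) |> fun h => abs_le.mpr h

/-- Comparison with an exponential. -/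
theorem abs_le_exp_of_root {u u' lam b : ℝ → ℝ} {a e δ K : ℝ}
    (hu : ∀ t ∈ Icc a e, HasDerivAt u (u' t) t)
    (hu' : ∀ t ∈ Icc a e, HasDerivAt u' (lam t * u t - b t * u' t) t) (hb : Continuous b)
    (hlam : ∀ t ∈ Icc a e, 0 ≤ lam t) (hδ : ∀ t ∈ Icc a e, lam t ≤ δ ^ 2 + b t * δ)
    (hK : |u a| < K) (hK' : |u' a| ≤ K * δ) :
    ∀ t ∈ Icc a e, |u t| ≤ K * Real.exp (δ * (t - a)) := by
  have hK0 : 0 < K := (abs_nonneg _).trans_lt hK
  have key : ∀ σ : ℝ, σ ^ 2 = 1 → ∀ t ∈ Icc a e, 0 < K * Real.exp (δ * (t - a)) - σ * u t := by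
    intro σ hσ t ht
    have hσ' : |σ| = 1 := by rwa [← sq_eq_sq₀ (abs_nonneg σ) zero_le_one, one_pow, sq_abs]
    have hE : ∀ s, HasDerivAt (fun r => K * Real.exp (δ * (r - a)))
        (K * δ * Real.exp (δ * (s - a))) s := fun s => by
      have := (((hasDerivAt_id s).sub_const a).const_mul δ).exp.const_mul K
      exact this.congr_deriv (by simp; ring)
    refine (pos_of_supersolution (z := fun s => K * Real.exp (δ * (s - a)) - σ * u s)
      (z' := fun s => K * δ * Real.exp (δ * (s - a)) - σ * u' s)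
      (z'' := fun s => K * δ * δ * Real.exp (δ * (s - a)) - σ * (lam s * u s - b s * u' s))
      (fun s hs => (hE s).sub ((hu s hs).const_mul σ)) (fun s hs => ?_) hlam hb
      (fun s hs => ?_) ?_ ?_ t ht).1
    · refine (((((hasDerivAt_id s).sub_const a).const_mul δ).exp.const_mul (K * δ)).congr_deriv
        (by simp; ring)).sub ((hu' s hs).const_mul σ)
    · have := mul_le_mul_of_nonneg_right (hδ s hs)
        (mul_nonneg hK0.le (Real.exp_pos (δ * (s - a))).le)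
      linarith
    · simp only [sub_self, mul_zero, Real.exp_zero, mul_one]
      have : |σ * u a| = |u a| := by rw [abs_mul, hσ', one_mul]
      linarith [le_abs_self (σ * u a)]
    · simp only [sub_self, mul_zero, Real.exp_zero, mul_one]
      have : |σ * u' a| = |u' a| := by rw [abs_mul, hσ', one_mul]
      linarith [le_abs_self (σ * u' a)]
  intro t ht
  have h1 := key 1 (by norm_num) t ht
  have h2 := key (-1) (by norm_num) t ht
  exact abs_le.mpr ⟨by linarith, by linarith⟩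

/-! ### The slow transit -/

/-- The size of the error in the transit estimate. -/
noncomputable def transitErr (μ ε S : ℝ) : ℝ := μ + ε ^ 2 * S / μ + 1 / S

/-- `X' = P`, `P' = M X - γ P`, compared with the ideal motion `Ψ' = A Ψ`, where `M ≈ γ A` is small. -/
structure Transit (g G C₁ a c μ ε : ℝ) (γ γd : ℝ → ℝ) (M A : ℝ → V →L[ℝ] V) (X P Ψ : ℝ → V) :
    Prop where
  lt : a < c
  mu_pos : 0 < μ
  mu_le : μ ≤ 1
  eps_nonneg : 0 ≤ ε
  eps_le : ε ≤ μ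
  mu_len : μ * (c - a) ≤ C₁
  dgamma : ∀ t ∈ Icc a c, HasDerivAt γ (γd t) t
  gamma_bd : ∀ t ∈ Icc a c, g ≤ γ t ∧ γ t ≤ G
  gammad_le : ∀ t ∈ Icc a c, |γd t| ≤ ε
  near_le : ∀ t ∈ Icc a c, ‖M t - γ t • A t‖ ≤ ε
  ideal_le : ∀ t ∈ Icc a c, ‖A t‖ ≤ μ
  dX : ∀ t ∈ Icc a c, HasDerivAt X (P t) t
  dP : ∀ t ∈ Icc a c, HasDerivAt P (M t (X t) - γ t • P t) t
  dPsi : ∀ t ∈ Icc a c, HasDerivAt Ψ (A t (Ψ t)) t
  psi_start : Ψ a = X a + (γ a)⁻¹ • P a

section transit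

variable {g G C₁ a c μ ε : ℝ} {γ γd : ℝ → ℝ} {M A : ℝ → V →L[ℝ] V} {X P Ψ : ℝ → V}

theorem Transit.gamma_pos (h : Transit g G C₁ a c μ ε γ γd M A X P Ψ) (hg : 0 < g) {t : ℝ}
    (ht : t ∈ Icc a c) : 0 < γ t := hg.trans_le (h.gamma_bd t ht).1

theorem Transit.inv_le (h : Transit g G C₁ a c μ ε γ γd M A X P Ψ) (hg : 0 < g) {t : ℝ}
    (ht : t ∈ Icc a c) : |(γ t)⁻¹| ≤ 1 / g := by
  rw [abs_inv, abs_of_pos (h.gamma_pos hg ht), one_div]
  exact inv_anti₀ hg (h.gamma_bd t ht).1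

theorem Transit.quot_le (h : Transit g G C₁ a c μ ε γ γd M A X P Ψ) (hg : 0 < g) {t : ℝ}
    (ht : t ∈ Icc a c) : |γd t / γ t ^ 2| ≤ μ / g ^ 2 := by
  rw [abs_div, abs_of_pos (pow_pos (h.gamma_pos hg ht) 2)]
  exact div_le_div₀ h.mu_pos.le ((h.gammad_le t ht).trans h.eps_le) (by positivity)
    (pow_le_pow_left₀ hg.le (h.gamma_bd t ht).1 2)

theorem Transit.norm_apply_le (h : Transit g G C₁ a c μ ε γ γd M A X P Ψ) (hg : 0 < g) {t : ℝ}
    (ht : t ∈ Icc a c) : ‖M t (X t)‖ ≤ (G + 1) * μ * ‖X t‖ := by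
  have hM : ‖M t‖ ≤ (G + 1) * μ := by
    calc ‖M t‖ = ‖(M t - γ t • A t) + γ t • A t‖ := by rw [sub_add_cancel]
      _ ≤ ε + γ t * μ := (norm_add_le _ _).trans (add_le_add (h.near_le t ht) (by
          rw [norm_smul, Real.norm_of_nonneg (h.gamma_pos hg ht).le]
          exact mul_le_mul_of_nonneg_left (h.ideal_le t ht) (h.gamma_pos hg ht).le))
      _ ≤ (G + 1) * μ := by
          have := mul_le_mul_of_nonneg_right (h.gamma_bd t ht).2 h.mu_pos.le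
          linarith [h.eps_le]
  exact ((M t).le_opNorm _).trans (mul_le_mul_of_nonneg_right hM (norm_nonneg _))

theorem Transit.hasDerivAt_shift (h : Transit g G C₁ a c μ ε γ γd M A X P Ψ) (hg : 0 < g) {t : ℝ}
    (ht : t ∈ Icc a c) :
    HasDerivAt (fun s => X s + (γ s)⁻¹ • P s)
      ((γ t)⁻¹ • M t (X t) - (γd t / γ t ^ 2) • P t) t := by
  have hne := (h.gamma_pos hg ht).ne'
  refine ((h.dX t ht).add (((h.dgamma t ht).inv hne).smul (h.dP t ht))).congr_deriv ?_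
  simp only [Pi.inv_apply, smul_sub, smul_smul, inv_mul_cancel₀ hne, one_smul]
  rw [neg_div, neg_smul]
  abel

theorem Transit.norm_X_le (h : Transit g G C₁ a c μ ε γ γd M A X P Ψ) (hg : 0 < g) {t : ℝ}
    (ht : t ∈ Icc a c) : ‖X t‖ ≤ ‖X t + (γ t)⁻¹ • P t‖ + 1 / g * ‖P t‖ := by
  calc ‖X t‖ = ‖(X t + (γ t)⁻¹ • P t) - (γ t)⁻¹ • P t‖ := by rw [add_sub_cancel_right]
    _ ≤ ‖X t + (γ t)⁻¹ • P t‖ + |(γ t)⁻¹| * ‖P t‖ := by
        refine (norm_sub_le _ _).trans_eq ?_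
        rw [norm_smul, Real.norm_eq_abs]
    _ ≤ _ := by
        have := mul_le_mul_of_nonneg_right (h.inv_le hg ht) (norm_nonneg (P t))
        linarith

/-- Energy stays bounded over the transit. -/
theorem transit_energy (hg : 0 < g) (hG : 0 ≤ G) (_hC₁ : 0 ≤ C₁) :
    ∃ K : ℝ, 0 ≤ K ∧ ∀ (a c μ ε : ℝ) (γ γd : ℝ → ℝ) (M A : ℝ → V →L[ℝ] V) (X P Ψ : ℝ → V),
      Transit g G C₁ a c μ ε γ γd M A X P Ψ → ∀ t ∈ Icc a c,
        ‖X t‖ ^ 2 + ‖P t‖ ^ 2 ≤ K * (‖X a‖ ^ 2 + ‖P a‖ ^ 2) := by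
  set m := G + 1
  have hm : 0 ≤ m := by positivity
  set q := m / g + m / g ^ 2 + 1 / g ^ 2 + m + m / g
  have hq : 0 ≤ q := by positivity
  set B := 2 + 2 / g ^ 2
  refine ⟨B * (B * Real.exp (2 * q * C₁)), by positivity,
    fun a c μ ε γ γd M A X P Ψ h t ht => ?_⟩
  let Z : ℝ → V := fun s => X s + (γ s)⁻¹ • P s
  have hd : ∀ s ∈ Icc a c, HasDerivAt (fun s => ‖Z s‖ ^ 2 + ‖P s‖ ^ 2)
      (2 * ⟪Z s, (γ s)⁻¹ • M s (X s) - (γd s / γ s ^ 2) • P s⟫ +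
        2 * ⟪P s, M s (X s) - γ s • P s⟫) s := fun s hs =>
    (h.hasDerivAt_shift hg hs).norm_sq.add (h.dP s hs).norm_sq
  have hle : ∀ s ∈ Icc a c, 2 * ⟪Z s, (γ s)⁻¹ • M s (X s) - (γd s / γ s ^ 2) • P s⟫ +
      2 * ⟪P s, M s (X s) - γ s • P s⟫ ≤ 2 * q * μ * (‖Z s‖ ^ 2 + ‖P s‖ ^ 2) := by
    intro s hs
    have hμ := h.mu_pos.le
    have hMX : ‖M s (X s)‖ ≤ m * μ * (‖Z s‖ + 1 / g * ‖P s‖) :=
      (h.norm_apply_le hg hs).trans
        (mul_le_mul_of_nonneg_left (h.norm_X_le hg hs) (by positivity))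
    have hn : ‖(γ s)⁻¹ • M s (X s) - (γd s / γ s ^ 2) • P s‖ ≤
        1 / g * (m * μ * (‖Z s‖ + 1 / g * ‖P s‖)) + μ / g ^ 2 * ‖P s‖ := by
      refine (norm_sub_le _ _).trans (add_le_add ?_ ?_) <;> rw [norm_smul, Real.norm_eq_abs]
      · exact mul_le_mul (h.inv_le hg hs) hMX (norm_nonneg _) (by positivity)
      · exact mul_le_mul_of_nonneg_right (h.quot_le hg hs) (norm_nonneg _)
    have h1 := (real_inner_le_norm (Z s) _).trans
      (mul_le_mul_of_nonneg_left hn (norm_nonneg (Z s)))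
    have h2 := (real_inner_le_norm (P s) (M s (X s))).trans
      (mul_le_mul_of_nonneg_left hMX (norm_nonneg (P s)))
    have e : ⟪P s, M s (X s) - γ s • P s⟫ = ⟪P s, M s (X s)⟫ - γ s * ‖P s‖ ^ 2 := by
      rw [inner_sub_right, real_inner_smul_right, real_inner_self_eq_norm_sq]
    have h3 := mul_nonneg (h.gamma_pos hg hs).le (sq_nonneg ‖P s‖)
    rw [e]
    generalize ‖Z s‖ = z at h1 h2 ⊢
    generalize ‖P s‖ = p at h1 h2 h3 ⊢
    have hzq : z * p ≤ z ^ 2 + p ^ 2 := by nlinarith [sq_nonneg (z - p)]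
    have a1 := mul_le_mul_of_nonneg_left (le_add_of_nonneg_right (sq_nonneg p) : z ^ 2 ≤ z ^ 2 + p ^ 2)
      (show 0 ≤ μ * (m / g) by positivity)
    have a2 := mul_le_mul_of_nonneg_left hzq
      (show 0 ≤ μ * (m / g ^ 2 + 1 / g ^ 2 + m) by positivity)
    have a3 := mul_le_mul_of_nonneg_left (le_add_of_nonneg_left (sq_nonneg z) : p ^ 2 ≤ z ^ 2 + p ^ 2)
      (show 0 ≤ μ * (m / g) by positivity)
    simp only [q]
    linear_combination 2 * h1 + 2 * h2 + 2 * h3 + 2 * a1 + 2 * a2 + 2 * a3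
  have hs := le_exp_mul_of_deriv_le hd hle t ht
  have hexp : Real.exp (2 * q * μ * (t - a)) ≤ Real.exp (2 * q * C₁) := by
    refine Real.exp_le_exp.mpr ?_
    rw [mul_assoc (2 * q)]
    refine mul_le_mul_of_nonneg_left ?_ (by positivity)
    exact (mul_le_mul_of_nonneg_left (by linarith [ht.2]) h.mu_pos.le).trans h.mu_len
  have conv : ∀ (u v : V) (r : ℝ), ‖u‖ ≤ ‖v‖ + 1 / g * r → ∀ p, r = ‖p‖ →
      ‖u‖ ^ 2 + ‖(p : V)‖ ^ 2 ≤ B * (‖v‖ ^ 2 + ‖p‖ ^ 2) := by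
    intro u v r hu p hr
    subst hr
    have h2 := pow_le_pow_left₀ (norm_nonneg _) hu 2
    have e : B * (‖v‖ ^ 2 + ‖p‖ ^ 2) = 2 * ‖v‖ ^ 2 + 2 * (1 / g) ^ 2 * ‖v‖ ^ 2 + 2 * ‖p‖ ^ 2 +
        2 * (1 / g * ‖p‖) ^ 2 := by simp only [B]; ring
    have : 0 ≤ 2 * (1 / g) ^ 2 * ‖v‖ ^ 2 := by positivity
    nlinarith [sq_nonneg (‖v‖ - 1 / g * ‖p‖), sq_nonneg ‖p‖]
  have ha : a ∈ Icc a c := ⟨le_rfl, h.lt.le⟩
  have h0 : ‖Z a‖ ^ 2 + ‖P a‖ ^ 2 ≤ B * (‖X a‖ ^ 2 + ‖P a‖ ^ 2) := by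
    refine conv _ _ _ ?_ _ rfl
    refine (norm_add_le _ _).trans (add_le_add le_rfl ?_)
    rw [norm_smul, Real.norm_eq_abs]
    exact mul_le_mul_of_nonneg_right (h.inv_le hg ha) (norm_nonneg _)
  calc ‖X t‖ ^ 2 + ‖P t‖ ^ 2 ≤ B * (‖Z t‖ ^ 2 + ‖P t‖ ^ 2) := conv _ _ _ (h.norm_X_le hg ht) _ rfl
    _ ≤ B * ((‖Z a‖ ^ 2 + ‖P a‖ ^ 2) * Real.exp (2 * q * μ * (t - a))) :=
        mul_le_mul_of_nonneg_left hs (by positivity)
    _ ≤ B * ((B * (‖X a‖ ^ 2 + ‖P a‖ ^ 2)) * Real.exp (2 * q * C₁)) :=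
        mul_le_mul_of_nonneg_left (mul_le_mul h0 hexp (Real.exp_pos _).le (by positivity))
          (by positivity)
    _ = _ := by ring

/-- The derivative decays to size `μ`. -/
theorem transit_deriv (hg : 0 < g) (hG : 0 ≤ G) (hC₁ : 0 ≤ C₁) :
    ∃ K : ℝ, 0 ≤ K ∧ ∀ (a c μ ε : ℝ) (γ γd : ℝ → ℝ) (M A : ℝ → V →L[ℝ] V) (X P Ψ : ℝ → V),
      Transit g G C₁ a c μ ε γ γd M A X P Ψ → ∀ t ∈ Icc a c,
        ‖X t‖ ^ 2 ≤ K * (‖X a‖ ^ 2 + ‖P a‖ ^ 2) ∧
        ‖P t‖ ^ 2 ≤ ‖P a‖ ^ 2 * Real.exp (-g * (t - a)) +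
          K * μ ^ 2 * (‖X a‖ ^ 2 + ‖P a‖ ^ 2) := by
  obtain ⟨E, hE0, hE⟩ := transit_energy (V := V) hg hG hC₁
  set m := G + 1
  refine ⟨E + m ^ 2 * E / g ^ 2, by positivity, fun a c μ ε γ γd M A X P Ψ h t ht => ?_⟩
  set E₀ := ‖X a‖ ^ 2 + ‖P a‖ ^ 2
  have hE₀ : 0 ≤ E₀ := by positivity
  have hX : ∀ s ∈ Icc a c, ‖X s‖ ^ 2 ≤ E * E₀ := fun s hs =>
    (le_add_of_nonneg_right (sq_nonneg _)).trans (hE a c μ ε γ γd M A X P Ψ h s hs)
  refine ⟨(hX t ht).trans (mul_le_mul_of_nonneg_right (le_add_of_nonneg_right (by positivity)) hE₀), ?_⟩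
  set cP := m ^ 2 * μ ^ 2 * (E * E₀) / g
  have hd : ∀ s ∈ Icc a c, 2 * ⟪P s, M s (X s) - γ s • P s⟫ ≤ -g * ‖P s‖ ^ 2 + cP := by
    intro s hs
    rw [inner_sub_right, real_inner_smul_right, real_inner_self_eq_norm_sq]
    have h1 : ⟪P s, M s (X s)⟫ ≤ ‖P s‖ * (m * μ * ‖X s‖) :=
      (real_inner_le_norm _ _).trans
        (mul_le_mul_of_nonneg_left (h.norm_apply_le hg hs) (norm_nonneg _))
    have h2 := mul_le_mul_of_nonneg_right (h.gamma_bd s hs).1 (sq_nonneg ‖P s‖)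
    have h3 : 2 * (‖P s‖ * (m * μ * ‖X s‖)) ≤ g * ‖P s‖ ^ 2 + (m * μ * ‖X s‖) ^ 2 / g := by
      rw [← sub_nonneg]
      have : g * ‖P s‖ ^ 2 + (m * μ * ‖X s‖) ^ 2 / g - 2 * (‖P s‖ * (m * μ * ‖X s‖)) =
          (g * ‖P s‖ - m * μ * ‖X s‖) ^ 2 / g := by field_simp; ring
      rw [this]; positivity
    have h4 : (m * μ * ‖X s‖) ^ 2 / g ≤ cP := div_le_div_of_nonneg_right (by
        rw [mul_pow, mul_pow]
        exact mul_le_mul_of_nonneg_left (hX s hs) (by positivity)) hg.le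
    linarith
  refine (le_of_deriv_le_neg hg (fun s hs => (h.dP s hs).norm_sq) hd t ht).trans ?_
  have h5 : 0 ≤ cP / g * Real.exp (-g * (t - a)) := by positivity
  have h6 : cP / g = m ^ 2 * E / g ^ 2 * μ ^ 2 * E₀ := by simp only [cP]; field_simp
  have h7 : 0 ≤ E * μ ^ 2 * E₀ := by positivity
  linarith

theorem transit_remainder_le (h : Transit g G C₁ a c μ ε γ γd M A X P Ψ) (hg : 0 < g) {t : ℝ}
    (ht : t ∈ Icc a c) :
    2 * ⟪X t + (γ t)⁻¹ • P t - Ψ t,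
        (γ t)⁻¹ • M t (X t) - (γd t / γ t ^ 2) • P t - A t (Ψ t)⟫ ≤
      3 * μ * ‖X t + (γ t)⁻¹ • P t - Ψ t‖ ^ 2 +
        (2 * (ε / g) ^ 2 * ‖X t‖ ^ 2 + 2 * (μ * (1 / g + 1 / g ^ 2)) ^ 2 * ‖P t‖ ^ 2) / μ := by
  have hμ := h.mu_pos
  have hε := h.eps_nonneg
  set D := X t + (γ t)⁻¹ • P t - Ψ t with hD
  set err := (γ t)⁻¹ • (M t - γ t • A t) (X t) - A t ((γ t)⁻¹ • P t) - (γd t / γ t ^ 2) • P t
    with herr_def
  have he : (γ t)⁻¹ • M t (X t) - (γd t / γ t ^ 2) • P t - A t (Ψ t) = A t D + err := by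
    simp only [herr_def, hD, sub_apply, smul_apply,
      map_sub, map_add, smul_sub, smul_smul, inv_mul_cancel₀ (h.gamma_pos hg ht).ne', one_smul]
    abel
  have herr : ‖err‖ ≤ ε / g * ‖X t‖ + μ * (1 / g + 1 / g ^ 2) * ‖P t‖ := by
    have e1 : ‖(γ t)⁻¹ • (M t - γ t • A t) (X t)‖ ≤ ε / g * ‖X t‖ := by
      rw [norm_smul, Real.norm_eq_abs]
      calc _ ≤ 1 / g * (ε * ‖X t‖) := mul_le_mul (h.inv_le hg ht)
            (((M t - γ t • A t).le_opNorm _).trans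
              (mul_le_mul_of_nonneg_right (h.near_le t ht) (norm_nonneg _))) (norm_nonneg _)
            (by positivity)
        _ = _ := by ring
    have e2 : ‖A t ((γ t)⁻¹ • P t)‖ ≤ μ * (1 / g) * ‖P t‖ := by
      refine ((A t).le_opNorm _).trans ?_
      rw [norm_smul, Real.norm_eq_abs, mul_assoc μ]
      exact mul_le_mul (h.ideal_le t ht)
        (mul_le_mul_of_nonneg_right (h.inv_le hg ht) (norm_nonneg _)) (by positivity) hμ.le
    have e3 : ‖(γd t / γ t ^ 2) • P t‖ ≤ μ * (1 / g ^ 2) * ‖P t‖ := by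
      rw [norm_smul, Real.norm_eq_abs, mul_one_div]
      exact mul_le_mul_of_nonneg_right (h.quot_le hg ht) (norm_nonneg _)
    calc ‖err‖ ≤ _ := (norm_sub_le _ _).trans
          (add_le_add ((norm_sub_le _ _).trans (add_le_add e1 e2)) e3)
      _ = _ := by ring
  rw [he, inner_add_right]
  have h1 : ⟪D, A t D⟫ ≤ μ * ‖D‖ ^ 2 := by
    refine (real_inner_le_norm _ _).trans ?_
    calc ‖D‖ * ‖A t D‖ ≤ ‖D‖ * (μ * ‖D‖) := mul_le_mul_of_nonneg_left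
          (((A t).le_opNorm _).trans (mul_le_mul_of_nonneg_right (h.ideal_le t ht) (norm_nonneg _)))
          (norm_nonneg _)
      _ = _ := by ring
  have h2 := real_inner_le_norm D err
  have h3 : 2 * (‖D‖ * ‖err‖) ≤ μ * ‖D‖ ^ 2 + ‖err‖ ^ 2 / μ := by
    rw [← sub_nonneg]
    have : μ * ‖D‖ ^ 2 + ‖err‖ ^ 2 / μ - 2 * (‖D‖ * ‖err‖) = (μ * ‖D‖ - ‖err‖) ^ 2 / μ := by
      field_simp; ring
    rw [this]; positivity
  have h4 : ‖err‖ ^ 2 ≤
      2 * (ε / g) ^ 2 * ‖X t‖ ^ 2 + 2 * (μ * (1 / g + 1 / g ^ 2)) ^ 2 * ‖P t‖ ^ 2 := by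
    have := pow_le_pow_left₀ (norm_nonneg _) herr 2
    nlinarith [sq_nonneg (ε / g * ‖X t‖ - μ * (1 / g + 1 / g ^ 2) * ‖P t‖)]
  have h5 := div_le_div_of_nonneg_right h4 hμ.le
  linarith

/-- Distance of the shifted position to the ideal motion at the end. -/
theorem transit_shift (hg : 0 < g) (hG : 0 ≤ G) (hC₁ : 0 ≤ C₁) :
    ∃ K : ℝ, 0 ≤ K ∧ ∀ (a c μ ε : ℝ) (γ γd : ℝ → ℝ) (M A : ℝ → V →L[ℝ] V) (X P Ψ : ℝ → V),
      Transit g G C₁ a c μ ε γ γd M A X P Ψ →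
        ‖X c + (γ c)⁻¹ • P c - Ψ c‖ ^ 2 ≤
          K * (transitErr μ ε (c - a) * (‖X a‖ ^ 2 + ‖P a‖ ^ 2)) := by
  obtain ⟨K, hK0, hK⟩ := transit_deriv (V := V) hg hG hC₁
  set k₁ := 2 * K / g ^ 2
  set k₂ := 2 * (1 / g + 1 / g ^ 2) ^ 2
  refine ⟨Real.exp (3 * C₁) * (k₁ + k₂ / g + k₂ * K * C₁), by positivity,
    fun a c μ ε γ γd M A X P Ψ h => ?_⟩
  have hμ := h.mu_pos
  set E₀ := ‖X a‖ ^ 2 + ‖P a‖ ^ 2
  have hE₀ : 0 ≤ E₀ := by positivity
  set c₁ := k₁ * (ε ^ 2 / μ) * E₀ + k₂ * K * μ ^ 3 * E₀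
  set c₂ := k₂ * μ * ‖P a‖ ^ 2
  let D : ℝ → V := fun t => X t + (γ t)⁻¹ • P t - Ψ t
  let F : ℝ → ℝ := fun t => ‖D t‖ ^ 2 * Real.exp (-(3 * μ) * (t - a)) -
    (c₁ * (t - a) + c₂ * (1 - Real.exp (-g * (t - a))) / g)
  let Fd : ℝ → ℝ := fun t => (2 * ⟪D t, (γ t)⁻¹ • M t (X t) - (γd t / γ t ^ 2) • P t - A t (Ψ t)⟫ -
    3 * μ * ‖D t‖ ^ 2) * Real.exp (-(3 * μ) * (t - a)) - (c₁ + c₂ * Real.exp (-g * (t - a)))
  have hFd : ∀ t ∈ Icc a c, HasDerivAt F (Fd t) t := fun t ht => by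
    have hd : HasDerivAt (fun s => ‖D s‖ ^ 2)
        (2 * ⟪D t, (γ t)⁻¹ • M t (X t) - (γd t / γ t ^ 2) • P t - A t (Ψ t)⟫) t :=
      ((h.hasDerivAt_shift hg ht).sub (h.dPsi t ht)).norm_sq
    have he : ∀ r : ℝ, HasDerivAt (fun s => Real.exp (r * (s - a))) (r * Real.exp (r * (t - a))) t :=
      fun r => (((hasDerivAt_id t).sub_const a).const_mul r).exp.congr_deriv (by simp; ring)
    refine ((hd.mul (he _)).sub ((((hasDerivAt_id t).sub_const a).const_mul c₁).add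
      ((((he (-g)).const_sub 1).const_mul c₂).div_const g))).congr_deriv ?_
    simp only [Fd]
    field_simp
    ring
  have hFle : ∀ t ∈ Icc a c, Fd t ≤ 0 := by
    intro t ht
    obtain ⟨hX, hP⟩ := hK a c μ ε γ γd M A X P Ψ h t ht
    have h1 := transit_remainder_le h hg ht
    have h2 : (2 * (ε / g) ^ 2 * ‖X t‖ ^ 2 + 2 * (μ * (1 / g + 1 / g ^ 2)) ^ 2 * ‖P t‖ ^ 2) / μ ≤
        c₁ + c₂ * Real.exp (-g * (t - a)) := by
      rw [div_le_iff₀ hμ]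
      refine (add_le_add (mul_le_mul_of_nonneg_left hX (by positivity))
        (mul_le_mul_of_nonneg_left hP (by positivity))).trans_eq ?_
      simp only [c₁, c₂, k₁, k₂]
      field_simp
      ring
    have hexp : Real.exp (-(3 * μ) * (t - a)) ≤ 1 :=
      Real.exp_le_one_iff.mpr (by nlinarith [ht.1])
    have h3 := mul_le_mul_of_nonneg_right (show 2 * ⟪D t, (γ t)⁻¹ • M t (X t) -
        (γd t / γ t ^ 2) • P t - A t (Ψ t)⟫ - 3 * μ * ‖D t‖ ^ 2 ≤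
          c₁ + c₂ * Real.exp (-g * (t - a)) by simp only [D] at h1 ⊢; linarith)
      (Real.exp_pos (-(3 * μ) * (t - a))).le
    have h4 := mul_le_of_le_one_right
      (show 0 ≤ c₁ + c₂ * Real.exp (-g * (t - a)) by positivity) hexp
    simp only [Fd]
    linarith
  have hanti : AntitoneOn F (Icc a c) :=
    antitoneOn_of_hasDerivWithinAt_nonpos (convex_Icc a c)
      (fun s hs => (hFd s hs).continuousAt.continuousWithinAt)
      (fun s hs => (hFd s (interior_subset hs)).hasDerivWithinAt)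
      fun s hs => hFle s (interior_subset hs)
  have hFc := hanti ⟨le_rfl, h.lt.le⟩ ⟨h.lt.le, le_rfl⟩ h.lt.le
  have hD0 : D a = 0 := by simp only [D, h.psi_start, sub_self]
  have hF0 : F a = 0 := by simp [F, hD0]
  rw [hF0] at hFc
  set T := transitErr μ ε (c - a)
  have hS : 0 < c - a := sub_pos.mpr h.lt
  have hTμ : μ ≤ T := by
    have h1 : 0 ≤ ε ^ 2 * (c - a) / μ := by positivity
    have h2 : 0 ≤ 1 / (c - a) := by positivity
    simp only [T, transitErr]; linarith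
  have hTε : ε ^ 2 * (c - a) / μ ≤ T := by
    have : 0 ≤ 1 / (c - a) := by positivity
    simp only [T, transitErr]; linarith
  have hμ2 : μ ^ 2 ≤ T := (by nlinarith [h.mu_le] : μ ^ 2 ≤ μ).trans hTμ
  have q1 : c₁ * (c - a) ≤ (k₁ + k₂ * K * C₁) * (T * E₀) := by
    have e : c₁ * (c - a) =
        k₁ * (ε ^ 2 * (c - a) / μ * E₀) + k₂ * K * ((μ * (c - a)) * (μ ^ 2 * E₀)) := by
      simp only [c₁]; ring
    rw [e, add_mul, mul_assoc (k₂ * K) C₁]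
    exact add_le_add (mul_le_mul_of_nonneg_left (mul_le_mul_of_nonneg_right hTε hE₀) (by positivity))
      (mul_le_mul_of_nonneg_left (mul_le_mul h.mu_len (mul_le_mul_of_nonneg_right hμ2 hE₀)
        (by positivity) hC₁) (by positivity))
  have q2 : c₂ * (1 - Real.exp (-g * (c - a))) / g ≤ k₂ / g * (T * E₀) := by
    calc c₂ * (1 - Real.exp (-g * (c - a))) / g ≤ c₂ / g := div_le_div_of_nonneg_right
          (mul_le_of_le_one_right (by positivity) (sub_le_self _ (Real.exp_pos _).le)) hg.le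
      _ = k₂ / g * (μ * ‖P a‖ ^ 2) := by simp only [c₂]; ring
      _ ≤ _ := mul_le_mul_of_nonneg_left (mul_le_mul hTμ (le_add_of_nonneg_left (sq_nonneg _))
          (sq_nonneg _) (hμ.le.trans hTμ)) (by positivity)
  have hexp : Real.exp (-(3 * C₁)) ≤ Real.exp (-(3 * μ) * (c - a)) :=
    Real.exp_le_exp.mpr (by linarith [h.mu_len])
  have q3 := mul_le_mul_of_nonneg_left hexp (sq_nonneg ‖D c‖)
  have q4 : ‖D c‖ ^ 2 * Real.exp (-(3 * C₁)) ≤ (k₁ + k₂ / g + k₂ * K * C₁) * (T * E₀) := by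
    simp only [F] at hFc
    linarith
  rw [Real.exp_neg, ← div_eq_mul_inv, div_le_iff₀ (Real.exp_pos _)] at q4
  calc ‖D c‖ ^ 2 ≤ _ := q4
    _ = _ := by ring

theorem transit_estimate (hg : 0 < g) (hG : 0 ≤ G) (hC₁ : 0 ≤ C₁) :
    ∃ K : ℝ, 0 ≤ K ∧ ∀ (a c μ ε : ℝ) (γ γd : ℝ → ℝ) (M A : ℝ → V →L[ℝ] V) (X P Ψ : ℝ → V),
      Transit g G C₁ a c μ ε γ γd M A X P Ψ →
        ‖X c - Ψ c‖ ^ 2 + ‖P c‖ ^ 2 ≤
          K * transitErr μ ε (c - a) * (‖X a‖ ^ 2 + ‖P a‖ ^ 2) := by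
  obtain ⟨Kd, hKd0, hKd⟩ := transit_deriv (V := V) hg hG hC₁
  obtain ⟨Ks, hKs0, hKs⟩ := transit_shift (V := V) hg hG hC₁
  refine ⟨2 * Ks + (2 / g ^ 2 + 1) * (1 / g + Kd), by positivity,
    fun a c μ ε γ γd M A X P Ψ h => ?_⟩
  have hc : c ∈ Icc a c := ⟨h.lt.le, le_rfl⟩
  set E₀ := ‖X a‖ ^ 2 + ‖P a‖ ^ 2
  have hE₀ : 0 ≤ E₀ := by positivity
  set T := transitErr μ ε (c - a)
  have hS : 0 < c - a := sub_pos.mpr h.lt
  have hμ := h.mu_pos
  have h0 : 0 ≤ ε ^ 2 * (c - a) / μ := by positivity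
  have hT1 : μ ^ 2 ≤ T := by
    have : 0 ≤ 1 / (c - a) := by positivity
    simp only [T, transitErr]; nlinarith [h.mu_le]
  have hT2 : 1 / (c - a) ≤ T := by simp only [T, transitErr]; linarith
  have hP : ‖P c‖ ^ 2 ≤ (1 / g + Kd) * (T * E₀) := by
    refine ((hKd a c μ ε γ γd M A X P Ψ h c hc).2).trans ?_
    rw [add_mul]
    refine add_le_add ?_ ?_
    · calc ‖P a‖ ^ 2 * Real.exp (-g * (c - a)) ≤ E₀ * (1 / g * (1 / (c - a))) := by
            refine mul_le_mul (le_add_of_nonneg_left (sq_nonneg _)) ?_ (Real.exp_pos _).le hE₀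
            rw [neg_mul, Real.exp_neg, div_mul_div_comm, one_mul, one_div]
            exact inv_anti₀ (by positivity) (by linarith [Real.add_one_le_exp (g * (c - a))])
        _ ≤ E₀ * (1 / g * T) := mul_le_mul_of_nonneg_left
            (mul_le_mul_of_nonneg_left hT2 (by positivity)) hE₀
        _ = _ := by ring
    · rw [mul_assoc]
      exact mul_le_mul_of_nonneg_left (mul_le_mul_of_nonneg_right hT1 hE₀) hKd0
  have hX : ‖X c - Ψ c‖ ^ 2 ≤ 2 * ‖X c + (γ c)⁻¹ • P c - Ψ c‖ ^ 2 + 2 / g ^ 2 * ‖P c‖ ^ 2 := by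
    have e : X c - Ψ c = (X c + (γ c)⁻¹ • P c - Ψ c) - (γ c)⁻¹ • P c := by abel
    have h1 : ‖X c - Ψ c‖ ≤ ‖X c + (γ c)⁻¹ • P c - Ψ c‖ + 1 / g * ‖P c‖ := by
      rw [e]
      refine (norm_sub_le _ _).trans (add_le_add le_rfl ?_)
      rw [norm_smul, Real.norm_eq_abs]
      exact mul_le_mul_of_nonneg_right (h.inv_le hg hc) (norm_nonneg _)
    have h2 := pow_le_pow_left₀ (norm_nonneg _) h1 2
    have e2 : 2 / g ^ 2 * ‖P c‖ ^ 2 = 2 * (1 / g * ‖P c‖) ^ 2 := by ring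
    nlinarith [sq_nonneg (‖X c + (γ c)⁻¹ • P c - Ψ c‖ - 1 / g * ‖P c‖)]
  have hs := hKs a c μ ε γ γd M A X P Ψ h
  have hP' := mul_le_mul_of_nonneg_left hP (show (0:ℝ) ≤ 2 / g ^ 2 + 1 by positivity)
  linarith

end transit

/-- Continuous dependence on parameters. -/
theorem continuous_param {F X : Type*} [NormedAddCommGroup F] [NormedSpace ℝ F] [TopologicalSpace X]
    {A : X → ℝ → F →L[ℝ] F} (hA : Continuous fun q : X × ℝ => A q.1 q.2) {a c : ℝ} (hac : a ≤ c)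
    {Y : X → ℝ → F} (hY : ∀ x, ∀ t ∈ Icc a c, HasDerivAt (Y x) (A x t (Y x t)) t) {y₀ : F}
    (h0 : ∀ x, Y x a = y₀) : Continuous fun x => Y x c := by
  rw [continuous_iff_continuousAt]
  intro x₀
  rw [ContinuousAt, tendsto_iff_norm_sub_tendsto_zero]
  have hcont : ∀ x, ContinuousOn (Y x) (Icc a c) := fun x t ht =>
    (hY x t ht).continuousAt.continuousWithinAt
  obtain ⟨B, hB⟩ := isCompact_Icc.exists_bound_of_continuousOn (hcont x₀)
  obtain ⟨K₀, hK₀⟩ := isCompact_Icc.exists_bound_of_continuousOn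
    ((hA.comp (continuous_const.prodMk continuous_id)).continuousOn (s := Icc a c) :
      ContinuousOn (fun t => A x₀ t) (Icc a c))
  set K := max (K₀ + 1) 1
  have hK1 : (1:ℝ) ≤ K := le_max_right _ _
  rw [Metric.tendsto_nhds]
  intro η hη
  set ε := min 1 (η / (2 * ((max B 0 + 1) * (gronwallBound 0 K 1 (c - a) + 1))))
  have hgw : 0 ≤ gronwallBound 0 K 1 (c - a) := by
    rw [gronwallBound_of_K_ne_0 (by linarith)]
    simp only [zero_mul, zero_add]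
    exact mul_nonneg (by positivity)
      (sub_nonneg.mpr (Real.one_le_exp (mul_nonneg (by linarith) (sub_nonneg.mpr hac))))
  have hε : 0 < ε := lt_min one_pos (by positivity)
  have hev : ∀ᶠ x in 𝓝 x₀, ∀ t ∈ Icc a c, ‖A x t - A x₀ t‖ < ε := by
    refine isCompact_Icc.eventually_forall_of_forall_eventually fun t _ => ?_
    have hc2 : Continuous fun q : X × ℝ => ‖A q.1 q.2 - A x₀ q.2‖ :=
      (hA.sub (hA.comp (continuous_const.prodMk continuous_snd))).norm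
    exact hc2.continuousAt.eventually (eventually_lt_nhds (by simpa using hε))
  filter_upwards [hev] with x hx
  have hd : ∀ t ∈ Ico a c, HasDerivWithinAt (fun s => Y x s - Y x₀ s)
      (A x t (Y x t) - A x₀ t (Y x₀ t)) (Ici t) t := fun t ht =>
    ((hY x t (Ico_subset_Icc_self ht)).sub (hY x₀ t (Ico_subset_Icc_self ht))).hasDerivWithinAt
  have hbd : ∀ t ∈ Ico a c, ‖A x t (Y x t) - A x₀ t (Y x₀ t)‖ ≤
      K * ‖Y x t - Y x₀ t‖ + ε * (max B 0 + 1) := by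
    intro t ht
    have ht' := Ico_subset_Icc_self ht
    have e : A x t (Y x t) - A x₀ t (Y x₀ t) =
        A x t (Y x t - Y x₀ t) + (A x t - A x₀ t) (Y x₀ t) := by
      simp [map_sub]
    rw [e]
    refine (norm_add_le _ _).trans (add_le_add ?_ ?_)
    · refine ((A x t).le_opNorm _).trans (mul_le_mul_of_nonneg_right ?_ (norm_nonneg _))
      calc ‖A x t‖ = ‖A x₀ t + (A x t - A x₀ t)‖ := by rw [add_sub_cancel]
        _ ≤ K₀ + 1 := (norm_add_le _ _).trans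
            (add_le_add (hK₀ t ht') ((hx t ht').le.trans (min_le_left _ _)))
        _ ≤ K := le_max_left _ _
    · refine ((A x t - A x₀ t).le_opNorm _).trans (mul_le_mul (hx t ht').le ?_ (norm_nonneg _) hε.le)
      linarith [hB t ht', le_max_left B 0]
  have := norm_le_gronwallBound_of_norm_deriv_right_le (f := fun s => Y x s - Y x₀ s)
    ((hcont x).sub (hcont x₀)) hd (δ := 0) (by simp [h0]) hbd c ⟨hac, le_rfl⟩
  rw [gronwallBound_of_K_ne_0 (by linarith)] at this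
  rw [Real.dist_eq, sub_zero, abs_norm]
  refine lt_of_le_of_lt this ?_
  set G := gronwallBound 0 K 1 (c - a) with hGdef
  rw [gronwallBound_of_K_ne_0 (by linarith)] at hGdef
  have e : 0 * Real.exp (K * (c - a)) + ε * (max B 0 + 1) / K * (Real.exp (K * (c - a)) - 1) =
      ε * ((max B 0 + 1) * G) := by rw [hGdef]; beta_reduce; ring
  beta_reduce
  rw [e]
  calc ε * ((max B 0 + 1) * G) ≤ ε * ((max B 0 + 1) * (G + 1)) := by
        gcongr; linarith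
    _ ≤ η / 2 := by
        have h := (le_div_iff₀ (by positivity)).mp (min_le_right (1:ℝ)
          (η / (2 * ((max B 0 + 1) * (G + 1)))))
        have : ε ≤ η / (2 * ((max B 0 + 1) * (G + 1))) := min_le_right _ _
        rw [le_div_iff₀ (by positivity)] at this
        linarith
    _ < η := half_lt_self hη

end Vale.Agent.P225
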