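import Mathlib

/-!
P225: Riemannian metrics on coordinate space, in coordinates.
These definitions are the ones used by the final statement.
-/

open scoped BigOperators ContDiff
open Filter Topology

namespace Vale.Agent.P225

/-- Coordinate space. -/
abbrev Pt (n : ℕ) := Fin n → ℝ

variable {n : ℕ}

/-- Partial derivative in the direction of the `i`-th coordinate. -/
noncomputable def pd (i : Fin n) (f : Pt n → ℝ) (x : Pt n) : ℝ :=
  fderiv ℝ f x (Pi.single i 1)

/-- A smooth Riemannian metric, given by its coordinate matrix. -/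
def IsMetric (g : Pt n → Matrix (Fin n) (Fin n) ℝ) : Prop :=
  (∀ i j, ContDiff ℝ ∞ fun x => g x i j) ∧ ∀ x, (g x).PosDef

/-- Christoffel symbol `Γ^k_{ij}` of the Levi-Civita connection. -/
noncomputable def christoffel (g : Pt n → Matrix (Fin n) (Fin n) ℝ) (k i j : Fin n) (x : Pt n) : ℝ :=
  (1 / 2) * ∑ l, (g x)⁻¹ k l *
    (pd i (fun y => g y j l) x + pd j (fun y => g y i l) x - pd l (fun y => g y i j) x)

/-- Ricci tensor `R_{ij}`. -/
noncomputable def ricci (g : Pt n → Matrix (Fin n) (Fin n) ℝ) (i j : Fin n) (x : Pt n) : ℝ :=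
  ∑ k, (pd k (christoffel g k i j) x - pd j (christoffel g k i k) x +
    ∑ l, (christoffel g k k l x * christoffel g l i j x -
      christoffel g k j l x * christoffel g l i k x))

/-- Nonnegative Ricci curvature. -/
def RicciNonneg (g : Pt n → Matrix (Fin n) (Fin n) ℝ) : Prop :=
  ∀ x v : Pt n, 0 ≤ ∑ i, ∑ j, ricci g i j x * v i * v j

/-- Laplace-Beltrami operator. -/
noncomputable def laplacian (g : Pt n → Matrix (Fin n) (Fin n) ℝ) (u : Pt n → ℝ) (x : Pt n) : ℝ :=
  ∑ i, ∑ j, (g x)⁻¹ i j * (pd i (pd j u) x - ∑ k, christoffel g k i j x * pd k u x)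

/-- Length of a curve parametrized by `[0,1]`. -/
noncomputable def curveLength (g : Pt n → Matrix (Fin n) (Fin n) ℝ) (γ : ℝ → Pt n) : ℝ :=
  ∫ t in (0:ℝ)..1, Real.sqrt (∑ i, ∑ j, g (γ t) i j * deriv γ t i * deriv γ t j)

/-- Riemannian distance: infimum of lengths of continuously differentiable curves. -/
noncomputable def gdist (g : Pt n → Matrix (Fin n) (Fin n) ℝ) (x y : Pt n) : ℝ :=
  sInf {l : ℝ | ∃ γ : ℝ → Pt n, ContDiff ℝ 1 γ ∧ γ 0 = x ∧ γ 1 = y ∧ l = curveLength g γ}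

/-- Metric completeness for the Riemannian distance. -/
def IsCompleteMetric (g : Pt n → Matrix (Fin n) (Fin n) ℝ) : Prop :=
  ∀ s : ℕ → Pt n, (∀ ε > 0, ∃ M, ∀ a ≥ M, ∀ b ≥ M, gdist g (s a) (s b) < ε) →
    ∃ x, Tendsto (fun m => gdist g (s m) x) atTop (𝓝 0)

/-- Smooth harmonic functions with growth at most `(1 + dist(0,x))^k`. -/
def IsPolyHarmonic (g : Pt n → Matrix (Fin n) (Fin n) ℝ) (k : ℕ) (u : Pt n → ℝ) : Prop :=
  ContDiff ℝ ∞ u ∧ (∀ x, laplacian g u x = 0) ∧
    ∃ C : ℝ, ∀ x, |u x| ≤ C * (1 + gdist g 0 x) ^ k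

end Vale.Agent.P225
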