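import Vale.Agent.P225.Interfaces

/-!
P225: interfaces for the two assembly modules.
(F) `Metric.lean`: `metricFromProfile : MetricStmt` (may use `bergerCalc` or take it as hypothesis).
(G) `Steer.lean`: `steer : SteerStmt`.
-/

open scoped BigOperators ContDiff
open Filter Topology

namespace Vale.Agent.P225

/-- The functions defining the metric: `w = ρ'/ρ`, the squashing `s` and the complex structure. -/
structure Profile (j : ℕ) where
  w : ℝ → ℝ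
  rho : ℝ → ℝ
  s : ℝ → ℝ
  J : ℝ → Matrix (Fin (amb j)) (Fin (amb j)) ℝ

/-- The horizontal scale `ρ² e^{-s/N}`. -/
noncomputable def Profile.aF {j : ℕ} (S : Profile j) (t : ℝ) : ℝ :=
  S.rho t ^ 2 * Real.exp (-(S.s t / (2 * j + 1)))

/-- The vertical scale `ρ² e^{s(1-1/N)}`. -/
noncomputable def Profile.vF {j : ℕ} (S : Profile j) (t : ℝ) : ℝ :=
  S.rho t ^ 2 * Real.exp (S.s t - S.s t / (2 * j + 1))

/-- Requirements on a profile: regularity, flatness for `t ≤ 0`, and the three curvature signs. -/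
structure Profile.Good {j : ℕ} (S : Profile j) : Prop where
  smooth_w : ContDiff ℝ ∞ S.w
  smooth_s : ContDiff ℝ ∞ S.s
  deriv_rho : ∀ t, HasDerivAt S.rho (S.w t * S.rho t) t
  bounds : ∃ lo : ℝ, 0 < lo ∧ ∃ B : ℝ, ∀ t, lo ≤ S.rho t ∧ S.rho t ≤ B ∧ |S.s t| ≤ B
  flat : ∀ t ≤ 0, S.w t = 0 ∧ S.s t = 0 ∧ S.rho t = 1
  isCS : ∀ t, IsCS (S.J t)
  locJ : ∀ t, ∃ J₀, IsCS J₀ ∧ ∀ᶠ u in 𝓝 t, S.s u = 0 ∨ S.J u = J₀
  curvR : ∀ t, 0 ≤ -(2 * j + 1 : ℝ) * (S.w t + deriv S.w t + S.w t ^ 2) -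
      j * deriv S.s t ^ 2 / (2 * (2 * j + 1))
  curvH : ∀ t,
    let N : ℝ := 2 * j + 1
    let al := S.w t - deriv S.s t / (2 * N)
    let al' := deriv S.w t - deriv (deriv S.s) t / (2 * N)
    0 ≤ (2 * j + 2 - 2 * Real.exp (S.s t)) * Real.exp (S.s t / N) / S.rho t ^ 2 + 1 + al - al' -
      N * (1 + S.w t) * (1 + al)
  curvV : ∀ t,
    let N : ℝ := 2 * j + 1
    let nu := S.w t + deriv S.s t * (N - 1) / (2 * N)
    let nu' := deriv S.w t + deriv (deriv S.s) t * (N - 1) / (2 * N)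
    0 ≤ 2 * j * Real.exp (S.s t + S.s t / N) / S.rho t ^ 2 + 1 + nu - nu' -
      N * (1 + S.w t) * (1 + nu)

/-- MODULE F: the metric of a good profile, and its harmonic functions from solutions of the
radial systems. -/
def MetricStmt : Prop :=
  ∀ (j : ℕ), 1 ≤ j → ∀ S : Profile j, S.Good →
  ∃ g : Pt (amb j) → Matrix (Fin (amb j)) (Fin (amb j)) ℝ,
    IsMetric g ∧ IsCompleteMetric g ∧ RicciNonneg g ∧
    ∀ (k L d : ℕ), 1 ≤ L → ∀ (b : Fin d → MvPolynomial (Fin (amb j)) ℝ),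
      (∀ i, b i ∈ harm (amb j) L) →
    ∀ (A : ℝ → Matrix (Fin d) (Fin d) ℝ),
      (∀ t m, qOp (S.J t) (b m) = ∑ i, A t i m • b i) →
    ∀ (φ : Fin d → ℝ → ℝ) (c : Fin d → ℝ) (C : ℝ), (∀ i, ContDiff ℝ ∞ (φ i)) →
      (∀ i t, deriv (deriv (φ i)) t + (2 * j + (2 * j + 1) * S.w t) * deriv (φ i) t =
        Real.exp (S.s t / (2 * j + 1)) / S.rho t ^ 2 *
          ((L * (L + 2 * j) : ℝ) * φ i t + (Real.exp (-S.s t) - 1) * ∑ m, A t i m * φ m t)) →
      (∀ i, ∀ t ≤ 0, φ i t = c i * Real.exp (L * t)) →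
      (∀ i t, 0 ≤ t → |φ i t| ≤ C * Real.exp (k * t)) →
      ∃ u : Pt (amb j) → ℝ, IsPolyHarmonic g k u ∧
        ∀ x, rad x < 1 → u x = ∑ i, c i * MvPolynomial.eval x (b i)

/-- One level as a Euclidean space. -/
abbrev Lev (d : ℕ) := EuclideanSpace ℝ (Fin d)

/-- Tuples of operators on the levels. -/
abbrev Tup {Lm : ℕ} (d : Fin Lm → ℕ) := (l : Fin Lm) → (Lev (d l) →L[ℝ] Lev (d l))

/-- Ordered product of exponentials, later slots on the left. -/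
noncomputable def slotExp {Lm : ℕ} {d : Fin Lm → ℕ} {P : ℕ} (Q : Fin P → Tup d) (c : Fin P → ℝ) :
    Tup d :=
  (List.ofFn fun k => NormedSpace.exp (c k • Q k)).reverse.prod

/-- MODULE G: if operators `𝒬` Lie-generate all trace-zero tuples, some word in their exponentials
robustly reaches a signed version of any given permutations, up to scalars on each level. -/
def SteerStmt : Prop :=
  ∀ (Lm : ℕ) (d : Fin Lm → ℕ) (gens : Set (Tup d)),
    (∀ H : Submodule ℝ (Tup d), gens ⊆ H → (∀ Q ∈ gens, ∀ X ∈ H, Q * X - X * Q ∈ H) →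
      ∀ X : Tup d, (∀ l, LinearMap.trace ℝ _ (X l).toLinearMap = 0) → X ∈ H) →
    ∀ σ : (l : Fin Lm) → Equiv.Perm (Fin (d l)),
    ∃ T : Tup d, (∀ l i, ∃ a : ℝ, a ≠ 0 ∧
        T l (EuclideanSpace.single i 1) = a • EuclideanSpace.single (σ l i) 1) ∧
      ∃ (P : ℕ) (Q : Fin P → Tup d) (B η : ℝ), (∀ k, Q k ∈ gens) ∧ 0 < η ∧
        ∀ Z : (Fin P → ℝ) → Tup d, Continuous Z →
          (∀ c, ‖c‖ ≤ B → ‖Z c - slotExp Q c‖ ≤ η) →
          ∃ c, ‖c‖ ≤ B ∧ ∃ a : Fin Lm → ℝ, ∀ l, a l ≠ 0 ∧ Z c l = a l • T l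

end Vale.Agent.P225
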