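import Vale.Agent.P225.Sys

/-! P225: bounds and positivity of the coefficient operators. -/

open Set Filter Topology
open scoped ContDiff RealInnerProductSpace

namespace Vale.Agent.P225

variable {d P : ℕ} (D : LevelData d P) (e : Env)

theorem contDiff_combination {W : Type*} [NormedAddCommGroup W] [NormedSpace ℝ W] {f h : ℝ → ℝ}
    {g : Fin P → ℝ → ℝ} (C0 Z : W) (Q : Fin P → W) (hf : ContDiff ℝ ∞ f) (hh : ContDiff ℝ ∞ h)
    (hg : ∀ k, ContDiff ℝ ∞ (g k)) :
    ContDiff ℝ ∞ fun t => f t • (C0 + ((∑ k, g k t • Q k) + h t • Z)) :=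
  hf.fun_smul (contDiff_const.add ((ContDiff.sum fun k _ => (hg k).fun_smul contDiff_const).add
    (hh.fun_smul contDiff_const)))

theorem continuous_combination {W X : Type*} [NormedAddCommGroup W] [NormedSpace ℝ W]
    [TopologicalSpace X] {f h : X → ℝ} {g : Fin P → X → ℝ} (C0 Z : W) (Q : Fin P → W)
    (hf : Continuous f) (hh : Continuous h) (hg : ∀ k, Continuous (g k)) :
    Continuous fun t => f t • (C0 + ((∑ k, g k t • Q k) + h t • Z)) :=
  hf.fun_smul (continuous_const.add ((continuous_finsetSum _ fun k _ =>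
    (hg k).fun_smul continuous_const).add (hh.fun_smul continuous_const)))

theorem lamN_contDiff (ν : ℕ) (c : Fin P → ℝ) : ContDiff ℝ ∞ (D.lamN e ν c) := by
  have hf : ContDiff ℝ ∞ fun t => Real.exp ((parN P e.sd ν).sFun c t / 41) / e.ρ t ^ 2 := by
    refine ContDiff.fun_div ?_ (e.rho_contDiff.pow 2) fun t => (pow_pos (e.rho_pos t) 2).ne'
    exact ((CycPar.sFun_contDiff (p := parN P e.sd ν) c).div_const 41).exp
  have hh : ContDiff ℝ ∞ fun t => Real.exp (-(parN P e.sd ν).plateau t) - 1 :=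
    ContDiff.sub (CycPar.plateau_contDiff (p := parN P e.sd ν)).neg.exp contDiff_const
  have hg : ∀ k, ContDiff ℝ ∞ fun t => Real.exp (-(c k * (parN P e.sd ν).pulse k t)) - 1 := fun k =>
    ContDiff.sub
      (ContDiff.mul (contDiff_const (c := c k)) (CycPar.pulse_contDiff (p := parN P e.sd ν) k)).neg.exp
      contDiff_const
  exact contDiff_combination (D.lam • (1 : Op d)) D.Q0 D.Qs hf hh hg

theorem lamN_continuous_pair (ν : ℕ) :
    Continuous fun q : (Fin P → ℝ) × ℝ => D.lamN e ν q.1 q.2 := by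
  have hp : ∀ k : Fin P, Continuous fun q : (Fin P → ℝ) × ℝ =>
      q.1 k * (parN P e.sd ν).pulse k q.2 := fun k =>
    ((continuous_apply k).comp continuous_fst).mul
      ((CycPar.pulse_contDiff (p := parN P e.sd ν) k).continuous.comp continuous_snd)
  have hs : Continuous fun q : (Fin P → ℝ) × ℝ =>
      (∑ k : Fin P, q.1 k * (parN P e.sd ν).pulse k q.2) + (parN P e.sd ν).plateau q.2 :=
    (continuous_finsetSum _ fun k _ => hp k).add
      ((CycPar.plateau_contDiff (p := parN P e.sd ν)).continuous.comp continuous_snd)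
  exact continuous_combination (D.lam • (1 : Op d)) D.Q0 D.Qs
    ((hs.div_const _).rexp.div₀ ((e.rho_continuous.comp continuous_snd).pow 2)
      fun q => (pow_pos (e.rho_pos q.2) 2).ne')
    (((CycPar.plateau_contDiff (p := parN P e.sd ν)).continuous.comp continuous_snd).neg.rexp.sub
      continuous_const)
    (fun k => ((hp k).neg.rexp).sub continuous_const)

/-- Coordinates of the dwell operator. -/
noncomputable def LevelData.lamC (ν : ℕ) (i : Fin d) (t : ℝ) : ℝ :=
  Real.exp ((parN P e.sd ν).plateau t / 41) / e.ρ t ^ 2 *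
    (D.lam + (Real.exp (-(parN P e.sd ν).plateau t) - 1) * D.m i ^ 2)

theorem lamC_nonneg {ν : ℕ} (hν : 1 ≤ ν) (i : Fin d) (t : ℝ) : 0 ≤ D.lamC e ν i t := by
  have hp := parN_ok (P := P) e.sd_pos.le hν
  have h1 := (CycPar.plateau_mem hp t).1
  have h2 := Real.exp_pos (-(parN P e.sd ν).plateau t)
  have h3 : Real.exp (-(parN P e.sd ν).plateau t) ≤ 1 := Real.exp_le_one_iff.mpr (by linarith)
  have h4 := D.m_le i
  have h5 : 0 ≤ D.lam + (Real.exp (-(parN P e.sd ν).plateau t) - 1) * D.m i ^ 2 := by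
    nlinarith [mul_nonneg h2.le (sq_nonneg (D.m i))]
  have := e.rho_pos t
  simp only [LevelData.lamC]
  positivity

theorem lamC_continuous (ν : ℕ) (i : Fin d) : Continuous (D.lamC e ν i) := by
  have hc := (CycPar.plateau_contDiff (p := parN P e.sd ν)).continuous
  exact ((hc.div_const _).rexp.div₀ (e.rho_continuous.pow 2)
    fun t => (pow_pos (e.rho_pos t) 2).ne').mul
      (continuous_const.add ((hc.neg.rexp.sub continuous_const).mul continuous_const))

/-- After the pulses the operator is diagonal. -/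
theorem lamN_apply_of_late {ν : ℕ} (hν : 1 ≤ ν) {t : ℝ}
    (ht : (parN P e.sd ν).E + (parN P e.sd ν).R ≤ t) (c : Fin P → ℝ) (v : Lev d) (i : Fin d) :
    D.lamN e ν c t v i = D.lamC e ν i t * v i := by
  have hp := parN_ok (P := P) e.sd_pos.le hν
  have hz : ∀ k : Fin P, (parN P e.sd ν).pulse k t = 0 := fun k =>
    CycPar.pulse_eq_zero_outside hp k (Or.inr ht)
  have hs : (parN P e.sd ν).sFun c t = (parN P e.sd ν).plateau t := by
    show (∑ k : Fin P, c k * (parN P e.sd ν).pulse k t) + _ = _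
    rw [Finset.sum_eq_zero fun k _ => by rw [hz k, mul_zero], zero_add]
  have hsum : (∑ k : Fin P, (Real.exp (-(c k * (parN P e.sd ν).pulse k t)) - 1) • D.Qs k) = 0 :=
    Finset.sum_eq_zero fun k _ => by
      rw [hz k, mul_zero, neg_zero, Real.exp_zero, sub_self]
      exact zero_smul ℝ (D.Qs k)
  simp only [LevelData.lamN, LevelData.lamC, hsum, hs, zero_add, smul_apply, add_apply, PiLp.smul_apply,
    PiLp.add_apply, one_apply_eq_self, smul_eq_mul, D.Q0_apply]
  ring

theorem inner_Q0 (v : Lev d) : ⟪v, D.Q0 v⟫ = ∑ i, D.m i ^ 2 * v i ^ 2 := by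
  rw [PiLp.inner_apply]
  refine Finset.sum_congr rfl fun i _ => ?_
  rw [D.Q0_apply]
  simp [sq]
  ring

/-- Positivity and boundedness, uniformly over bounded coefficients. -/
theorem lamN_bounds (Bc : ℝ) :
    ∃ Lb : ℝ, 0 ≤ Lb ∧ ∀ᶠ ν in atTop, ∀ c : Fin P → ℝ, ‖c‖ ≤ Bc → ∀ t,
      ‖D.lamN e ν c t‖ ≤ Lb ∧ ∀ x, 0 ≤ ⟪x, D.lamN e ν c t x⟫ := by
  obtain ⟨C, hC0, hC⟩ := exists_sched_bound P e.sd (max Bc 0) e.sd_pos.le (le_max_right _ _)
  set B := max Bc 0
  set S := ∑ k, ‖D.Qs k‖
  refine ⟨Real.exp (e.sd + 1) / e.ρi ^ 2 * (D.lam + (S + ‖D.Q0‖)), by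
    have := D.lam_pos
    have : 0 ≤ S := Finset.sum_nonneg fun k _ => norm_nonneg _
    positivity, ?_⟩
  have ev : ∀ᶠ ν : ℕ in atTop, 1 ≤ ν ∧ C / (ν : ℝ) ^ 7 ≤ 1 ∧ B * C / (ν : ℝ) ^ 7 ≤ 1 / 2 ∧
      2 * (B * C / (ν : ℝ) ^ 7) * S ≤ D.lam := by
    refine (eventually_ge_atTop 1).and ?_
    refine ((tendsto_const_nhds.div_atTop tendsto_parN_R).eventually_le_const one_pos).and ?_
    have h : Tendsto (fun ν : ℕ => B * C / (ν : ℝ) ^ 7) atTop (𝓝 0) :=
      tendsto_const_nhds.div_atTop tendsto_parN_R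
    refine (h.eventually_le_const (by norm_num)).and ?_
    have h2 := (h.const_mul 2).mul_const S
    rw [mul_zero, zero_mul] at h2
    exact h2.eventually_le_const D.lam_pos
  filter_upwards [ev] with ν ⟨hν, hν1, hν2, hν3⟩ c hc t
  set p := parN P e.sd ν
  have hp : p.OK := parN_ok e.sd_pos.le hν
  have hck : ∀ k, |c k| ≤ B := fun k =>
    ((Real.norm_eq_abs _).symm.trans_le (norm_le_pi_norm c k)).trans (hc.trans (le_max_left _ _))
  obtain ⟨hpu, -, -, hhi, -, -⟩ := hC p hp rfl rfl c hck t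
  set a := B * C / (ν : ℝ) ^ 7
  have hak : ∀ k, |c k * p.pulse k t| ≤ a := fun k => by
    rw [abs_mul]
    exact (mul_le_mul (hck k) (hpu k) (abs_nonneg _) (le_max_right _ _)).trans_eq (by
      simp only [a, p]; ring)
  have hek : ∀ k, |Real.exp (-(c k * p.pulse k t)) - 1| ≤ 2 * a := fun k => by
    refine (Real.abs_exp_sub_one_le ?_).trans ?_
    · rw [abs_neg]; exact (hak k).trans (hν2.trans (by norm_num))
    · rw [abs_neg]; linarith [hak k]
  have hepl : |Real.exp (-p.plateau t) - 1| ≤ 1 := by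
    have := (CycPar.plateau_mem hp t).1
    rw [abs_le]
    exact ⟨by linarith [Real.exp_pos (-p.plateau t)],
      by linarith [Real.exp_le_one_iff.mpr (show -p.plateau t ≤ 0 by linarith)]⟩
  set fac := Real.exp (p.sFun c t / 41) / e.ρ t ^ 2
  have hfac0 : 0 ≤ fac := by positivity
  have hfac : fac ≤ Real.exp (e.sd + 1) / e.ρi ^ 2 := by
    refine div_le_div₀ (Real.exp_pos _).le (Real.exp_le_exp.mpr ?_) (pow_pos e.ρi_pos 2)
      (pow_le_pow_left₀ e.ρi_pos.le (e.rad.lower t) 2)
    have h1 : p.sFun c t ≤ e.sd + 1 := hhi.trans (max_le (by linarith)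
      ((show C / p.R ≤ 1 from hν1).trans (by linarith [e.sd_pos])))
    linarith [e.sd_pos]
  constructor
  · simp only [LevelData.lamN]
    rw [norm_smul, Real.norm_of_nonneg hfac0]
    refine mul_le_mul hfac ?_ (norm_nonneg _) (by positivity)
    refine (norm_add_le _ _).trans (add_le_add ?_ ((norm_add_le _ _).trans (add_le_add ?_ ?_)))
    · rw [norm_smul, Real.norm_of_nonneg D.lam_pos.le]
      exact mul_le_of_le_one_right D.lam_pos.le ContinuousLinearMap.norm_id_le
    · refine (norm_sum_le _ _).trans (Finset.sum_le_sum fun k _ => ?_)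
      rw [norm_smul, Real.norm_eq_abs]
      exact mul_le_of_le_one_left (norm_nonneg _) ((hek k).trans (by linarith))
    · rw [norm_smul, Real.norm_eq_abs]
      exact mul_le_of_le_one_left (norm_nonneg _) hepl
  · intro x
    simp only [LevelData.lamN, smul_apply, real_inner_smul_right]
    refine mul_nonneg hfac0 ?_
    simp only [add_apply, smul_apply, one_apply_eq_self, sum_apply, inner_add_right, inner_sum,
      real_inner_smul_right, real_inner_self_eq_norm_sq]
    rcases le_or_gt t (p.E + 2 * p.R) with ht | ht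
    · rw [CycPar.plateau_eq_zero hp (Or.inl ht), neg_zero, Real.exp_zero, sub_self, zero_mul, add_zero]
      have h1 : |∑ k, (Real.exp (-(c k * p.pulse k t)) - 1) * ⟪x, D.Qs k x⟫| ≤
          2 * a * S * ‖x‖ ^ 2 := by
        refine (Finset.abs_sum_le_sum_abs _ _).trans ?_
        rw [Finset.mul_sum, Finset.sum_mul]
        refine Finset.sum_le_sum fun k _ => ?_
        rw [abs_mul, mul_assoc (2 * a)]
        refine mul_le_mul (hek k) ?_ (abs_nonneg _) (by linarith [(abs_nonneg _).trans (hek k)])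
        refine (abs_real_inner_le_norm _ _).trans ?_
        calc ‖x‖ * ‖D.Qs k x‖ ≤ ‖x‖ * (‖D.Qs k‖ * ‖x‖) :=
              mul_le_mul_of_nonneg_left ((D.Qs k).le_opNorm _) (norm_nonneg _)
          _ = _ := by ring
      have h2 := mul_le_mul_of_nonneg_right hν3 (sq_nonneg ‖x‖)
      linarith [neg_le_of_abs_le h1]
    · have hz : ∀ k : Fin P, p.pulse k t = 0 := fun k =>
        CycPar.pulse_eq_zero_outside hp k (Or.inr (by linarith [CycPar.R_pos hp]))
      rw [Finset.sum_eq_zero fun (k : Fin P) _ => show (Real.exp (-(c k * p.pulse k t)) - 1) *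
        ⟪x, D.Qs k x⟫ = 0 by rw [hz k, mul_zero, neg_zero, Real.exp_zero, sub_self, zero_mul],
        zero_add]
      rw [inner_Q0, EuclideanSpace.norm_sq_eq, Finset.mul_sum, Finset.mul_sum,
        ← Finset.sum_add_distrib]
      refine Finset.sum_nonneg fun i _ => ?_
      have h3 := Real.exp_pos (-p.plateau t)
      have h4 : 0 ≤ (D.lam - D.m i ^ 2 + Real.exp (-p.plateau t) * D.m i ^ 2) * x i ^ 2 :=
        mul_nonneg (by nlinarith [D.m_le i, mul_nonneg h3.le (sq_nonneg (D.m i))]) (sq_nonneg _)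
      rw [Real.norm_eq_abs, sq_abs]
      linarith

end Vale.Agent.P225
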