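import Vale.Agent.P225.Interfaces3

/-!
P225 module H: bases of the levels, the matrices of `Q_J`, and Lie fullness transported from
endomorphisms of harmonic polynomials to operators on Euclidean spaces.
-/

open scoped BigOperators
open Module

namespace Vale.Agent.P225
namespace LevelsAux

theorem isCS_stdJ (j : ℕ) : IsCS (stdJ j) := by
  have hskew : ∀ a k : Fin (amb j), stdJ j k a = -stdJ j a k := by
    intro a k
    simp only [stdJ, Matrix.of_apply]
    split_ifs <;> first | (norm_num; done) | (exfalso; omega)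
  refine ⟨Matrix.ext fun a k => by simpa using hskew a k, ?_⟩
  -- the partner of an index
  have hex : ∀ a : Fin (amb j), ∃ p : Fin (amb j),
      ((a : ℕ) % 2 = 1 → (p : ℕ) + 1 = a) ∧ ((a : ℕ) % 2 = 0 → (a : ℕ) + 1 = p) := by
    intro a
    have h : (a : ℕ) < 2 * (j + 1) := a.isLt
    rcases Nat.mod_two_eq_zero_or_one (a : ℕ) with ha | ha
    · exact ⟨⟨(a : ℕ) + 1, by simp only [amb]; omega⟩, fun h' => by omega, fun _ => rfl⟩
    · exact ⟨⟨(a : ℕ) - 1, by simp only [amb]; omega⟩, fun _ => by simp; omega, fun h' => by omega⟩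
  choose pt hp1 hp0 using hex
  have hz : ∀ a k, k ≠ pt a → stdJ j a k = 0 := by
    intro a k hne
    have hne' : (k : ℕ) ≠ (pt a : ℕ) := fun h => hne (Fin.ext h)
    have h1 := hp1 a
    have h0 := hp0 a
    simp only [stdJ, Matrix.of_apply]
    split_ifs <;> first | (norm_num; done) | (exfalso; omega)
  have hsq : ∀ a, stdJ j a (pt a) * stdJ j (pt a) a = -1 := by
    intro a
    have h1 := hp1 a
    have h0 := hp0 a
    simp only [stdJ, Matrix.of_apply]
    split_ifs <;> first | (norm_num; done) | (exfalso; omega)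
  have hpp : ∀ a, pt (pt a) = a := by
    intro a
    have h1 := hp1 a
    have h0 := hp0 a
    have h1' := hp1 (pt a)
    have h0' := hp0 (pt a)
    exact Fin.ext (by omega)
  ext a k
  rw [Matrix.mul_apply, Finset.sum_eq_single (pt a) (fun b _ hb => by rw [hz a b hb, zero_mul])
    (fun h => absurd (Finset.mem_univ _) h), Matrix.neg_apply]
  rcases eq_or_ne k a with rfl | hne
  · rw [hsq, Matrix.one_apply_eq]
  · rw [hz (pt a) k (by rw [hpp]; exact hne), mul_zero, Matrix.one_apply_ne (Ne.symm hne), neg_zero]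

theorem fischer_sum_smul {n : ℕ} {ι : Type*} [Fintype ι] (P : MvPolynomial (Fin n) ℝ) (g : ι → ℝ)
    (R : ι → MvPolynomial (Fin n) ℝ) :
    fischer P (∑ i, g i • R i) = ∑ i, g i * fischer P (R i) := by
  simp only [fischer, MvPolynomial.coeff_sum, MvPolynomial.coeff_smul, smul_eq_mul, Finset.mul_sum]
  rw [Finset.sum_comm]
  exact Finset.sum_congr rfl fun i _ => Finset.sum_congr rfl fun e _ => by ring

theorem linearIndependent_of_orthonormal {n d : ℕ} {b : Fin d → MvPolynomial (Fin n) ℝ}
    (h : ∀ i k, fischer (b i) (b k) = if i = k then 1 else 0) : LinearIndependent ℝ b := by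
  rw [Fintype.linearIndependent_iff]
  intro g hg k
  have h0 := fischer_sum_smul (b k) g b
  rw [hg] at h0
  simp only [fischer, MvPolynomial.coeff_zero, mul_zero, Finset.sum_const_zero] at h0
  rw [Finset.sum_eq_single k (fun i _ hi => by
      have := h k i; rw [if_neg (Ne.symm hi)] at this; rw [← fischer, this, mul_zero])
    (fun hk => absurd (Finset.mem_univ _) hk)] at h0
  have := h k k
  rw [if_pos rfl] at this
  rw [← fischer, this, mul_one] at h0
  exact h0.symm

theorem smul_commutator {E : Type*} [NormedAddCommGroup E] [NormedSpace ℝ E] (r : ℝ)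
    (f g : E →L[ℝ] E) : r • (f * g - g * f) = (r • f) * g - g * (r • f) := by
  ext x
  simp [smul_sub]

end LevelsAux

open LevelsAux in
theorem levels (hE : EigenbasisStmt) (hL : LieFullStmt) : LevelsStmt := by
  intro Lm
  have hE' := fun l : Fin Lm => (hE 20 ((l : ℕ) + 2) (by norm_num)).2
  choose d b m hb hon hspan hQ hm hcard using hE'
  have hli : ∀ l, LinearIndependent ℝ (b l) := fun l => linearIndependent_of_orthonormal (hon l)
  -- bases of the levels
  let v : (l : Fin Lm) → Fin (d l) → harm (amb 20) ((l : ℕ) + 2) := fun l i => ⟨b l i, hb l i⟩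
  have hliv : ∀ l, LinearIndependent ℝ (v l) := fun l =>
    LinearIndependent.of_comp (Submodule.subtype _) (hli l)
  have hspv : ∀ l, ⊤ ≤ Submodule.span ℝ (Set.range (v l)) := by
    intro l x _
    apply (Submodule.apply_mem_span_image_iff_mem_span
      (Submodule.injective_subtype (harm (amb 20) ((l : ℕ) + 2)))).1
    rw [← Set.range_comp]
    show (x : MvPolynomial (Fin (amb 20)) ℝ) ∈ Submodule.span ℝ (Set.range (b l))
    rw [hspan l]
    exact x.2
  let B := fun l => Basis.mk (hliv l) (hspv l)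
  have hBv : ∀ (l : Fin Lm) i, ((B l i : harm (amb 20) ((l : ℕ) + 2)) : MvPolynomial (Fin (amb 20)) ℝ) =
      b l i := fun l i => by simp [B, v]
  let A : CS20 → (l : Fin Lm) → Matrix (Fin (d l)) (Fin (d l)) ℝ := fun J l =>
    LinearMap.toMatrix (B l) (B l) (qRes J ((l : ℕ) + 2))
  have hA : ∀ (J : CS20) l k, qOp J.1 (b l k) = ∑ i, A J l i k • b l i := by
    intro J l k
    have h := congrArg Subtype.val ((B l).sum_repr (qRes J ((l : ℕ) + 2) (B l k)))
    simp only [Submodule.coe_sum, Submodule.coe_smul, hBv] at h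
    simp only [A, LinearMap.toMatrix_apply]
    rw [h, qRes, LinearMap.coe_restrict_apply, hBv]
  refine ⟨d, b, m, A, hb, hli, hA, ?_, hm, hcard, isCS_stdJ 20, ?_⟩
  · intro J hJ l
    ext i k
    have h : qRes J ((l : ℕ) + 2) (B l k) = ((m l k : ℝ) ^ 2) • B l k := by
      apply Subtype.ext
      rw [Submodule.coe_smul, qRes, LinearMap.coe_restrict_apply, hBv, hJ, hQ]
    simp only [A, LinearMap.toMatrix_apply, h, map_smul, Basis.repr_self, Finsupp.smul_single,
      smul_eq_mul, mul_one]
    rcases eq_or_ne k i with rfl | hne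
    · simp
    · simp [Ne.symm hne]
  intro c hc H hgen hcomm X hX
  -- endomorphisms of the levels as operators
  let Φ : ((l : Fin Lm) → Module.End ℝ (harm (amb 20) ((l : ℕ) + 2))) →ₗ[ℝ] Tup d :=
    { toFun := fun Y l => Matrix.toEuclideanCLM (𝕜 := ℝ) (LinearMap.toMatrix (B l) (B l) (Y l))
      map_add' := fun Y Z => funext fun l => by simp
      map_smul' := fun a Y => funext fun l => by simp }
  have hmul : ∀ (l : Fin Lm) (Y Z : Module.End ℝ (harm (amb 20) ((l : ℕ) + 2))),
      LinearMap.toMatrix (B l) (B l) (Y * Z) =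
        LinearMap.toMatrix (B l) (B l) Y * LinearMap.toMatrix (B l) (B l) Z :=
    fun l Y Z => LinearMap.toMatrix_mul (B l) Y Z
  have hsubm : ∀ (l : Fin Lm) (Y Z : Module.End ℝ (harm (amb 20) ((l : ℕ) + 2))),
      LinearMap.toMatrix (B l) (B l) (Y - Z) =
        LinearMap.toMatrix (B l) (B l) Y - LinearMap.toMatrix (B l) (B l) Z :=
    fun l Y Z => map_sub _ Y Z
  have hfull := hL 20 Lm (by norm_num) c hc (H.comap Φ)
    (fun J => by
      show Φ _ ∈ H
      refine hgen ⟨J, funext fun l => ?_⟩
      simp [Φ, A])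
    (fun J Y hY => by
      have := hcomm _ ⟨J, rfl⟩ (Φ Y) hY
      show Φ _ ∈ H
      convert this using 1
      funext l
      simp only [Φ, A, LinearMap.coe_mk, AddHom.coe_mk, Pi.sub_apply, Pi.mul_apply, map_smul]
      rw [hsubm, hmul, hmul, map_sub, map_mul, map_mul, smul_commutator])
  let Y : (l : Fin Lm) → Module.End ℝ (harm (amb 20) ((l : ℕ) + 2)) := fun l =>
    (LinearMap.toMatrix (B l) (B l)).symm ((Matrix.toEuclideanCLM (𝕜 := ℝ)).symm (X l))
  have hΦ : Φ Y = X := funext fun l => by simp [Φ, Y]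
  have := hfull Y fun l => by
    rw [LinearMap.trace_eq_matrix_trace ℝ (B l), show LinearMap.toMatrix (B l) (B l) (Y l) =
      (Matrix.toEuclideanCLM (𝕜 := ℝ)).symm (X l) by simp [Y]]
    obtain ⟨M, hM⟩ : ∃ M, Matrix.toEuclideanCLM (n := Fin (d l)) (𝕜 := ℝ) M = X l :=
      ⟨_, StarAlgEquiv.apply_symm_apply _ _⟩
    have hx := hX l
    rw [← hM] at hx ⊢
    rw [StarAlgEquiv.symm_apply_apply]
    rw [Matrix.coe_toEuclideanCLM_eq_toEuclideanLin, Matrix.toEuclideanLin, Matrix.toLpLin_eq_toLin,
      Matrix.trace_toLin_eq] at hx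
    exact hx
  exact hΦ ▸ this

end Vale.Agent.P225
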