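import Vale.Agent.P225.Interfaces
import Vale.Agent.P225.LieFull.Sl
import Vale.Agent.P225.LieFull.Span

/-! P225 MODULE C2: proof of `LieFullStmt`. -/

open scoped BigOperators Matrix
open MvPolynomial

namespace Vale.Agent.P225.LieFull

variable {n : ℕ}

/-! ### restriction to a level -/

/-- A projection onto level `L`. -/
noncomputable def proj (n L : ℕ) : CP n →ₗ[ℂ] V n L :=
  ((V n L).subtype.exists_leftInverse_of_injective (Submodule.ker_subtype _)).choose

theorem proj_coe {L : ℕ} (f : V n L) : proj n L f.1 = f :=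
  LinearMap.congr_fun
    ((V n L).subtype.exists_leftInverse_of_injective (Submodule.ker_subtype _)).choose_spec f

/-- Compression of an operator to level `L`. -/
noncomputable def res (L : ℕ) : CE n →ₗ[ℂ] Module.End ℂ (V n L) where
  toFun Y := proj n L ∘ₗ Y ∘ₗ (V n L).subtype
  map_add' Y Z := by ext f; simp
  map_smul' c Y := by ext f; simp

theorem res_apply (L : ℕ) (Y : CE n) (f : V n L) : res L Y f = proj n L (Y f.1) := rfl

theorem Qc_preserve {J : Matrix (Fin n) (Fin n) ℝ} (hJ : IsCS J) {L : ℕ} {f : CP n}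
    (hf : f ∈ V n L) : Qc J f ∈ V n L := by
  obtain ⟨g, h, hg, hh, rfl⟩ := V_re_im hf
  rw [map_add, map_smul, Qc_iota, Qc_iota]
  exact Submodule.add_mem _ (iota_mem_V (qOp_mem_harm hJ.1 hg))
    (Submodule.smul_mem _ _ (iota_mem_V (qOp_mem_harm hJ.1 hh)))

theorem G_preserve (k : ℕ) : ∀ {Y : CE n}, Y ∈ G k → ∀ {L : ℕ} {f : CP n}, f ∈ V n L →
    Y f ∈ V n L := by
  induction k with
  | zero =>
    intro Y hY
    rw [G] at hY
    induction hY using Submodule.span_induction with
    | mem x hx => obtain ⟨J, hJ, rfl⟩ := hx; exact Qc_preserve hJ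
    | zero => intro L f _; simp
    | add p q _ _ hp hq => intro L f hf; exact Submodule.add_mem _ (hp hf) (hq hf)
    | smul c p _ hp => intro L f hf; exact Submodule.smul_mem _ c (hp hf)
  | succ k ih =>
    intro Y hY
    rw [G] at hY
    induction hY using Submodule.span_induction with
    | mem x hx =>
      obtain ⟨J, hJ, g, hg, rfl⟩ := hx
      intro L f hf
      exact Submodule.sub_mem _ (Qc_preserve hJ (ih hg hf)) (ih hg (Qc_preserve hJ hf))
    | zero => intro L f _; simp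
    | add p q _ _ hp hq => intro L f hf; exact Submodule.add_mem _ (hp hf) (hq hf)
    | smul c p _ hp => intro L f hf; exact Submodule.smul_mem _ c (hp hf)

theorem res_cm {L : ℕ} {X Y : CE n} (hX : ∀ f ∈ V n L, X f ∈ V n L)
    (hY : ∀ f ∈ V n L, Y f ∈ V n L) : res L (cm X Y) = cm (res L X) (res L Y) := by
  refine LinearMap.ext fun f => ?_
  have hx : (proj n L (X f.1)).1 = X f.1 := by
    rw [show proj n L (X f.1) = ⟨_, hX _ f.2⟩ from proj_coe ⟨_, hX _ f.2⟩]
  have hy : (proj n L (Y f.1)).1 = Y f.1 := by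
    rw [show proj n L (Y f.1) = ⟨_, hY _ f.2⟩ from proj_coe ⟨_, hY _ f.2⟩]
  simp only [cm, LinearMap.sub_apply, Module.End.mul_apply, res_apply, map_sub, hx, hy]

theorem trace_G_succ (L k : ℕ) {Y : CE n} (hY : Y ∈ G (k + 1)) :
    LinearMap.trace ℂ (V n L) (res L Y) = 0 := by
  rw [G] at hY
  induction hY using Submodule.span_induction with
  | mem x hx =>
    obtain ⟨J, hJ, g, hg, rfl⟩ := hx
    rw [res_cm (fun f hf => Qc_preserve hJ hf) (fun f hf => G_preserve k hg hf), cm, map_sub,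
      LinearMap.trace_mul_comm, sub_self]
  | zero => simp
  | add p q _ _ hp hq => simp [hp, hq]
  | smul c p _ hp => simp [hp]

/-! ### complexification -/

/-- A real basis of level `L`. -/
noncomputable def rb (n L : ℕ) :
    Module.Basis (Fin (Module.finrank ℝ (harm n L))) ℝ (harm n L) :=
  Module.finBasis ℝ (harm n L)

noncomputable def cvec (n L : ℕ) (i : Fin (Module.finrank ℝ (harm n L))) : V n L :=
  ⟨iota (rb n L i).1, iota_mem_V (rb n L i).2⟩

theorem iota_combination (L : ℕ) (c : Fin (Module.finrank ℝ (harm n L)) → ℝ) :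
    (∑ i, (c i : ℂ) • cvec n L i).1 = iota (∑ i, c i • rb n L i).1 := by
  simp [cvec, Submodule.coe_sum, map_sum, iota_smul]

theorem cvec_li (L : ℕ) : LinearIndependent ℂ (cvec n L) := by
  rw [Fintype.linearIndependent_iff]
  intro c hc i
  have e : (∑ i, c i • cvec n L i) =
      (∑ i, ((c i).re : ℂ) • cvec n L i) + Complex.I • ∑ i, ((c i).im : ℂ) • cvec n L i := by
    rw [Finset.smul_sum, ← Finset.sum_add_distrib]
    refine Finset.sum_congr rfl fun k _ => ?_
    rw [smul_smul, ← add_smul, mul_comm Complex.I, Complex.re_add_im]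
  rw [e] at hc
  have h := congrArg Subtype.val hc
  rw [Submodule.coe_add, Submodule.coe_smul, iota_combination, iota_combination,
    Submodule.coe_zero] at h
  obtain ⟨h1, h2⟩ := re_im_unique h
  have hli := Fintype.linearIndependent_iff.mp (rb n L).linearIndependent
  exact Complex.ext (hli (fun k => (c k).re) (Subtype.ext h1) i)
    (hli (fun k => (c k).im) (Subtype.ext h2) i)

theorem cvec_span (L : ℕ) : ⊤ ≤ Submodule.span ℂ (Set.range (cvec n L)) := by
  intro f _
  obtain ⟨g, h, hg, hh, e⟩ := V_re_im f.2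
  have key : ∀ (g : MvPolynomial (Fin n) ℝ) (hg : g ∈ harm n L),
      (⟨iota g, iota_mem_V hg⟩ : V n L) ∈ Submodule.span ℂ (Set.range (cvec n L)) := by
    intro g hg
    have : (⟨iota g, iota_mem_V hg⟩ : V n L) =
        ∑ i, (((rb n L).repr ⟨g, hg⟩ i : ℝ) : ℂ) • cvec n L i := by
      apply Subtype.ext
      rw [iota_combination, (rb n L).sum_repr]
    rw [this]
    exact Submodule.sum_mem _ fun i _ => Submodule.smul_mem _ _ (Submodule.subset_span ⟨i, rfl⟩)
  have : f = ⟨iota g, iota_mem_V hg⟩ + Complex.I • ⟨iota h, iota_mem_V hh⟩ := Subtype.ext e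
  rw [this]
  exact Submodule.add_mem _ (key g hg) (Submodule.smul_mem _ _ (key h hh))

/-- The complex basis coming from the real one. -/
noncomputable def cb (n L : ℕ) :
    Module.Basis (Fin (Module.finrank ℝ (harm n L))) ℂ (V n L) :=
  Module.Basis.mk (cvec_li L) (cvec_span L)

theorem cb_apply (L : ℕ) (i : Fin (Module.finrank ℝ (harm n L))) : cb n L i = cvec n L i :=
  Module.Basis.mk_apply _ _ i

section Generic

variable {W : Type*} [AddCommGroup W] [Module ℂ W] {ι : Type*} [Fintype ι] [DecidableEq ι]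

theorem toMatrix_cm (b : Module.Basis ι ℂ W) (x y : Module.End ℂ W) :
    LinearMap.toMatrix b b (cm x y) =
      cm (LinearMap.toMatrix b b x) (LinearMap.toMatrix b b y) := by
  simp only [cm, map_sub, LinearMap.toMatrix_mul]

/-- The generation theorem in matrix form. -/
theorem traceless_mem_matrix (b : Module.Basis ι ℂ W) {κ : Type*} (v : κ → W)
    (B : W →ₗ[ℂ] W →ₗ[ℂ] ℂ) (hB : ∀ x y, B x y = B y x) (hnd : ∀ x, (∀ y, B x y = 0) → x = 0)
    (hv : ∀ a, v a ≠ 0)
    (hstar : ∀ a, Submodule.span ℂ {x | ∃ b, B (v a) (v b) ≠ 0 ∧ x = v b} = ⊤)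
    (hne : Nonempty κ) (k : Submodule ℂ (Matrix ι ι ℂ))
    (hk : ∀ X ∈ k, ∀ Y ∈ k, cm X Y ∈ k)
    (hE : ∀ a, LinearMap.toMatrix b b (rk B (v a) (v a)) ∈ k) :
    ∀ M : Matrix ι ι ℂ, M.trace = 0 → M ∈ k := by
  have : FiniteDimensional ℂ W := Module.Finite.of_basis b
  intro M hM
  have := traceless_mem v B hB hnd hv hstar hne
    (k.comap (LinearMap.toMatrix b b).toLinearMap) (fun X hX Y hY => by
      have := hk _ hX _ hY
      rwa [Submodule.mem_comap, LinearEquiv.coe_coe,
        show X * Y - Y * X = cm X Y from rfl, toMatrix_cm])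
    hE (Matrix.toLin b b M) (by
      rw [LinearMap.trace_eq_matrix_trace ℂ b, LinearMap.toMatrix_toLin, hM])
  rwa [Submodule.mem_comap, LinearEquiv.coe_coe, LinearMap.toMatrix_toLin] at this

end Generic

/-- Dimension of a level. -/
noncomputable abbrev dd (n L : ℕ) : ℕ := Module.finrank ℝ (harm n L)

/-- Complex matrices on level `L`. -/
abbrev Mt (n L : ℕ) := Matrix (Fin (dd n L)) (Fin (dd n L)) ℂ

/-- Compression in matrix form. -/
noncomputable def rm (L : ℕ) : CE n →ₗ[ℂ] Mt n L :=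
  (LinearMap.toMatrix (cb n L) (cb n L)).toLinearMap.comp (res L)

theorem rm_apply (L : ℕ) (Y : CE n) : rm L Y = LinearMap.toMatrix (cb n L) (cb n L) (res L Y) :=
  rfl

theorem rm_cm {L : ℕ} {X Y : CE n} (hX : ∀ f ∈ V n L, X f ∈ V n L)
    (hY : ∀ f ∈ V n L, Y f ∈ V n L) : rm L (cm X Y) = cm (rm L X) (rm L Y) := by
  rw [rm_apply, res_cm hX hY, toMatrix_cm]
  rfl

theorem trace_rm (L k : ℕ) {Y : CE n} (hY : Y ∈ G (k + 1)) : (rm L Y).trace = 0 := by
  rw [rm_apply, ← LinearMap.trace_eq_matrix_trace ℂ (cb n L)]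
  exact trace_G_succ L k hY

/-- Real matrices as complex ones. -/
noncomputable def mR (L : ℕ) (x : Module.End ℝ (harm n L)) : Mt n L :=
  (LinearMap.toMatrix (rb n L) (rb n L) x).map fun r => (r : ℂ)

/-- Real part, as a real endomorphism. -/
noncomputable def toR (n L : ℕ) : Mt n L →ₗ[ℝ] Module.End ℝ (harm n L) :=
  (Matrix.toLin (rb n L) (rb n L)).toLinearMap.comp Complex.reLm.mapMatrix

theorem toR_apply (L : ℕ) (M : Mt n L) :
    toR n L M = Matrix.toLin (rb n L) (rb n L) (M.map Complex.re) := rfl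

theorem toR_mR (L : ℕ) (z : ℂ) (x : Module.End ℝ (harm n L)) :
    toR n L (z • mR L x) = z.re • x := by
  have h : (z • mR L x).map Complex.re = z.re • LinearMap.toMatrix (rb n L) (rb n L) x := by
    ext i k; simp [mR]
  rw [toR_apply, h, map_smul, Matrix.toLin_toMatrix]

theorem toR_mR_mul (L : ℕ) (x : Module.End ℝ (harm n L)) (M : Mt n L) :
    toR n L (mR L x * M) = x * toR n L M := by
  have h : (mR L x * M).map Complex.re =
      LinearMap.toMatrix (rb n L) (rb n L) x * M.map Complex.re := by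
    ext i k; simp [mR, Matrix.mul_apply, Complex.re_sum]
  rw [toR_apply, h, Matrix.toLin_mul _ (rb n L) _, Matrix.toLin_toMatrix, toR_apply]
  rfl

theorem toR_mul_mR (L : ℕ) (x : Module.End ℝ (harm n L)) (M : Mt n L) :
    toR n L (M * mR L x) = toR n L M * x := by
  have h : (M * mR L x).map Complex.re =
      M.map Complex.re * LinearMap.toMatrix (rb n L) (rb n L) x := by
    ext i k; simp [mR, Matrix.mul_apply, Complex.re_sum]
  rw [toR_apply, h, Matrix.toLin_mul _ (rb n L) _, Matrix.toLin_toMatrix, toR_apply]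
  rfl

theorem trace_mR (L : ℕ) (x : Module.End ℝ (harm n L)) :
    (mR L x).trace = (LinearMap.trace ℝ (harm n L) x : ℂ) := by
  rw [LinearMap.trace_eq_matrix_trace ℝ (rb n L)]
  simp [mR, Matrix.trace]

theorem rm_Qc (L : ℕ) (J : {J : Matrix (Fin n) (Fin n) ℝ // IsCS J}) :
    rm L (Qc J.1) = mR L (qRes J L) := by
  rw [rm_apply, ← (LinearEquiv.eq_symm_apply _)]
  show res L (Qc J.1) = Matrix.toLin (cb n L) (cb n L) (mR L (qRes J L))
  refine (cb n L).ext fun i => ?_
  apply Subtype.ext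
  have h : Qc J.1 (cb n L i).1 ∈ V n L := Qc_preserve J.2 (cb n L i).2
  rw [res_apply, show proj n L (Qc J.1 (cb n L i).1) = ⟨_, h⟩ from proj_coe ⟨_, h⟩,
    Matrix.toLin_self]
  simp only [cb_apply, mR, Matrix.map_apply]
  rw [iota_combination]
  show Qc J.1 (iota (rb n L i).1) = iota _
  rw [Qc_iota]
  congr 1
  have e : ∑ k, LinearMap.toMatrix (rb n L) (rb n L) (qRes J L) k i • rb n L k =
      qRes J L (rb n L i) := by
    simp only [LinearMap.toMatrix_apply]
    exact (rb n L).sum_repr _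
  rw [e]
  rfl

/-! ### tuples -/

section Pi

variable {ι : Type*} [DecidableEq ι] {A : ι → Type*}

theorem cm_single [∀ i, Ring (A i)] (p : (i : ι) → A i) (i : ι) (X : A i) :
    cm p (Pi.single i X) = Pi.single i (cm (p i) X) := by
  funext k
  rcases eq_or_ne k i with rfl | h
  · simp [cm]
  · simp [cm, h]

end Pi

variable {j Lmax : ℕ}

abbrev Tup (j Lmax : ℕ) := (L : Fin Lmax) → Mt (amb j) ((L : ℕ) + 2)

/-- Complex span of `H`. -/
def Hc (H : Submodule ℝ ((L : Fin Lmax) → Module.End ℝ (harm (amb j) ((L : ℕ) + 2)))) :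
    Submodule ℂ (Tup j Lmax) where
  carrier := {Y | ∀ z : ℂ, (fun L : Fin Lmax => toR (amb j) _ (z • Y L)) ∈ H}
  add_mem' := by
    intro a b ha hb z
    have := H.add_mem (ha z) (hb z)
    convert this using 1
    funext L
    simp [smul_add]
  zero_mem' := by
    intro z
    convert H.zero_mem using 1
    funext L
    simp
  smul_mem' := by
    intro c a ha z
    have := ha (z * c)
    simpa [smul_smul] using this

/-- A homogeneous element with `k+1` generators, weighted. -/
noncomputable def phi (c : Fin Lmax → ℝ) (k : ℕ) : CE (amb j) →ₗ[ℂ] Tup j Lmax :=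
  LinearMap.pi fun L => ((c L : ℂ) ^ (k + 1)) • rm ((L : ℕ) + 2)

theorem phi_apply (c : Fin Lmax → ℝ) (k : ℕ) (Y : CE (amb j)) (L : Fin Lmax) :
    phi c k Y L = ((c L : ℂ) ^ (k + 1)) • rm _ Y := rfl

theorem phi_cm (c : Fin Lmax → ℝ) (k : ℕ) {J : Matrix (Fin (amb j)) (Fin (amb j)) ℝ}
    (hJ : IsCS J) {g : CE (amb j)} (hg : g ∈ G k) :
    phi c (k + 1) (cm (Qc J) g) = cm (phi c 0 (Qc J)) (phi c k g) := by
  funext L
  show _ = cm (phi c 0 (Qc J) L) (phi c k g L)
  rw [phi_apply, phi_apply, phi_apply,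
    rm_cm (fun f hf => Qc_preserve hJ hf) (fun f hf => G_preserve k hg hf), cm_smul_left,
    cm_smul_right, smul_smul]
  congr 1
  ring

variable (H : Submodule ℝ ((L : Fin Lmax) → Module.End ℝ (harm (amb j) ((L : ℕ) + 2))))
  (c : Fin Lmax → ℝ)

/-- Hypothesis: invariance. -/
def Inv : Prop :=
  ∀ J : {J : Matrix (Fin (amb j)) (Fin (amb j)) ℝ // IsCS J}, ∀ X ∈ H,
    (fun L : Fin Lmax => c L • (qRes J ((L : ℕ) + 2) * X L - X L * qRes J ((L : ℕ) + 2))) ∈ H

/-- Hypothesis: generators. -/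
def Gen : Prop :=
  ∀ J : {J : Matrix (Fin (amb j)) (Fin (amb j)) ℝ // IsCS J},
    (fun L : Fin Lmax => c L • qRes J ((L : ℕ) + 2)) ∈ H

variable {H c}

theorem gen_step (hinv : Inv H c) {J : Matrix (Fin (amb j)) (Fin (amb j)) ℝ} (hJ : IsCS J)
    (Y : Tup j Lmax) (hY : Y ∈ Hc H) : cm (phi c 0 (Qc J)) Y ∈ Hc H := by
  intro z
  have := hinv ⟨J, hJ⟩ _ (hY z)
  convert this using 1
  funext L
  show toR (amb j) _ (z • cm (phi c 0 (Qc J) L) (Y L)) = c L • _
  rw [phi_apply, zero_add, pow_one, rm_Qc _ ⟨J, hJ⟩, cm_smul_left, smul_comm, ← cm_smul_right,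
    Complex.coe_smul, map_smul, cm, map_sub, toR_mR_mul, toR_mul_mR]

theorem phi_cm_Hc (hinv : Inv H c) : ∀ (k : ℕ) {g : CE (amb j)}, g ∈ G k →
    ∀ Y ∈ Hc H, cm (phi c k g) Y ∈ Hc H := by
  let S : ℕ → Submodule ℂ (CE (amb j)) := fun k =>
    { carrier := {g | ∀ Y ∈ Hc H, cm (phi c k g) Y ∈ Hc H}
      add_mem' := fun {p q} hp hq Y hY => by
        rw [map_add, cm_add_left]; exact Submodule.add_mem _ (hp Y hY) (hq Y hY)
      zero_mem' := fun Y _ => by rw [map_zero, cm_zero_left]; exact Submodule.zero_mem _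
      smul_mem' := fun a p hp Y hY => by
        rw [map_smul, cm_smul_left]; exact Submodule.smul_mem _ a (hp Y hY) }
  have key : ∀ k, G k ≤ S k := by
    intro k
    induction k with
    | zero =>
      rw [G, Submodule.span_le]
      rintro _ ⟨J, hJ, rfl⟩
      exact gen_step hinv hJ
    | succ k ih =>
      rw [G, Submodule.span_le]
      rintro _ ⟨J, hJ, g, hg, rfl⟩ Y hY
      rw [phi_cm c k hJ hg, cm_jacobi]
      exact Submodule.sub_mem _ (gen_step hinv hJ _ (ih hg Y hY))
        (ih hg _ (gen_step hinv hJ Y hY))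
  exact fun k g hg => key k hg

theorem phi_mem_Hc (hgen : Gen H c) (hinv : Inv H c) :
    ∀ (k : ℕ) {g : CE (amb j)}, g ∈ G k → phi c k g ∈ Hc H := by
  have key : ∀ k, G k ≤ (Hc H).comap (phi (j := j) c k) := by
    intro k
    induction k with
    | zero =>
      rw [G, Submodule.span_le]
      rintro _ ⟨J, hJ, rfl⟩ z
      have := H.smul_mem z.re (hgen ⟨J, hJ⟩)
      convert this using 1
      funext L
      show toR (amb j) _ (z • phi c 0 (Qc J) L) = z.re • (c L • _)
      rw [phi_apply, zero_add, pow_one, rm_Qc _ ⟨J, hJ⟩, smul_smul, toR_mR, smul_smul]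
      congr 1
      simp
    | succ k ih =>
      rw [G, Submodule.span_le]
      rintro _ ⟨J, hJ, g, hg, rfl⟩
      show phi c (k + 1) (cm (Qc J) g) ∈ Hc H
      rw [phi_cm c k hJ hg]
      exact gen_step hinv hJ _ (ih hg)
  exact fun k g hg => key k hg

/-- The conjugated word acts as a rank-one map on level `L` and kills lower levels. -/
theorem exists_rankone (hj : 3 ≤ j) (L : ℕ) (hL : 2 ≤ L) (a : OmT j)
    (B : V (amb j) L →ₗ[ℂ] V (amb j) L →ₗ[ℂ] ℂ) (hB : ∀ a, B (vv L a) = ev L a) :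
    ∃ (m : ℕ) (M : CE (amb j)) (γ : ℂ), γ ≠ 0 ∧ M ∈ G (m + 1) ∧
      res L M = γ • rk B (vv L a) (vv L a) ∧ ∀ d, d < L → rm d M = 0 := by
  obtain ⟨R, hR, hζ⟩ := a.2
  obtain ⟨m, hm⟩ := inG_word hj L hL
  obtain ⟨γ, hγ, htop, hlow⟩ := word_action hj L hL
  refine ⟨m, cj R (Wd j (word L)), γ, hγ, cj_mem_G hR _ hm, ?_, ?_⟩
  · refine LinearMap.ext fun f => ?_
    have hf := (mem_V.mp f.2).1
    have h1 : cj R (Wd j (word L)) f.1 = (γ * eval a.1 f.1) • lin a.1 ^ L := by
      simp only [cj, Module.End.mul_apply, Sop_apply]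
      rw [htop _ (subst_hom hf _), map_smul, map_pow, subst_lin, ← hζ, eval_subst]
      congr 3
      rw [show (cMat Rᵀ)ᵀ = cMat R by ext i k; rfl, ← hζ]
    rw [res_apply, h1, map_smul, show proj (amb j) L (lin a.1 ^ L) = vv L a from proj_coe (vv L a)]
    simp [rk, hB, ev, smul_smul]
  · intro d hd
    have h : res d (cj R (Wd j (word L))) = 0 := by
      refine LinearMap.ext fun f => ?_
      rw [res_apply, cj]
      simp only [Module.End.mul_apply, Sop_apply]
      rw [hlow d hd _ (subst_hom (mem_V.mp f.2).1 _), map_zero, map_zero, LinearMap.zero_apply]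
    rw [rm_apply, h, map_zero]

theorem single_level (hj : 3 ≤ j) (hc : ∀ L, c L ≠ 0) (hgen : Gen H c) (hinv : Inv H c)
    (L₀ : Fin Lmax)
    (hup : ∀ Y : Tup j Lmax, (∀ L : Fin Lmax, (L : ℕ) < (L₀ : ℕ) + 1 → Y L = 0) →
      (∀ L, (Y L).trace = 0) → Y ∈ Hc H)
    (T : Mt (amb j) ((L₀ : ℕ) + 2)) (hT : T.trace = 0) :
    Pi.single L₀ T ∈ Hc H := by
  let K : Submodule ℂ (Mt (amb j) ((L₀ : ℕ) + 2)) :=
    (Hc H).comap (LinearMap.single ℂ (fun L : Fin Lmax => Mt (amb j) ((L : ℕ) + 2)) L₀)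
  let N : Submodule ℂ (Mt (amb j) ((L₀ : ℕ) + 2)) :=
    { carrier := {T | ∀ X ∈ K, cm T X ∈ K}
      add_mem' := fun ha hb X hX => by rw [cm_add_left]; exact K.add_mem (ha X hX) (hb X hX)
      zero_mem' := fun X _ => by rw [cm_zero_left]; exact K.zero_mem
      smul_mem' := fun a p hp X hX => by rw [cm_smul_left]; exact K.smul_mem a (hp X hX) }
  have hN : ∀ (k : ℕ) (g : CE (amb j)), g ∈ G k → rm _ g ∈ N := by
    intro k g hg X hX
    have h := phi_cm_Hc hinv k hg _ hX
    rw [LinearMap.coe_single, cm_single, phi_apply, cm_smul_left, Pi.single_smul] at h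
    have := Submodule.smul_mem _ ((c L₀ : ℂ) ^ (k + 1))⁻¹ h
    rwa [smul_smul, inv_mul_cancel₀ (pow_ne_zero _ (Complex.ofReal_ne_zero.mpr (hc L₀))),
      one_smul] at this
  obtain ⟨B, hBs, hBnd, hBv⟩ := exists_form (j := j) (by omega) ((L₀ : ℕ) + 2)
  have hE : ∀ a : OmT j, LinearMap.toMatrix (cb _ _) (cb _ _) (rk B (vv _ a) (vv _ a)) ∈ K ⊓ N := by
    intro a
    obtain ⟨m, M, γ, hγ, hM, hres, hlow⟩ := exists_rankone hj _ (by omega) a B hBv
    have hK : rm _ M ∈ K := by
      have h1 := phi_mem_Hc hgen hinv (m + 1) hM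
      have hY : phi c (m + 1) M - Pi.single L₀ (phi c (m + 1) M L₀) ∈ Hc H := by
        refine hup _ (fun L' hL' => ?_) (fun L' => ?_)
        · rcases eq_or_ne L' L₀ with rfl | hne
          · simp
          · have : (L' : ℕ) + 2 < (L₀ : ℕ) + 2 := by
              have : (L' : ℕ) ≠ (L₀ : ℕ) := fun e => hne (Fin.ext e)
              omega
            simp [hne, phi_apply, hlow _ this]
        · rcases eq_or_ne L' L₀ with rfl | hne
          · simp
          · simp [hne, phi_apply, trace_rm _ m hM]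
      have h2 := Submodule.sub_mem _ h1 hY
      rw [sub_sub_cancel, phi_apply, Pi.single_smul] at h2
      have h3 := Submodule.smul_mem _ ((c L₀ : ℂ) ^ (m + 1 + 1))⁻¹ h2
      rwa [smul_smul, inv_mul_cancel₀ (pow_ne_zero _ (Complex.ofReal_ne_zero.mpr (hc L₀))),
        one_smul] at h3
    have h1 : rm _ M ∈ K ⊓ N := ⟨hK, hN _ _ hM⟩
    rw [rm_apply, hres, map_smul] at h1
    have := Submodule.smul_mem _ γ⁻¹ h1
    rwa [smul_smul, inv_mul_cancel₀ hγ, one_smul] at this
  have hstar : ∀ a : OmT j, Submodule.span ℂ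
      {x | ∃ b, B (vv ((L₀ : ℕ) + 2) a) (vv _ b) ≠ 0 ∧ x = vv ((L₀ : ℕ) + 2) b} = ⊤ := by
    intro a
    refine top_le_iff.mp ((star_span (by omega) _ a).ge.trans (Submodule.span_mono ?_))
    rintro x ⟨b, hb, rfl⟩
    refine ⟨b, ?_, rfl⟩
    rw [hBv, ev_vv, dotProduct_comm]
    exact pow_ne_zero _ hb
  exact (traceless_mem_matrix (cb _ _) (vv _) B hBs hBnd (vv_ne (by omega) _) hstar
    ⟨⟨vz j, vz_mem⟩⟩ (K ⊓ N)
    (fun X hX Y hY => ⟨hX.2 Y hY.1, fun Z hZ => by
      rw [cm_jacobi]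
      exact K.sub_mem (hX.2 _ (hY.2 Z hZ)) (hY.2 _ (hX.2 Z hZ))⟩) hE T hT).1

end Vale.Agent.P225.LieFull

namespace Vale.Agent.P225

open LieFull in
/-- MODULE C2. -/
theorem lieFull : LieFullStmt := by
  intro j Lmax hj c hc H hgen hinv X hX
  have main : ∀ d k : ℕ, k + d = Lmax → ∀ Y : Tup j Lmax,
      (∀ L : Fin Lmax, (L : ℕ) < k → Y L = 0) →
      (∀ L, (Y L).trace = 0) → Y ∈ Hc H := by
    intro d
    induction d with
    | zero =>
      intro k hk Y hY _
      have : Y = 0 := funext fun L => hY L (by omega)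
      rw [this]; exact Submodule.zero_mem _
    | succ d ih =>
      intro k hk Y hY htr
      set L₀ : Fin Lmax := ⟨k, by omega⟩
      have h1 := single_level hj hc hgen hinv L₀ (ih (k + 1) (by omega)) (Y L₀) (htr L₀)
      have h2 : Y - Pi.single L₀ (Y L₀) ∈ Hc H := by
        refine ih (k + 1) (by omega) _ (fun L hL => ?_) (fun L => ?_)
        · rcases eq_or_ne L L₀ with rfl | hne
          · simp
          · have : (L : ℕ) ≠ k := fun e => hne (Fin.ext e)
            simp [hne, hY L (by omega)]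
        · rcases eq_or_ne L L₀ with rfl | hne
          · simp
          · simp [hne, htr L]
      simpa using Submodule.add_mem _ h1 h2
  have h := main Lmax 0 (by omega) (fun L => mR _ (X L))
    (fun L hL => absurd hL (Nat.not_lt_zero _))
    (fun L => by rw [trace_mR, hX L, Complex.ofReal_zero]) 1
  convert h using 1
  funext L
  rw [toR_mR, Complex.one_re, one_smul]

end Vale.Agent.P225
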