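import Vale.Agent.P225.MetricAux

/-! P225 module F: the metric of a good profile and its harmonic functions. -/

open scoped BigOperators ContDiff
open Filter Topology

namespace Vale.Agent.P225

section algebra

variable {n : ℕ} {J : Matrix (Fin n) (Fin n) ℝ}

theorem cs_orth (hJ : IsCS J) (x : Pt n) :
    (∑ i, x i * J.mulVec x i) = 0 ∧ (∑ i, J.mulVec x i ^ 2) = ∑ i, x i ^ 2 := by
  obtain ⟨h1, h2⟩ := hJ
  have ha : dotProduct x (J.mulVec x) = 0 := by
    have e : dotProduct x (J.mulVec x) = -dotProduct x (J.mulVec x) := by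
      conv_lhs => rw [Matrix.dotProduct_mulVec, dotProduct_comm, ← Matrix.mulVec_transpose, h1,
        Matrix.neg_mulVec, dotProduct_neg]
    linarith
  have hb : dotProduct (J.mulVec x) (J.mulVec x) = dotProduct x x := by
    rw [Matrix.dotProduct_mulVec, ← Matrix.mulVec_transpose, h1, Matrix.mulVec_mulVec,
      Matrix.neg_mul, h2, neg_neg, Matrix.one_mulVec]
  exact ⟨ha, by simpa [dotProduct, sq] using hb⟩

theorem cs_bessel (hJ : IsCS J) {x : Pt n} (hx : x ≠ 0) (w : Pt n) :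
    0 ≤ (∑ i, w i ^ 2) - (∑ i, x i * w i) ^ 2 / rad x ^ 2 -
      (∑ i, J.mulVec x i * w i) ^ 2 / rad x ^ 2 := by
  obtain ⟨hxy, hyy⟩ := cs_orth hJ x
  set p := ∑ i, x i * w i with hp
  set q := ∑ i, J.mulVec x i * w i with hq
  set R := rad x ^ 2 with hR
  have hR0 : 0 < R := pow_pos (rad_pos hx) 2
  have hxx : ∑ i, x i ^ 2 = R := (rad_sq x).symm
  have key : ∑ i, (R * w i - p * x i - q * J.mulVec x i) ^ 2 =
      R * (R * (∑ i, w i ^ 2) - p ^ 2 - q ^ 2) := by
    calc _ = R ^ 2 * (∑ i, w i ^ 2) + p ^ 2 * (∑ i, x i ^ 2) + q ^ 2 * (∑ i, J.mulVec x i ^ 2)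
          - 2 * R * p * (∑ i, x i * w i) - 2 * R * q * (∑ i, J.mulVec x i * w i)
          + 2 * p * q * (∑ i, x i * J.mulVec x i) := by
          simp only [Finset.mul_sum, ← Finset.sum_add_distrib, ← Finset.sum_sub_distrib]
          exact Finset.sum_congr rfl fun i _ => by ring
      _ = _ := by rw [hxy, hyy, hxx, ← hp, ← hq]; ring
  have h0 : 0 ≤ R * (∑ i, w i ^ 2) - p ^ 2 - q ^ 2 := by
    have := Finset.sum_nonneg (s := Finset.univ) fun i _ =>
      sq_nonneg (R * w i - p * x i - q * J.mulVec x i)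
    rw [key] at this
    exact (mul_nonneg_iff_of_pos_left hR0).mp this
  have e : (∑ i, w i ^ 2) - p ^ 2 / R - q ^ 2 / R = (R * (∑ i, w i ^ 2) - p ^ 2 - q ^ 2) / R := by
    field_simp
  rw [e]; positivity

theorem bergerMat_form (J : Matrix (Fin n) (Fin n) ℝ) (a v : ℝ → ℝ) (x w : Pt n) :
    ∑ i, ∑ k, bergerMat J a v x i k * w i * w k =
      (∑ i, x i * w i) ^ 2 / rad x ^ 2 + a (Real.log (rad x)) *
        ((∑ i, w i ^ 2) - (∑ i, x i * w i) ^ 2 / rad x ^ 2 -
          (∑ i, J.mulVec x i * w i) ^ 2 / rad x ^ 2) +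
        v (Real.log (rad x)) * ((∑ i, J.mulVec x i * w i) ^ 2 / rad x ^ 2) := by
  have hone : ∑ i, ∑ k, (1 : Matrix (Fin n) (Fin n) ℝ) i k * w i * w k = ∑ i, w i ^ 2 := by
    simp [Matrix.one_apply, sq]
  have hsq : ∀ (z : Pt n), (∑ i, z i * w i) ^ 2 = ∑ i, ∑ k, z i * z k * w i * w k := fun z => by
    rw [sq, Finset.sum_mul_sum]
    exact Finset.sum_congr rfl fun i _ => Finset.sum_congr rfl fun k _ => by ring
  rw [← hone, hsq x, hsq (J.mulVec x)]
  simp only [div_eq_mul_inv, Finset.sum_mul, mul_sub, Finset.mul_sum, ← Finset.sum_sub_distrib,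
    ← Finset.sum_add_distrib, bergerMat, Matrix.of_apply]
  exact Finset.sum_congr rfl fun i _ => Finset.sum_congr rfl fun k _ => by ring

theorem bergerMat_symm (J : Matrix (Fin n) (Fin n) ℝ) (a v : ℝ → ℝ) (x : Pt n) (i k : Fin n) :
    bergerMat J a v x i k = bergerMat J a v x k i := by
  simp only [bergerMat, Matrix.of_apply, Matrix.one_apply, eq_comm (a := i) (b := k)]
  ring

theorem bergerMat_indep (J J' : Matrix (Fin n) (Fin n) ℝ) (a v : ℝ → ℝ) (x : Pt n)
    (h : a (Real.log (rad x)) = v (Real.log (rad x))) :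
    bergerMat J a v x = bergerMat J' a v x := by
  ext i k; simp only [bergerMat, Matrix.of_apply, h]; ring

theorem bergerMat_one (J : Matrix (Fin n) (Fin n) ℝ) (a v : ℝ → ℝ) (x : Pt n)
    (ha : a (Real.log (rad x)) = 1) (hv : v (Real.log (rad x)) = 1) :
    bergerMat J a v x = 1 := by
  ext i k; simp only [bergerMat, Matrix.of_apply, ha, hv]; ring

theorem contDiffAt_rad {x : Pt n} (hx : x ≠ 0) : ContDiffAt ℝ ∞ (rad : Pt n → ℝ) x := by
  refine ContDiffAt.sqrt ?_ ?_
  · fun_prop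
  · rw [← rad_sq]; exact (pow_pos (rad_pos hx) 2).ne'

theorem contDiffAt_bergerMat (J : Matrix (Fin n) (Fin n) ℝ) {a v : ℝ → ℝ} (ha : ContDiff ℝ ∞ a)
    (hv : ContDiff ℝ ∞ v) {x : Pt n} (hx : x ≠ 0) (i k : Fin n) :
    ContDiffAt ℝ ∞ (fun y => bergerMat J a v y i k) x := by
  have hlog : ContDiffAt ℝ ∞ (fun y : Pt n => Real.log (rad y)) x :=
    (contDiffAt_rad hx).log (rad_pos hx).ne'
  have hr2 : ContDiffAt ℝ ∞ (fun y : Pt n => rad y ^ 2) x := (contDiffAt_rad hx).pow 2
  have hr0 : rad x ^ 2 ≠ 0 := (pow_pos (rad_pos hx) 2).ne'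
  have hxi : ∀ i, ContDiffAt ℝ ∞ (fun y : Pt n => y i) x := fun i => by fun_prop
  have hJx : ∀ i, ContDiffAt ℝ ∞ (fun y : Pt n => J.mulVec y i) x := fun i => by
    simp only [Matrix.mulVec, dotProduct]; fun_prop
  simp only [bergerMat, Matrix.of_apply]
  exact ((((hxi i).mul (hxi k)).div hr2 hr0).add
    ((ha.contDiffAt.comp x hlog).mul ((contDiffAt_const.sub (((hxi i).mul (hxi k)).div hr2 hr0)).sub
      (((hJx i).mul (hJx k)).div hr2 hr0)))).add
    ((hv.contDiffAt.comp x hlog).mul (((hJx i).mul (hJx k)).div hr2 hr0))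

end algebra

section profile

variable {j : ℕ} {S : Profile j}

/-- The metric of a profile. -/
noncomputable def Profile.metric (S : Profile j) (x : Pt (amb j)) :
    Matrix (Fin (amb j)) (Fin (amb j)) ℝ :=
  if x = 0 then 1 else bergerMat (S.J (Real.log (rad x))) S.aF S.vF x

theorem Profile.Good.rho_pos (hS : S.Good) (t : ℝ) : 0 < S.rho t := by
  obtain ⟨lo, hlo, B, hB⟩ := hS.bounds
  exact hlo.trans_le (hB t).1

theorem Profile.Good.smooth_rho (hS : S.Good) : ContDiff ℝ ∞ S.rho := by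
  rw [contDiff_infty]
  intro m
  induction m with
  | zero =>
    exact contDiff_zero.mpr (continuous_iff_continuousAt.mpr fun t => (hS.deriv_rho t).continuousAt)
  | succ m ih =>
    rw [show ((m + 1 : ℕ) : WithTop ℕ∞) = (m : WithTop ℕ∞) + 1 from rfl, contDiff_succ_iff_deriv]
    refine ⟨fun t => (hS.deriv_rho t).differentiableAt, by simp, ?_⟩
    rw [show deriv S.rho = fun t => S.w t * S.rho t from funext fun t => (hS.deriv_rho t).deriv]
    exact ((contDiff_infty.mp hS.smooth_w) m).mul ih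

theorem Profile.Good.smooth_aF (hS : S.Good) : ContDiff ℝ ∞ S.aF := by
  have h1 := hS.smooth_rho
  have h2 := hS.smooth_s
  unfold Profile.aF
  exact (h1.pow 2).mul (Real.contDiff_exp.comp (h2.div_const _).neg)

theorem Profile.Good.smooth_vF (hS : S.Good) : ContDiff ℝ ∞ S.vF := by
  have h1 := hS.smooth_rho
  have h2 := hS.smooth_s
  unfold Profile.vF
  exact (h1.pow 2).mul (Real.contDiff_exp.comp (h2.sub (h2.div_const _)))

theorem Profile.Good.aF_pos (hS : S.Good) (t : ℝ) : 0 < S.aF t := by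
  have := hS.rho_pos t
  unfold Profile.aF; positivity

theorem Profile.Good.vF_pos (hS : S.Good) (t : ℝ) : 0 < S.vF t := by
  have := hS.rho_pos t
  unfold Profile.vF; positivity

theorem Profile.Good.pinch (hS : S.Good) : ∃ m M : ℝ, 0 < m ∧ m ≤ 1 ∧ 1 ≤ M ∧
    ∀ t, (m ≤ S.aF t ∧ S.aF t ≤ M) ∧ (m ≤ S.vF t ∧ S.vF t ≤ M) := by
  obtain ⟨lo, hlo, B, hB⟩ := hS.bounds
  refine ⟨min 1 (lo ^ 2 * Real.exp (-(2 * B))), max 1 (B ^ 2 * Real.exp (2 * B)), by positivity,
    min_le_left _ _, le_max_left _ _, fun t => ?_⟩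
  obtain ⟨h1, h2, h3⟩ := hB t
  obtain ⟨h4, h5⟩ := abs_le.mp h3
  have hN : (1 : ℝ) ≤ 2 * j + 1 := by
    have : (0 : ℝ) ≤ j := Nat.cast_nonneg j
    linarith
  have hN0 : (0 : ℝ) < 2 * j + 1 := by linarith
  have h6 : |S.s t / (2 * j + 1)| ≤ B := by
    rw [abs_div, abs_of_pos hN0]
    exact (div_le_self (abs_nonneg _) hN).trans h3
  obtain ⟨h7, h8⟩ := abs_le.mp h6
  have e1 : lo ^ 2 ≤ S.rho t ^ 2 := pow_le_pow_left₀ hlo.le h1 2
  have e2 : S.rho t ^ 2 ≤ B ^ 2 := pow_le_pow_left₀ (hlo.le.trans h1) h2 2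
  have key : ∀ E : ℝ, -(2 * B) ≤ E → E ≤ 2 * B →
      min 1 (lo ^ 2 * Real.exp (-(2 * B))) ≤ S.rho t ^ 2 * Real.exp E ∧
      S.rho t ^ 2 * Real.exp E ≤ max 1 (B ^ 2 * Real.exp (2 * B)) := fun E hE1 hE2 =>
    ⟨(min_le_right _ _).trans (by gcongr), le_trans (by gcongr) (le_max_right _ _)⟩
  exact ⟨key _ (by linarith) (by linarith), key _ (by linarith) (by linarith)⟩

theorem Profile.metric_near_one (hS : S.Good) {x : Pt (amb j)} (hx : rad x < 1) :
    ∀ᶠ y in 𝓝 x, S.metric y = 1 := by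
  refine (continuous_rad.continuousAt.eventually_lt continuousAt_const hx).mono fun y hy => ?_
  unfold Profile.metric
  split_ifs with h
  · rfl
  · obtain ⟨_, h2, h3⟩ := hS.flat _ (Real.log_nonpos (rad_nonneg y) hy.le)
    refine bergerMat_one _ _ _ _ ?_ ?_ <;> simp [Profile.aF, Profile.vF, h2, h3]

theorem Profile.metric_local (hS : S.Good) {x : Pt (amb j)} (hx : x ≠ 0) :
    ∃ J₀, IsCS J₀ ∧ (S.s (Real.log (rad x)) = 0 ∨ S.J (Real.log (rad x)) = J₀) ∧
      ∀ᶠ y in 𝓝 x, S.metric y = bergerMat J₀ S.aF S.vF y := by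
  obtain ⟨J₀, hJ₀, hloc⟩ := hS.locJ (Real.log (rad x))
  refine ⟨J₀, hJ₀, hloc.self_of_nhds, ?_⟩
  have ht : Tendsto (fun y : Pt (amb j) => Real.log (rad y)) (𝓝 x) (𝓝 (Real.log (rad x))) :=
    (continuous_rad.continuousAt.log (rad_pos hx).ne')
  filter_upwards [ht.eventually hloc, eventually_ne_nhds hx] with y hy hy0
  simp only [Profile.metric, if_neg hy0]
  rcases hy with h | h
  · exact bergerMat_indep _ _ _ _ _ (by simp [Profile.aF, Profile.vF, h])
  · rw [h]

theorem Profile.metric_smooth (hS : S.Good) (i k : Fin (amb j)) :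
    ContDiff ℝ ∞ fun x => S.metric x i k := by
  refine contDiff_iff_contDiffAt.mpr fun x => ?_
  by_cases hx : rad x < 1
  · refine (contDiffAt_const (c := (1 : Matrix (Fin (amb j)) (Fin (amb j)) ℝ) i k)).congr_of_eventuallyEq
      ((S.metric_near_one hS hx).mono fun y hy => congrArg (fun B => B i k) hy)
  · have hx0 : x ≠ 0 := fun h => hx (by rw [h, rad_zero]; norm_num)
    obtain ⟨J₀, -, -, hloc⟩ := S.metric_local hS hx0
    exact (contDiffAt_bergerMat J₀ hS.smooth_aF hS.smooth_vF hx0 i k).congr_of_eventuallyEq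
      (hloc.mono fun y hy => congrArg (fun B => B i k) hy)

theorem Profile.metric_pinched (hS : S.Good) {m M : ℝ} (hm : 0 < m) (hm1 : m ≤ 1) (hM : 1 ≤ M)
    (h : ∀ t, (m ≤ S.aF t ∧ S.aF t ≤ M) ∧ (m ≤ S.vF t ∧ S.vF t ≤ M)) (x w : Pt (amb j)) :
    m * (∑ i, w i ^ 2) ≤ ∑ i, ∑ k, S.metric x i k * w i * w k ∧
      ∑ i, ∑ k, S.metric x i k * w i * w k ≤ M * (∑ i, w i ^ 2) := by
  have hW : 0 ≤ ∑ i, w i ^ 2 := Finset.sum_nonneg fun i _ => sq_nonneg _
  unfold Profile.metric
  split_ifs with hx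
  · have : ∑ i, ∑ k, (1 : Matrix (Fin (amb j)) (Fin (amb j)) ℝ) i k * w i * w k = ∑ i, w i ^ 2 := by
      simp [Matrix.one_apply, sq]
    rw [this]; constructor <;> nlinarith
  · rw [bergerMat_form]
    have hb := cs_bessel (hS.isCS (Real.log (rad x))) hx w
    obtain ⟨⟨a1, a2⟩, v1, v2⟩ := h (Real.log (rad x))
    have p0 : 0 ≤ (∑ i, x i * w i) ^ 2 / rad x ^ 2 := by positivity
    have q0 : 0 ≤ (∑ i, (S.J (Real.log (rad x))).mulVec x i * w i) ^ 2 / rad x ^ 2 := by positivity
    constructor <;> nlinarith [mul_le_mul_of_nonneg_right a1 hb, mul_le_mul_of_nonneg_right a2 hb,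
      mul_le_mul_of_nonneg_right v1 q0, mul_le_mul_of_nonneg_right v2 q0,
      mul_le_mul_of_nonneg_right hm1 p0, mul_le_mul_of_nonneg_right hM p0]

theorem Profile.metric_posDef (hS : S.Good) (x : Pt (amb j)) : (S.metric x).PosDef := by
  obtain ⟨m, M, hm, hm1, hM, h⟩ := hS.pinch
  refine Matrix.PosDef.of_dotProduct_mulVec_pos (Matrix.IsHermitian.ext fun i k => ?_) fun {w} hw => ?_
  · unfold Profile.metric
    split_ifs
    · simp [Matrix.one_apply, eq_comm]
    · simpa using bergerMat_symm _ _ _ x k i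
  · have h1 := (S.metric_pinched hS hm hm1 hM h x w).1
    have h2 : 0 < ∑ i, w i ^ 2 := by rw [← rad_sq]; exact pow_pos (rad_pos hw) 2
    have e : dotProduct (star w) ((S.metric x).mulVec w) =
        ∑ i, ∑ k, S.metric x i k * w i * w k := by
      simp only [dotProduct, Matrix.mulVec, Pi.star_apply, star_trivial, Finset.mul_sum]
      exact Finset.sum_congr rfl fun i _ => Finset.sum_congr rfl fun k _ => by ring
    rw [e]; nlinarith [mul_pos hm h2]

theorem Profile.Good.deriv_aF (hS : S.Good) (t : ℝ) :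
    deriv S.aF t / (2 * S.aF t) = S.w t - deriv S.s t / (2 * (2 * j + 1 : ℝ)) := by
  have hr := hS.rho_pos t
  have hs := ((hS.smooth_s.differentiable (by simp)) t).hasDerivAt
  have h : HasDerivAt S.aF _ t := ((hS.deriv_rho t).pow 2).mul ((hs.div_const _).neg.exp)
  rw [h.deriv]
  simp only [Profile.aF, Pi.neg_apply, Pi.pow_apply, Pi.sub_apply]
  field_simp
  push_cast
  ring

theorem Profile.Good.deriv_vF (hS : S.Good) (t : ℝ) :
    deriv S.vF t / (2 * S.vF t) =
      S.w t + deriv S.s t * ((2 * j + 1 : ℝ) - 1) / (2 * (2 * j + 1 : ℝ)) := by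
  have hr := hS.rho_pos t
  have hs := ((hS.smooth_s.differentiable (by simp)) t).hasDerivAt
  have h : HasDerivAt S.vF _ t := ((hS.deriv_rho t).pow 2).mul ((hs.sub (hs.div_const _)).exp)
  rw [h.deriv]
  simp only [Profile.vF, Pi.neg_apply, Pi.pow_apply, Pi.sub_apply]
  field_simp
  push_cast
  ring

theorem Profile.Good.vF_div_aF (hS : S.Good) (t : ℝ) :
    S.vF t / S.aF t = Real.exp (S.s t) ∧
      1 / S.aF t = Real.exp (S.s t / (2 * j + 1)) / S.rho t ^ 2 ∧
      1 / S.vF t = Real.exp (S.s t / (2 * j + 1)) * Real.exp (-S.s t) / S.rho t ^ 2 := by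
  have hr := hS.rho_pos t
  simp only [Profile.aF, Profile.vF, Real.exp_sub, Real.exp_neg]
  refine ⟨?_, ?_, ?_⟩ <;> field_simp

theorem Profile.ricci_nonneg (hA : BergerCalcStmt) (hj : 1 ≤ j) (hS : S.Good) :
    RicciNonneg S.metric := by
  intro x w
  by_cases hx : rad x < 1
  · simp [ricci_flat (S.metric_near_one hS hx)]
  have hx0 : x ≠ 0 := fun h => hx (by rw [h, rad_zero]; norm_num)
  obtain ⟨J₀, hJ₀, -, hloc⟩ := S.metric_local hS hx0
  have h := (hA j J₀ hJ₀ S.aF S.vF hS.smooth_aF hS.smooth_vF hS.aF_pos hS.vF_pos S.metric x hx0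
    hloc).1 w
  rw [h]
  clear h
  set t := Real.log (rad x) with ht
  simp only [hS.deriv_aF, hS.deriv_vF]
  set N : ℝ := 2 * (j : ℝ) + 1 with hNdef
  have hN0 : N ≠ 0 := by positivity
  have hw1 : DifferentiableAt ℝ S.w t := hS.smooth_w.differentiable (by simp) t
  have hs2 : DifferentiableAt ℝ (deriv S.s) t :=
    ((contDiff_infty_iff_deriv.mp hS.smooth_s).2).differentiable (by simp) t
  have d1 : deriv (fun u => S.w u - deriv S.s u / (2 * N)) t =
      deriv S.w t - deriv (deriv S.s) t / (2 * N) :=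
    (hw1.hasDerivAt.sub (hs2.hasDerivAt.div_const _)).deriv
  have d2 : deriv (fun u => S.w u + deriv S.s u * (N - 1) / (2 * N)) t =
      deriv S.w t + deriv (deriv S.s) t * (N - 1) / (2 * N) :=
    (hw1.hasDerivAt.add ((hs2.hasDerivAt.mul_const _).div_const _)).deriv
  have etr : ∀ u, 2 * (j : ℝ) * (S.w u - deriv S.s u / (2 * N)) +
      (S.w u + deriv S.s u * (N - 1) / (2 * N)) = N * S.w u := fun u => by
    rw [hNdef]; field_simp; ring
  rw [d1, d2]
  simp only [etr]
  rw [deriv_const_mul _ hw1]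
  have cR := hS.curvR t
  have cH := hS.curvH t
  have cV := hS.curvV t
  obtain ⟨e1, e2, -⟩ := hS.vF_div_aF t
  have eR : -(N * S.w t) - N * deriv S.w t - (2 * (j : ℝ) * (S.w t - deriv S.s t / (2 * N)) ^ 2 +
      (S.w t + deriv S.s t * (N - 1) / (2 * N)) ^ 2) =
      -N * (S.w t + deriv S.w t + S.w t ^ 2) - j * deriv S.s t ^ 2 / (2 * N) := by
    rw [hNdef]; field_simp; ring
  have eH : (2 * (j : ℝ) + 2 - 2 * S.vF t / S.aF t) / S.aF t =
      (2 * j + 2 - 2 * Real.exp (S.s t)) * Real.exp (S.s t / N) / S.rho t ^ 2 := by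
    rw [mul_div_assoc, e1, div_eq_mul_one_div _ (S.aF t), e2, mul_div_assoc]
  have eV : 2 * (j : ℝ) * S.vF t / S.aF t ^ 2 =
      2 * j * Real.exp (S.s t + S.s t / N) / S.rho t ^ 2 := by
    rw [show 2 * (j : ℝ) * S.vF t / S.aF t ^ 2 = 2 * j * (S.vF t / S.aF t) * (1 / S.aF t) by ring,
      e1, e2, Real.exp_add]
    ring
  refine div_nonneg ?_ (sq_nonneg _)
  rw [eR, eH, eV]
  simp only [← hNdef] at cR cH cV
  have f1 : N + N * S.w t = N * (1 + S.w t) := by ring
  rw [f1]
  exact add_nonneg (add_nonneg (div_nonneg (mul_nonneg cR (sq_nonneg _)) (sq_nonneg _))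
    (mul_nonneg (mul_nonneg (hS.aF_pos t).le cH) (cs_bessel hJ₀ hx0 w)))
    (mul_nonneg (mul_nonneg (hS.vF_pos t).le cV) (by positivity))

theorem eval_zero_of_homogeneous {n L : ℕ} (hL : 1 ≤ L) {P : MvPolynomial (Fin n) ℝ}
    (hP : P.IsHomogeneous L) : MvPolynomial.eval (0 : Pt n) P = 0 := by
  have h := abs_eval_le hP (0 : Pt n)
  rw [rad_zero, zero_pow (by omega), mul_zero] at h
  exact abs_nonpos_iff.mp h

theorem metricFromProfile (hA : BergerCalcStmt) : MetricStmt := by
  intro j hj S hS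
  obtain ⟨m, M, hm, hm1, hM, hmM⟩ := hS.pinch
  have hcont : ∀ i k, Continuous fun x => S.metric x i k := fun i k =>
    (S.metric_smooth hS i k).continuous
  have hpinch : Pinched S.metric m (M * amb j) := fun x w =>
    ⟨le_trans (mul_le_mul_of_nonneg_left (norm_sq_le_sum w) hm.le)
        (S.metric_pinched hS hm hm1 hM hmM x w).1,
      (S.metric_pinched hS hm hm1 hM hmM x w).2.trans
        ((mul_le_mul_of_nonneg_left (sum_le_norm_sq w) (zero_le_one.trans hM)).trans_eq (by ring))⟩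
  refine ⟨S.metric, ⟨S.metric_smooth hS, S.metric_posDef hS⟩,
    isCompleteMetric_of_pinched hcont hpinch hm, S.ricci_nonneg hA hj hS, ?_⟩
  intro k L d hL b hb A hQ φ c C hφ hode hflat hgrow
  let poly : Pt (amb j) → ℝ := fun x => ∑ i, c i * MvPolynomial.eval x (b i)
  let form : Pt (amb j) → ℝ := fun x =>
    ∑ i, φ i (Real.log (rad x)) / rad x ^ L * MvPolynomial.eval x (b i)
  let u : Pt (amb j) → ℝ := fun x => if rad x < 1 then poly x else form x
  have hhom : ∀ i, (b i).IsHomogeneous L := fun i =>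
    (MvPolynomial.mem_homogeneousSubmodule L _).mp (Submodule.mem_inf.mp (hb i)).1
  have hin : ∀ x, rad x < 1 → u =ᶠ[𝓝 x] poly := fun x hx =>
    (continuous_rad.continuousAt.eventually_lt continuousAt_const hx).mono fun y hy => if_pos hy
  have hagree : ∀ x, x ≠ 0 → u x = form x := fun x hx => by
    by_cases h : rad x < 1
    · refine (if_pos h).trans (Finset.sum_congr rfl fun i _ => ?_)
      rw [hflat i _ (Real.log_nonpos (rad_nonneg x) h.le), Real.exp_nat_mul,
        Real.exp_log (rad_pos hx), mul_div_assoc, div_self (pow_pos (rad_pos hx) L).ne', mul_one]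
    · exact if_neg h
  have hout : ∀ x, x ≠ 0 → u =ᶠ[𝓝 x] form := fun x hx =>
    (eventually_ne_nhds hx).mono fun y hy => hagree y hy
  have hterm : ∀ x, x ≠ 0 → ∀ i, ContDiffAt ℝ ∞
      (fun y => φ i (Real.log (rad y)) / rad y ^ L * MvPolynomial.eval y (b i)) x := fun x hx i =>
    (((hφ i).contDiffAt.comp x ((contDiffAt_rad hx).log (rad_pos hx).ne')).div
      ((contDiffAt_rad hx).pow L) (pow_pos (rad_pos hx) L).ne').mul (contDiff_eval (b i)).contDiffAt
  have hpoly : ContDiff ℝ ∞ poly :=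
    ContDiff.sum fun i _ => contDiff_const.mul (contDiff_eval (b i))
  have hsmooth : ContDiff ℝ ∞ u := by
    refine contDiff_iff_contDiffAt.mpr fun x => ?_
    by_cases hx : rad x < 1
    · exact hpoly.contDiffAt.congr_of_eventuallyEq (hin x hx)
    · have hx0 : x ≠ 0 := fun h => hx (by rw [h, rad_zero]; norm_num)
      exact (ContDiffAt.sum fun i _ => hterm x hx0 i).congr_of_eventuallyEq (hout x hx0)
  have hharm : ∀ x, laplacian S.metric u x = 0 := by
    intro x
    by_cases hx : rad x < 1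
    · rw [laplacian_congr (hin x hx)]
      have e : poly = fun y => MvPolynomial.eval y (∑ i, c i • b i) := by
        funext y; simp [poly, map_sum, MvPolynomial.smul_eval]
      rw [e, laplacian_flat_eval (S.metric_near_one hS hx)]
      simp [fun i => LinearMap.mem_ker.mp (Submodule.mem_inf.mp (hb i)).2]
    · have hx0 : x ≠ 0 := fun h => hx (by rw [h, rad_zero]; norm_num)
      obtain ⟨J₀, hJ₀, hor, hloc⟩ := S.metric_local hS hx0
      set t := Real.log (rad x) with ht
      rw [laplacian_congr (hout x hx0), laplacian_sum _ _ fun i _ =>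
        (hterm x hx0 i).of_le (WithTop.coe_le_coe.mpr le_top)]
      have hcalc := (hA j J₀ hJ₀ S.aF S.vF hS.smooth_aF hS.smooth_vF hS.aF_pos hS.vF_pos S.metric x
        hx0 hloc).2
      simp only [hS.deriv_aF, hS.deriv_vF, ← ht] at hcalc
      obtain ⟨e1, e2, e3⟩ := hS.vF_div_aF t
      set N : ℝ := 2 * (j : ℝ) + 1 with hNdef
      have hN0 : N ≠ 0 := by positivity
      have etr : 2 * (j : ℝ) * (S.w t - deriv S.s t / (2 * N)) +
          (S.w t + deriv S.s t * (N - 1) / (2 * N)) = N * S.w t := by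
        rw [hNdef]; field_simp; ring
      have hJQ : ∀ i, (1 / S.vF t - 1 / S.aF t) * MvPolynomial.eval x (qOp J₀ (b i)) =
          (1 / S.vF t - 1 / S.aF t) * ∑ l, A t l i * MvPolynomial.eval x (b l) := by
        intro i
        rcases hor with h | h
        · simp [e2, e3, h]
        · rw [← h, hQ t i]; simp [map_sum, MvPolynomial.smul_eval]
      rw [Finset.sum_congr rfl fun i _ => hcalc (φ i) (hφ i) L (b i) (hb i), ← Finset.sum_div,
        div_eq_zero_iff]
      left
      calc _ = ∑ i, ((deriv (deriv (φ i)) t + (2 * j + N * S.w t) * deriv (φ i) t -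
              (L * (L + 2 * j) : ℝ) / S.aF t * φ i t) * MvPolynomial.eval x (b i) -
            φ i t * ((1 / S.vF t - 1 / S.aF t) * ∑ l, A t l i * MvPolynomial.eval x (b l))) := by
            refine Finset.sum_congr rfl fun i _ => ?_
            rw [← hJQ i, etr, hNdef]; ring
        _ = ∑ i, ((deriv (deriv (φ i)) t + (2 * j + N * S.w t) * deriv (φ i) t -
              (L * (L + 2 * j) : ℝ) / S.aF t * φ i t) * MvPolynomial.eval x (b i)) -
            ∑ l, ((1 / S.vF t - 1 / S.aF t) * ∑ i, A t l i * φ i t) * MvPolynomial.eval x (b l) := by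
            rw [Finset.sum_sub_distrib]
            congr 1
            simp only [Finset.mul_sum, Finset.sum_mul]
            rw [Finset.sum_comm]
            exact Finset.sum_congr rfl fun l _ => Finset.sum_congr rfl fun i _ => by ring
        _ = _ := by
            rw [← Finset.sum_sub_distrib]
            refine Finset.sum_eq_zero fun i _ => ?_
            rw [hode i t, div_eq_mul_one_div _ (S.aF t), e2, e3]
            ring
  refine ⟨u, ⟨hsmooth, hharm, ?_⟩, fun x hx => if_pos hx⟩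
  let K : Fin d → ℝ := fun i => ∑ e ∈ (b i).support, |MvPolynomial.coeff e (b i)|
  set D : ℝ := Real.sqrt (amb j) / Real.sqrt m with hD
  refine ⟨∑ i, (|c i| + |C| * D ^ k) * K i, fun x => ?_⟩
  obtain ⟨hlow, -⟩ := gdist_bounds hcont hpinch 0 x
  rw [sub_zero] at hlow
  set G := gdist S.metric 0 x with hG
  have hG0 : 0 ≤ G := le_trans (by positivity) hlow
  have hrad : rad x ≤ D * G := by
    refine (rad_le_norm x).trans ?_
    rw [hD, div_mul_eq_mul_div, le_div_iff₀ (Real.sqrt_pos.mpr hm), mul_assoc, mul_comm ‖x‖]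
    exact mul_le_mul_of_nonneg_left hlow (Real.sqrt_nonneg _)
  have hG1 : 1 ≤ (1 + G) ^ k := one_le_pow₀ (by linarith)
  have hD0 : 0 ≤ D := by positivity
  have hK0 : ∀ i, 0 ≤ K i := fun i => Finset.sum_nonneg fun e _ => abs_nonneg _
  rw [Finset.sum_mul]
  by_cases hx : rad x < 1
  · rw [show u x = poly x from if_pos hx]
    refine (Finset.abs_sum_le_sum_abs _ _).trans (Finset.sum_le_sum fun i _ => ?_)
    rw [abs_mul]
    have h1 : |MvPolynomial.eval x (b i)| ≤ K i :=
      (abs_eval_le (hhom i) x).trans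
        (mul_le_of_le_one_right (hK0 i) (pow_le_one₀ (rad_nonneg x) hx.le))
    have h2 : 0 ≤ |C| * D ^ k := by positivity
    calc |c i| * |MvPolynomial.eval x (b i)| ≤ (|c i| + |C| * D ^ k) * K i * 1 := by
          rw [mul_one]; exact mul_le_mul (by linarith) h1 (abs_nonneg _) (by positivity)
      _ ≤ _ := mul_le_mul_of_nonneg_left hG1 (mul_nonneg (by positivity) (hK0 i))
  · rw [show u x = form x from if_neg hx]
    push Not at hx
    have hr0 : 0 < rad x := by linarith
    refine (Finset.abs_sum_le_sum_abs _ _).trans (Finset.sum_le_sum fun i _ => ?_)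
    rw [abs_mul, abs_div, abs_of_pos (pow_pos hr0 L)]
    have hgr : |φ i (Real.log (rad x))| ≤ |C| * (D ^ k * (1 + G) ^ k) := by
      refine (hgrow i _ (Real.log_nonneg hx)).trans ?_
      rw [Real.exp_nat_mul, Real.exp_log hr0, ← mul_pow]
      refine mul_le_mul (le_abs_self C) (pow_le_pow_left₀ hr0.le ?_ k) (by positivity) (abs_nonneg _)
      exact hrad.trans (mul_le_mul_of_nonneg_left (by linarith) hD0)
    calc |φ i (Real.log (rad x))| / rad x ^ L * |MvPolynomial.eval x (b i)|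
        ≤ |φ i (Real.log (rad x))| / rad x ^ L * (K i * rad x ^ L) :=
          mul_le_mul_of_nonneg_left (abs_eval_le (hhom i) x) (by positivity)
      _ = |φ i (Real.log (rad x))| * K i := by field_simp
      _ ≤ |C| * (D ^ k * (1 + G) ^ k) * K i := mul_le_mul_of_nonneg_right hgr (hK0 i)
      _ ≤ _ := by
          have h0 : 0 ≤ |c i| * K i * (1 + G) ^ k := by
            have := hK0 i; positivity
          linarith

end profile

end Vale.Agent.P225
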