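import Mathlib

/-! P225: global solutions of linear ODEs with continuous coefficients, and energy comparisons. -/

open MeasureTheory Set Filter Topology
open scoped NNReal

namespace Vale.Agent.P225

section linear

variable {F : Type*} [NormedAddCommGroup F] [NormedSpace ℝ F] [CompleteSpace F]

/-- Picard iterates of a linear equation. -/
noncomputable def picard (A : ℝ → F →L[ℝ] F) (t₀ : ℝ) (x₀ : F) : ℕ → ℝ → F
  | 0 => fun _ => x₀
  | m + 1 => fun t => ∫ s in t₀..t, A s (picard A t₀ x₀ m s)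

theorem picard_continuous {A : ℝ → F →L[ℝ] F} (hA : Continuous A) (t₀ : ℝ) (x₀ : F) :
    ∀ m, Continuous (picard A t₀ x₀ m)
  | 0 => continuous_const
  | m + 1 => by
    have h := hA.clm_apply (picard_continuous hA t₀ x₀ m)
    exact intervalIntegral.continuous_primitive (fun a b => h.intervalIntegrable a b) t₀

theorem picard_hasDerivAt {A : ℝ → F →L[ℝ] F} (hA : Continuous A) (t₀ : ℝ) (x₀ : F) (m : ℕ) (t : ℝ) :
    HasDerivAt (picard A t₀ x₀ (m + 1)) (A t (picard A t₀ x₀ m t)) t := by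
  have h := hA.clm_apply (picard_continuous hA t₀ x₀ m)
  exact (h.integral_hasStrictDerivAt t₀ t).hasDerivAt

theorem picard_norm_le {A : ℝ → F →L[ℝ] F} (hA : Continuous A) {t₀ T M : ℝ}
    (hM : ∀ s, |s - t₀| ≤ T → ‖A s‖ ≤ M) (hM0 : 0 ≤ M) (x₀ : F) :
    ∀ m t, |t - t₀| ≤ T →
      ‖picard A t₀ x₀ m t‖ ≤ ‖x₀‖ * M ^ m * |t - t₀| ^ m / m.factorial
  | 0, t, _ => by simp [picard]
  | m + 1, t, ht => by
    have hb := picard_norm_le hA hM hM0 x₀ m
    show ‖∫ s in t₀..t, A s (picard A t₀ x₀ m s)‖ ≤ _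
    have hc : Continuous fun s => ‖x₀‖ * M ^ (m + 1) * |s - t₀| ^ m / m.factorial := by fun_prop
    have key : ∀ s ∈ Set.uIoc t₀ t, ‖A s (picard A t₀ x₀ m s)‖ ≤
        ‖x₀‖ * M ^ (m + 1) * |s - t₀| ^ m / m.factorial := by
      intro s hs
      have hs' : |s - t₀| ≤ T := (Set.abs_sub_left_of_mem_uIcc (Set.uIoc_subset_uIcc hs)).trans ht
      calc ‖A s (picard A t₀ x₀ m s)‖ ≤ ‖A s‖ * ‖picard A t₀ x₀ m s‖ := (A s).le_opNorm _
        _ ≤ M * (‖x₀‖ * M ^ m * |s - t₀| ^ m / m.factorial) :=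
          mul_le_mul (hM s hs') (hb s hs') (norm_nonneg _) hM0
        _ = _ := by ring
    refine (intervalIntegral.norm_integral_le_abs_of_norm_le (Eventually.of_forall key |>.filter_mono
      le_top |> fun h => (ae_restrict_iff' measurableSet_uIoc).mpr h) (hc.intervalIntegrable _ _)).trans ?_
    have e : ∫ s in t₀..t, ‖x₀‖ * M ^ (m + 1) * |s - t₀| ^ m / m.factorial =
        ‖x₀‖ * M ^ (m + 1) / m.factorial * ∫ s in t₀..t, |s - t₀| ^ m := by
      rw [← intervalIntegral.integral_const_mul]; congr 1; funext s; ring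
    rw [e, abs_mul, abs_of_nonneg (by positivity)]
    have e2 : |∫ s in t₀..t, |s - t₀| ^ m| = |t - t₀| ^ (m + 1) / (m + 1) := by
      rcases le_total t₀ t with h | h
      · have hcongr : ∫ s in t₀..t, |s - t₀| ^ m = ∫ s in t₀..t, (s - t₀) ^ m := by
          refine intervalIntegral.integral_congr fun s hs => ?_
          rw [Set.uIcc_of_le h] at hs
          simp [abs_of_nonneg (sub_nonneg.mpr hs.1)]
        rw [hcongr, intervalIntegral.integral_comp_sub_right (fun u => u ^ m), integral_pow]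
        simp [abs_of_nonneg (sub_nonneg.mpr h)]
        positivity
      · have hcongr : ∫ s in t₀..t, |s - t₀| ^ m = ∫ s in t₀..t, (t₀ - s) ^ m := by
          refine intervalIntegral.integral_congr fun s hs => ?_
          rw [Set.uIcc_of_ge h] at hs
          simp [abs_sub_comm s t₀, abs_of_nonneg (sub_nonneg.mpr hs.2)]
        rw [hcongr, intervalIntegral.integral_comp_sub_left (fun u => u ^ m), integral_pow]
        rw [abs_sub_comm t t₀, abs_of_nonneg (sub_nonneg.mpr h)]
        simp [abs_div]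
        rw [abs_of_nonneg (sub_nonneg.mpr h), abs_of_nonneg (by positivity : (0:ℝ) ≤ (m:ℝ) + 1)]
    rw [e2, Nat.factorial_succ, Nat.cast_mul, Nat.cast_succ]
    apply le_of_eq
    field_simp

/-- Global existence for linear equations. -/
theorem exists_linearODE {A : ℝ → F →L[ℝ] F} (hA : Continuous A) (t₀ : ℝ) (x₀ : F) :
    ∃ X : ℝ → F, X t₀ = x₀ ∧ ∀ t, HasDerivAt X (A t (X t)) t := by
  refine ⟨fun t => ∑' m, picard A t₀ x₀ m t, ?_, fun t => ?_⟩
  · show ∑' m, picard A t₀ x₀ m t₀ = x₀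
    rw [tsum_eq_single 0]
    · rfl
    · intro m hm
      obtain ⟨m, rfl⟩ := Nat.exists_eq_succ_of_ne_zero hm
      simp [picard]
  · set T := |t - t₀| + 1
    obtain ⟨M, hM⟩ := (isCompact_closedBall t₀ T).exists_bound_of_continuousOn hA.continuousOn
    set M' := max M 0
    have hM' : ∀ s, |s - t₀| ≤ T → ‖A s‖ ≤ M' := fun s hs =>
      (hM s (Metric.mem_closedBall.mpr (by rwa [Real.dist_eq]))).trans (le_max_left _ _)
    have hM0 : 0 ≤ M' := le_max_right _ _
    have hbd := picard_norm_le hA hM' hM0 x₀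
    have hsum : ∀ s, |s - t₀| ≤ T → Summable fun m => picard A t₀ x₀ m s := fun s hs => by
      refine Summable.of_norm_bounded ((Real.summable_pow_div_factorial (M' * |s - t₀|)).mul_left ‖x₀‖)
        fun m => (hbd m s hs).trans (le_of_eq ?_)
      rw [mul_pow]; ring
    have hu : Summable fun m : ℕ => M' * (‖x₀‖ * ((M' * T) ^ m / m.factorial)) :=
      ((Real.summable_pow_div_factorial (M' * T)).mul_left ‖x₀‖).mul_left M'
    have hd : HasDerivAt (fun z => ∑' m, picard A t₀ x₀ (m + 1) z)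
        (∑' m, A t (picard A t₀ x₀ m t)) t := by
      refine hasDerivAt_tsum_of_isPreconnected hu Metric.isOpen_ball
        (convex_ball t₀ T).isPreconnected (fun m y _ => picard_hasDerivAt hA t₀ x₀ m y)
        (fun m y hy => ?_) (Metric.mem_ball_self (by positivity))
        (by simpa [picard] using (summable_zero : Summable fun _ : ℕ => (0 : F)))
        (Metric.mem_ball.mpr (by rw [Real.dist_eq]; simp [T]))
      have hy' : |y - t₀| ≤ T := by
        rw [Metric.mem_ball, Real.dist_eq] at hy; exact hy.le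
      refine ((A y).le_opNorm _).trans (mul_le_mul (hM' y hy') ?_ (norm_nonneg _) hM0)
      refine (hbd m y hy').trans ?_
      rw [mul_pow, mul_div_assoc', mul_assoc]
      gcongr
    have hts := hsum t (by simp [T])
    have e : (∑' m, A t (picard A t₀ x₀ m t)) = A t (∑' m, picard A t₀ x₀ m t) :=
      ((A t).map_tsum hts).symm
    rw [e] at hd
    refine (hd.const_add x₀).congr_of_eventuallyEq ?_
    filter_upwards [Metric.isOpen_ball.mem_nhds (Metric.mem_ball.mpr
      (by rw [Real.dist_eq]; simp [T]) : t ∈ Metric.ball t₀ T)] with z hz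
    rw [Metric.mem_ball, Real.dist_eq] at hz
    rw [(hsum z hz.le).tsum_eq_zero_add]
    rfl

/-- Uniqueness for linear equations. -/
theorem linearODE_unique {A : ℝ → F →L[ℝ] F} {t₀ a b : ℝ} (hA : Continuous A)
    {X Y : ℝ → F} (ht : t₀ ∈ Icc a b) (hX : ∀ t ∈ Icc a b, HasDerivAt X (A t (X t)) t)
    (hY : ∀ t ∈ Icc a b, HasDerivAt Y (A t (Y t)) t) (h0 : X t₀ = Y t₀) :
    EqOn X Y (Icc a b) := by
  obtain ⟨M, hM⟩ := (isCompact_Icc (a := a) (b := b)).exists_bound_of_continuousOn hA.continuousOn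
  have hL : ∀ t ∈ Icc a b, LipschitzOnWith M.toNNReal (fun y => A t y) univ := fun t ht =>
    ((A t).lipschitz.weaken (by
      rw [← NNReal.coe_le_coe, coe_nnnorm]
      exact (hM t ht).trans (Real.le_coe_toNNReal M))).lipschitzOnWith
  intro t htt
  rcases le_total t₀ t with h | h
  · exact ODE_solution_unique_of_mem_Icc_right (v := fun t y => A t y) (s := fun _ => univ)
      (K := M.toNNReal) (a := t₀) (b := b)
      (fun s hs => hL s ⟨ht.1.trans hs.1, hs.2.le⟩)
      (fun s hs => (hX s ⟨ht.1.trans hs.1, hs.2⟩).continuousAt.continuousWithinAt)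
      (fun s hs => (hX s ⟨ht.1.trans hs.1, hs.2.le⟩).hasDerivWithinAt) (fun _ _ => mem_univ _)
      (fun s hs => (hY s ⟨ht.1.trans hs.1, hs.2⟩).continuousAt.continuousWithinAt)
      (fun s hs => (hY s ⟨ht.1.trans hs.1, hs.2.le⟩).hasDerivWithinAt) (fun _ _ => mem_univ _)
      h0 ⟨h, htt.2⟩
  · exact ODE_solution_unique_of_mem_Icc_left (v := fun t y => A t y) (s := fun _ => univ)
      (K := M.toNNReal) (a := a) (b := t₀)
      (fun s hs => hL s ⟨hs.1.le, hs.2.trans ht.2⟩)
      (fun s hs => (hX s ⟨hs.1, hs.2.trans ht.2⟩).continuousAt.continuousWithinAt)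
      (fun s hs => (hX s ⟨hs.1.le, hs.2.trans ht.2⟩).hasDerivWithinAt) (fun _ _ => mem_univ _)
      (fun s hs => (hY s ⟨hs.1, hs.2.trans ht.2⟩).continuousAt.continuousWithinAt)
      (fun s hs => (hY s ⟨hs.1.le, hs.2.trans ht.2⟩).hasDerivWithinAt) (fun _ _ => mem_univ _)
      h0 ⟨htt.1, h⟩

theorem linearODE_unique_univ {A : ℝ → F →L[ℝ] F} {t₀ : ℝ} (hA : Continuous A) {X Y : ℝ → F}
    (hX : ∀ t, HasDerivAt X (A t (X t)) t) (hY : ∀ t, HasDerivAt Y (A t (Y t)) t)
    (h0 : X t₀ = Y t₀) : X = Y := by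
  funext t
  exact linearODE_unique hA (a := min t₀ t) (b := max t₀ t) ⟨min_le_left _ _, le_max_left _ _⟩
    (fun s _ => hX s) (fun s _ => hY s) h0 ⟨min_le_right _ _, le_max_right _ _⟩

end linear

/-! ### Scalar differential inequalities -/

/-- `f' ≤ K f` on an interval gives exponential growth at most. -/
theorem le_exp_mul_of_deriv_le {f f' : ℝ → ℝ} {a b K : ℝ}
    (hf : ∀ t ∈ Icc a b, HasDerivAt f (f' t) t) (hle : ∀ t ∈ Icc a b, f' t ≤ K * f t) :
    ∀ t ∈ Icc a b, f t ≤ f a * Real.exp (K * (t - a)) := by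
  have hg : ∀ t ∈ Icc a b, HasDerivAt (fun s => f s * Real.exp (-(K * (s - a))))
      ((f' t - K * f t) * Real.exp (-(K * (t - a)))) t := fun t ht => by
    have h := (hf t ht).mul ((((hasDerivAt_id t).sub_const a).const_mul K).neg.exp)
    refine h.congr_deriv ?_
    simp; ring
  intro t ht
  have hanti : AntitoneOn (fun s => f s * Real.exp (-(K * (s - a)))) (Icc a b) :=
    antitoneOn_of_hasDerivWithinAt_nonpos (convex_Icc a b)
      (fun s hs => (hg s hs).continuousAt.continuousWithinAt)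
      (fun s hs => (hg s (interior_subset hs)).hasDerivWithinAt)
      fun s hs => mul_nonpos_of_nonpos_of_nonneg
        (sub_nonpos.mpr (hle s (interior_subset hs))) (Real.exp_pos _).le
  have h := hanti ⟨le_rfl, ht.1.trans ht.2⟩ ht ht.1
  simp only [sub_self, mul_zero, neg_zero, Real.exp_zero, mul_one] at h
  calc f t = f t * Real.exp (-(K * (t - a))) * Real.exp (K * (t - a)) := by
        rw [mul_assoc, ← Real.exp_add, neg_add_cancel, Real.exp_zero, mul_one]
    _ ≤ _ := mul_le_mul_of_nonneg_right h (Real.exp_pos _).le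

/-- `f' ≤ -g f + c` with `g > 0`. -/
theorem le_of_deriv_le_neg {f f' : ℝ → ℝ} {a b g c : ℝ} (hg : 0 < g)
    (hf : ∀ t ∈ Icc a b, HasDerivAt f (f' t) t) (hle : ∀ t ∈ Icc a b, f' t ≤ -g * f t + c) :
    ∀ t ∈ Icc a b, f t ≤ (f a - c / g) * Real.exp (-g * (t - a)) + c / g := by
  intro t ht
  have h := le_exp_mul_of_deriv_le (f := fun s => f s - c / g) (f' := f') (K := -g)
    (fun s hs => (hf s hs).sub_const _)
    (fun s hs => (hle s hs).trans_eq (by field_simp; ring)) t ht
  linarith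

/-- Positivity for `z'' + b z' ≥ lam z`. -/
theorem pos_of_supersolution {z z' z'' b lam : ℝ → ℝ} {a e : ℝ}
    (hz : ∀ t ∈ Icc a e, HasDerivAt z (z' t) t) (hz' : ∀ t ∈ Icc a e, HasDerivAt z' (z'' t) t)
    (hlam : ∀ t ∈ Icc a e, 0 ≤ lam t) (hb : Continuous b)
    (hle : ∀ t ∈ Icc a e, lam t * z t ≤ z'' t + b t * z' t) (h0 : 0 < z a) (h0' : 0 ≤ z' a) :
    ∀ t ∈ Icc a e, 0 < z t ∧ 0 ≤ z' t := by
  intro t₁ ht₁
  set B : ℝ → ℝ := fun t => ∫ s in a..t, b s
  have hmono : ∀ c ∈ Icc a e, (∀ s ∈ Icc a c, 0 ≤ z s) →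
      ∀ s ∈ Icc a c, 0 ≤ z' s ∧ z a ≤ z s := by
    intro c hc hnn
    have hw : ∀ s ∈ Icc a c, HasDerivAt (fun u => Real.exp (B u) * z' u)
        (Real.exp (B s) * (z'' s + b s * z' s)) s := fun s hs => by
      have hB : HasDerivAt B (b s) s := (hb.integral_hasStrictDerivAt a s).hasDerivAt
      exact (hB.exp.mul (hz' s ⟨hs.1, hs.2.trans hc.2⟩)).congr_deriv (by ring)
    have hm : MonotoneOn (fun u => Real.exp (B u) * z' u) (Icc a c) :=
      monotoneOn_of_hasDerivWithinAt_nonneg (convex_Icc a c)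
        (fun s hs => (hw s hs).continuousAt.continuousWithinAt)
        (fun s hs => (hw s (interior_subset hs)).hasDerivWithinAt) fun s hs => by
          have hs' := interior_subset hs
          have hse : s ∈ Icc a e := ⟨hs'.1, hs'.2.trans hc.2⟩
          exact mul_nonneg (Real.exp_pos _).le
            ((mul_nonneg (hlam s hse) (hnn s hs')).trans (hle s hse))
    have hz'nn : ∀ s ∈ Icc a c, 0 ≤ z' s := fun s hs => by
      have h := hm ⟨le_rfl, hc.1⟩ hs hs.1
      exact nonneg_of_mul_nonneg_right ((mul_nonneg (Real.exp_pos _).le h0').trans h) (Real.exp_pos _)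
    have hzm : MonotoneOn z (Icc a c) :=
      monotoneOn_of_hasDerivWithinAt_nonneg (convex_Icc a c)
        (fun s hs => (hz s ⟨hs.1, hs.2.trans hc.2⟩).continuousAt.continuousWithinAt)
        (fun s hs => (hz s ⟨(interior_subset hs).1,
          (interior_subset hs).2.trans hc.2⟩).hasDerivWithinAt)
        fun s hs => hz'nn s (interior_subset hs)
    exact fun s hs => ⟨hz'nn s hs, hzm ⟨le_rfl, hc.1⟩ hs hs.1⟩
  set S := Icc a t₁ ∩ z ⁻¹' Iic 0
  have hzc : ContinuousOn z (Icc a t₁) := fun s hs =>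
    (hz s ⟨hs.1, hs.2.trans ht₁.2⟩).continuousAt.continuousWithinAt
  have hSc : IsCompact S := (isCompact_Icc).of_isClosed_subset
    (hzc.preimage_isClosed_of_isClosed isClosed_Icc isClosed_Iic) inter_subset_left
  rcases S.eq_empty_or_nonempty with he | hne
  · have hall : ∀ s ∈ Icc a t₁, 0 ≤ z s := fun s hs => by
      by_contra hneg
      exact Set.eq_empty_iff_forall_notMem.mp he s ⟨hs, (not_le.mp hneg).le⟩
    have := hmono t₁ ht₁ hall t₁ ⟨ht₁.1, le_rfl⟩
    exact ⟨h0.trans_le this.2, this.1⟩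
  · exfalso
    obtain ⟨c, hc, hcmin⟩ := hSc.exists_isMinOn hne continuousOn_id
    have hac : a < c := lt_of_le_of_ne hc.1.1 fun h => by
      subst h; exact absurd hc.2 (not_le.mpr h0)
    have hall : ∀ s ∈ Icc a c, 0 ≤ z s := by
      have hIco : ∀ s ∈ Ico a c, 0 ≤ z s := fun s hs => by
        by_contra hneg
        have := hcmin (show s ∈ S from ⟨⟨hs.1, hs.2.le.trans hc.1.2⟩, (not_le.mp hneg).le⟩)
        exact absurd this (not_le.mpr hs.2)
      intro s hs
      rcases lt_or_eq_of_le hs.2 with h | h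
      · exact hIco s ⟨hs.1, h⟩
      · subst h
        have hcl : s ∈ closure (Ico a s) := by rw [closure_Ico hac.ne]; exact ⟨hac.le, le_rfl⟩
        exact le_on_closure hIco continuousOn_const
          ((hzc.mono (Icc_subset_Icc le_rfl hc.1.2)).mono (by rw [closure_Ico hac.ne])) hcl
    have := (hmono c ⟨hc.1.1, hc.1.2.trans ht₁.2⟩ hall c ⟨hac.le, le_rfl⟩).2
    exact absurd (h0.trans_le this) (not_lt.mpr hc.2)

end Vale.Agent.P225
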