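import Vale.Agent.P225.Interfaces4

/-! P225 MODULE K: growth within a cycle of a column ending in a single component. -/

open Set Filter Topology
open scoped RealInnerProductSpace

namespace Vale.Agent.P225

/-- A Euclidean vector is controlled by a bound on its coordinates. -/
theorem norm_le_of_coord {d : ℕ} (v : Lev d) {B : ℝ} (hB : 0 ≤ B) (h : ∀ i, |v i| ≤ B) :
    ‖v‖ ≤ ((d : ℝ) + 1) * B := by
  refine le_of_pow_le_pow_left₀ two_ne_zero (by positivity) ?_
  rw [EuclideanSpace.norm_sq_eq]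
  calc ∑ i, ‖v i‖ ^ 2 ≤ ∑ _i : Fin d, B ^ 2 := by
        refine Finset.sum_le_sum fun i _ => ?_
        exact pow_le_pow_left₀ (norm_nonneg _) (by simpa [Real.norm_eq_abs] using h i) 2
    _ = (d : ℝ) * B ^ 2 := by simp
    _ ≤ (((d : ℝ) + 1) * B) ^ 2 := by
        rw [mul_pow]
        refine mul_le_mul_of_nonneg_right ?_ (sq_nonneg B)
        nlinarith [(Nat.cast_nonneg d : (0 : ℝ) ≤ d)]

/-- Where the operator is diagonal each coordinate solves a scalar equation. -/
theorem solOn_coord {d : ℕ} {L : ℝ → Op d} {b : ℝ → ℝ} {U U' : ℝ → Lev d} {a a' : ℝ}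
    (h : SolOn L b U U' a a') (i : Fin d) {μ : ℝ → ℝ}
    (hμ : ∀ t ∈ Icc a a', ∀ v : Lev d, L t v i = μ t * v i) :
    (∀ t ∈ Icc a a', HasDerivAt (fun s => U s i) (U' t i) t) ∧
    ∀ t ∈ Icc a a', HasDerivAt (fun s => U' s i) (μ t * U t i - b t * U' t i) t := by
  refine ⟨fun t ht => ?_, fun t ht => ?_⟩
  · exact (EuclideanSpace.proj (𝕜 := ℝ) i).hasFDerivAt.comp_hasDerivAt t (h.dU t ht)
  · have := (EuclideanSpace.proj (𝕜 := ℝ) i).hasFDerivAt.comp_hasDerivAt t (h.dP t ht)
    refine this.congr_deriv ?_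
    simp [hμ t ht]

/-- MODULE K. -/
theorem plateau : PlateauStmt := by
  intro d P D e Bc Cc q δ hCc hδ hgap
  obtain ⟨Lb, hLb0, hbnd⟩ := lamN_bounds D e Bc
  obtain ⟨C', hC'⟩ := e.rad.decay
  set C := max Cc (Lb / 29) with hCdef
  have hC0 : 0 ≤ C := hCc.trans (le_max_left _ _)
  set X := Real.exp (e.sd / 41) / e.ρi ^ 2 * (D.lam + (Real.exp (-e.sd) - 1) * D.m q ^ 2) with hX
  set gap := δ ^ 2 + 40 * δ - X with hgapdef
  have hgap0 : 0 < gap := by linarith
  set K := ((d : ℝ) + 1) * (2 + C / δ) with hKdef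
  have hK : 1 ≤ K := by
    have : (0 : ℝ) ≤ C / δ := div_nonneg hC0 hδ.le
    rw [hKdef]
    nlinarith [(Nat.cast_nonneg d : (0 : ℝ) ≤ d)]
  refine ⟨K, 5 * C, hK, by linarith, ?_⟩
  filter_upwards [hbnd, eventually_ge_atTop 1,
    tendsto_parN_E.eventually_ge_atTop (max 1 (41 * δ * |C'| / gap))]
    with ν hν hν1 hνT c hc U U' hsol hin hder hend t ht
  set p := parN P e.sd ν
  have hp : p.OK := parN_ok e.sd_pos.le hν1
  have hR : 0 < p.R := CycPar.R_pos hp
  have hlong := hp.long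
  have hpos : ∀ s ∈ Icc p.E p.E', ∀ x, 0 ≤ ⟪x, D.lamN e ν c s x⟫ := fun s _ x => (hν c hc s).2 x
  have hP : ∀ s ∈ Icc p.E p.E', ‖U' s‖ ≤ C * ‖U s‖ :=
    hsol.norm_deriv_le e.bF_continuous hpos hin (b₀ := 29) (Lb := Lb) (by norm_num)
      (fun s _ => (e.bF_mem s).1) (fun s _ => (hν c hc s).1) (le_max_right _ _)
      (hder.trans (mul_le_mul_of_nonneg_right (le_max_left _ _) (norm_nonneg _)))
  have hall : ∀ s ∈ Icc p.E p.E', ‖U s‖ ≤ ‖U p.E‖ * Real.exp (C * (s - p.E)) :=
    hsol.norm_le_exp hP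
  rcases (norm_nonneg (U p.E)).eq_or_lt with h0 | h0
  · have := hall t ht
    rw [← h0, zero_mul] at this
    rw [← h0, mul_zero]
    exact this
  set a₁ := p.E + 3 * p.R with ha₁
  set a₂ := p.E' - 2 * p.R with ha₂
  have ha₁m : a₁ ∈ Icc p.E p.E' := ⟨by linarith, by linarith⟩
  have hU₁ : ‖U a₁‖ ≤ ‖U p.E‖ * Real.exp (3 * C * p.R) := by
    refine (hall a₁ ha₁m).trans (le_of_eq ?_)
    rw [ha₁]
    ring_nf
  have hU₁0 : 0 < ‖U a₁‖ :=
    h0.trans_le (hsol.norm_mono e.bF_continuous hpos hin a₁ ha₁m)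
  set K₁ := (2 + C / δ) * ‖U a₁‖ with hK₁
  have hC2 : 0 ≤ C / δ := div_nonneg hC0 hδ.le
  have hK₁1 : ‖U a₁‖ < K₁ := lt_mul_of_one_lt_left hU₁0 (by linarith)
  have hcoord : ∀ (v : Lev d) i, |v i| ≤ ‖v‖ := fun v i => by
    simpa [Real.norm_eq_abs] using PiLp.norm_apply_le v i
  have hmid : ∀ s ∈ Icc a₁ a₂, ‖U s‖ ≤
      K * Real.exp (3 * C * p.R + δ * (s - p.E)) * ‖U p.E‖ := by
    intro s hs
    have hbd : ∀ i, |U s i| ≤ K₁ * Real.exp (δ * (s - a₁)) := by
      intro i
      have hlate : ∀ r ∈ Icc a₁ p.E', ∀ v : Lev d, D.lamN e ν c r v i = D.lamC e ν i r * v i :=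
        fun r hr v => lamN_apply_of_late D e hν1
          (show p.E + p.R ≤ r by linarith [hr.1]) c v i
      obtain ⟨h1, h2⟩ := solOn_coord (hsol.mono ha₁m.1 le_rfl) i hlate
      rcases eq_or_ne i q with rfl | hiq
      · have hsub : ∀ r ∈ Icc a₁ a₂, r ∈ Icc a₁ p.E' := fun r hr =>
          ⟨hr.1, hr.2.trans (by linarith)⟩
        refine abs_le_exp_of_root (fun r hr => h1 r (hsub r hr)) (fun r hr => h2 r (hsub r hr))
          e.bF_continuous (fun r _ => lamC_nonneg D e hν1 i r) (fun r hr => ?_) ?_ ?_ s hs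
        · have hpl : (parN P e.sd ν).plateau r = e.sd := CycPar.plateau_eq_sd hp hr
          have hmp : 0 ≤ D.lam + (Real.exp (-e.sd) - 1) * D.m i ^ 2 := by
            nlinarith [D.m_le i, mul_nonneg (Real.exp_pos (-e.sd)).le (sq_nonneg (D.m i))]
          have hlam : D.lamC e ν i r ≤ X := by
            simp only [LevelData.lamC, hpl, hX]
            refine mul_le_mul_of_nonneg_right ?_ hmp
            exact div_le_div_of_nonneg_left (Real.exp_pos _).le (pow_pos e.ρi_pos 2)
              (pow_le_pow_left₀ e.ρi_pos.le (e.rad.lower r) 2)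
          have hT1 : 1 ≤ (ν : ℝ) ^ 9 := (le_max_left _ _).trans hνT
          have hr1 : (ν : ℝ) ^ 9 ≤ r := by
            have : p.E ≤ r := ha₁m.1.trans hr.1
            exact this
          have hr0 : 0 < r := by linarith
          have hw : -(|C'| / r) ≤ e.w r := by
            have := neg_le_of_abs_le ((hC' r (hT1.trans hr1)).1)
            have h3 : C' / r ≤ |C'| / r := div_le_div_of_nonneg_right (le_abs_self _) hr0.le
            linarith
          have hsmall : 41 * δ * (|C'| / r) ≤ gap := by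
            rw [← mul_div_assoc, div_le_iff₀ hr0]
            have h3 := ((le_max_right _ _).trans hνT).trans hr1
            rw [div_le_iff₀ hgap0] at h3
            linarith
          have h4 := mul_le_mul_of_nonneg_left hw (show (0 : ℝ) ≤ 41 * δ by positivity)
          simp only [Env.bF]
          rw [hgapdef] at hsmall
          linarith
        · exact (hcoord _ _).trans_lt hK₁1
        · refine ((hcoord _ _).trans (hP a₁ ha₁m)).trans ?_
          rw [hK₁]
          have e3 : (2 + C / δ) * ‖U a₁‖ * δ = 2 * δ * ‖U a₁‖ + C * ‖U a₁‖ := by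
            field_simp
          rw [e3]
          exact le_add_of_nonneg_left (by positivity)
      · refine (abs_le_left_of_zero_end h1 h2 e.bF_continuous
          (fun r _ => lamC_nonneg D e hν1 i r) (hend i hiq) s
          ⟨hs.1, hs.2.trans (by linarith)⟩).trans ?_
        refine ((hcoord _ _).trans hK₁1.le).trans ?_
        exact le_mul_of_one_le_right (hU₁0.trans hK₁1).le
          (Real.one_le_exp (mul_nonneg hδ.le (by linarith [hs.1])))
    have hK₁0 : 0 ≤ K₁ := (hU₁0.trans hK₁1).le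
    refine (norm_le_of_coord _ (by positivity) hbd).trans ?_
    calc ((d : ℝ) + 1) * (K₁ * Real.exp (δ * (s - a₁)))
        = K * (‖U a₁‖ * Real.exp (δ * (s - a₁))) := by rw [hK₁, hKdef]; ring
      _ ≤ K * (‖U p.E‖ * Real.exp (3 * C * p.R) * Real.exp (δ * (s - p.E))) := by
          refine mul_le_mul_of_nonneg_left (mul_le_mul hU₁ (Real.exp_le_exp.mpr ?_)
            (Real.exp_pos _).le (by positivity)) (by linarith)
          exact mul_le_mul_of_nonneg_left (by linarith) hδ.le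
      _ = K * Real.exp (3 * C * p.R + δ * (s - p.E)) * ‖U p.E‖ := by rw [Real.exp_add]; ring
  have hRC : 0 ≤ C * p.R := mul_nonneg hC0 hR.le
  rcases le_or_gt t a₁ with h₁ | h₁
  · refine (hall t ht).trans ?_
    rw [mul_comm (‖U p.E‖)]
    refine mul_le_mul_of_nonneg_right ?_ h0.le
    refine le_trans (Real.exp_le_exp.mpr ?_) (le_mul_of_one_le_left (Real.exp_pos _).le hK)
    have := mul_le_mul_of_nonneg_left (show t - p.E ≤ 3 * p.R by linarith) hC0
    have := mul_nonneg hδ.le (show 0 ≤ t - p.E by linarith [ht.1])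
    linarith
  rcases le_or_gt t a₂ with h₂ | h₂
  · refine (hmid t ⟨h₁.le, h₂⟩).trans ?_
    refine mul_le_mul_of_nonneg_right (mul_le_mul_of_nonneg_left (Real.exp_le_exp.mpr ?_)
      (by linarith)) h0.le
    linarith
  · have ha₂m : a₂ ∈ Icc p.E p.E' := ⟨by linarith, by linarith⟩
    refine ((hsol.mono ha₂m.1 le_rfl).norm_le_exp
      (fun s hs => hP s ⟨ha₂m.1.trans hs.1, hs.2⟩) t ⟨h₂.le, ht.2⟩).trans ?_
    refine (mul_le_mul_of_nonneg_right (hmid a₂ ⟨by linarith, le_rfl⟩) (Real.exp_pos _).le).trans ?_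
    rw [mul_right_comm, mul_assoc K, ← Real.exp_add]
    refine mul_le_mul_of_nonneg_right (mul_le_mul_of_nonneg_left (Real.exp_le_exp.mpr ?_)
      (by linarith)) h0.le
    have := mul_le_mul_of_nonneg_left (show t - a₂ ≤ 2 * p.R by linarith [ht.2]) hC0
    have := mul_le_mul_of_nonneg_left (show a₂ - p.E ≤ t - p.E by linarith) hδ.le
    linarith

end Vale.Agent.P225
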