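import Mathlib

/-! P225: the schedule of one cycle (pulses, then a plateau), and concatenation of cycles. -/

open Set Filter Topology
open scoped ContDiff

namespace Vale.Agent.P225

/-- The transition function. -/
noncomputable abbrev smT : ℝ → ℝ := Real.smoothTransition

theorem smT_contDiff : ContDiff ℝ ∞ smT := Real.smoothTransition.contDiff

theorem smT_deriv_contDiff : ContDiff ℝ ∞ (deriv smT) :=
  (contDiff_infty_iff_deriv.mp smT_contDiff).2

theorem smT_deriv_eq_zero {x : ℝ} (h : x ≤ 0 ∨ 1 ≤ x) : deriv smT x = 0 := by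
  have key : ∀ y : ℝ, y < 0 ∨ 1 < y → deriv smT y = 0 := by
    intro y hy
    rcases hy with hy | hy
    · have : smT =ᶠ[𝓝 y] fun _ => (0:ℝ) := by
        filter_upwards [eventually_lt_nhds hy] with u hu
        exact Real.smoothTransition.zero_of_nonpos hu.le
      rw [this.deriv_eq, deriv_const]
    · have : smT =ᶠ[𝓝 y] fun _ => (1:ℝ) := by
        filter_upwards [eventually_gt_nhds hy] with u hu
        exact Real.smoothTransition.one_of_one_le hu.le
      rw [this.deriv_eq, deriv_const]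
  have hcl : IsClosed {y : ℝ | deriv smT y = 0} :=
    isClosed_eq smT_deriv_contDiff.continuous continuous_const
  rcases h with h | h
  · have : x ∈ closure (Iio (0:ℝ)) := by rw [closure_Iio]; exact h
    exact hcl.closure_subset_iff.mpr (fun y hy => key y (Or.inl hy)) this
  · have : x ∈ closure (Ioi (1:ℝ)) := by rw [closure_Ioi]; exact h
    exact hcl.closure_subset_iff.mpr (fun y hy => key y (Or.inr hy)) this

theorem exists_smT_bound : ∃ B : ℝ, 1 ≤ B ∧ ∀ x, |deriv smT x| ≤ B ∧
    |deriv (deriv smT) x| ≤ B ∧ |deriv (deriv (deriv smT)) x| ≤ B := by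
  have hsupp : HasCompactSupport (deriv smT) := HasCompactSupport.intro isCompact_Icc
    (K := Icc 0 1) fun x hx => smT_deriv_eq_zero (by
      by_contra h
      simp only [not_or, not_le] at h
      exact hx ⟨h.1.le, h.2.le⟩)
  have h2 := (contDiff_infty_iff_deriv.mp smT_deriv_contDiff).2
  have h3 := (contDiff_infty_iff_deriv.mp h2).2
  obtain ⟨B1, hB1⟩ := smT_deriv_contDiff.continuous.bounded_above_of_compact_support hsupp
  obtain ⟨B2, hB2⟩ := h2.continuous.bounded_above_of_compact_support hsupp.deriv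
  obtain ⟨B3, hB3⟩ := h3.continuous.bounded_above_of_compact_support hsupp.deriv.deriv
  refine ⟨max 1 (max B1 (max B2 B3)), le_max_left _ _, fun x => ⟨?_, ?_, ?_⟩⟩
  · exact ((Real.norm_eq_abs _).symm.trans_le (hB1 x)).trans (by simp)
  · exact ((Real.norm_eq_abs _).symm.trans_le (hB2 x)).trans (by simp)
  · exact ((Real.norm_eq_abs _).symm.trans_le (hB3 x)).trans (by simp)

/-- Parameters of one cycle: `[E, E + R]` pulses, `[E + 2R, E' - R]` the plateau at height `sd`. -/
structure CycPar where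
  P : ℕ
  E : ℝ
  E' : ℝ
  R : ℝ
  sd : ℝ

/-- Admissible parameters. -/
structure CycPar.OK (p : CycPar) : Prop where
  one_le : 1 ≤ p.R
  long : p.E + 6 * p.R ≤ p.E'
  sd_nonneg : 0 ≤ p.sd

namespace CycPar

variable (p : CycPar)

noncomputable def width : ℝ := p.R / (2 * p.P + 2)

noncomputable def st (k : Fin p.P) : ℝ := p.E + (2 * (k : ℕ) + 1) * p.width

noncomputable def pulse (k : Fin p.P) (t : ℝ) : ℝ := deriv smT ((t - p.st k) / p.width) / p.width

noncomputable def prim (k : Fin p.P) (t : ℝ) : ℝ := smT ((t - p.st k) / p.width)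

noncomputable def plateau (t : ℝ) : ℝ :=
  p.sd * (smT ((t - p.E - 2 * p.R) / p.R) * smT ((p.E' - p.R - t) / p.R))

noncomputable def sFun (c : Fin p.P → ℝ) (t : ℝ) : ℝ := (∑ k, c k * p.pulse k t) + p.plateau t

/-- The structure in force at time `t`. -/
noncomputable def pick {α : Type*} (Js : Fin p.P → α) (J₀ : α) (t : ℝ) : α :=
  open Classical in
  if h : ∃ k, t ∈ Ioo (p.st k) (p.st k + p.width) then Js h.choose else J₀

variable {p} (hp : p.OK)

include hp

theorem R_pos : 0 < p.R := zero_lt_one.trans_le hp.one_le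

theorem width_pos : 0 < p.width := div_pos (R_pos hp) (by positivity)

theorem pulse_eq_zero {k : Fin p.P} {t : ℝ} (h : t ∉ Ioo (p.st k) (p.st k + p.width)) :
    p.pulse k t = 0 := by
  have hw := width_pos hp
  rw [CycPar.pulse, smT_deriv_eq_zero, zero_div]
  rcases le_or_gt t (p.st k) with h1 | h1
  · exact Or.inl (div_nonpos_of_nonpos_of_nonneg (by linarith) hw.le)
  · refine Or.inr ((one_le_div hw).mpr ?_)
    have h2 : p.st k + p.width ≤ t := by
      by_contra h2
      exact h ⟨h1, not_le.mp h2⟩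
    linarith

theorem st_sep {k l : Fin p.P} (h : k < l) : p.st k + 2 * p.width ≤ p.st l := by
  have hw := width_pos hp
  have : ((k : ℕ) : ℝ) + 1 ≤ ((l : ℕ) : ℝ) := by exact_mod_cast Fin.lt_def.mp h
  simp only [CycPar.st]
  nlinarith

theorem slot_unique {k l : Fin p.P} {t : ℝ} (hk : t ∈ Icc (p.st k) (p.st k + p.width))
    (hl : t ∈ Icc (p.st l) (p.st l + p.width)) : k = l := by
  have hw := width_pos hp
  rcases lt_trichotomy k l with h | h | h
  · have := st_sep hp h
    linarith [hk.2, hl.1]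
  · exact h
  · have := st_sep hp h
    linarith [hl.2, hk.1]

theorem st_ge (k : Fin p.P) : p.E + p.width ≤ p.st k := by
  have hw := width_pos hp
  have : 0 ≤ 2 * ((k : ℕ) : ℝ) * p.width := by positivity
  simp only [CycPar.st]
  linarith

theorem st_add_le (k : Fin p.P) : p.st k + p.width ≤ p.E + p.R := by
  have hw := width_pos hp
  have hk : ((k : ℕ) : ℝ) + 1 ≤ (p.P : ℝ) := by exact_mod_cast k.isLt
  have hR : (2 * (p.P : ℝ) + 2) * p.width = p.R := by
    rw [CycPar.width]; field_simp
  simp only [CycPar.st]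
  nlinarith

theorem pulse_eq_zero_outside (k : Fin p.P) {t : ℝ} (h : t ≤ p.E ∨ p.E + p.R ≤ t) :
    p.pulse k t = 0 := by
  refine pulse_eq_zero hp fun ht => ?_
  have := st_ge hp k
  have := st_add_le hp k
  have := width_pos hp
  rcases h with h | h <;> linarith [ht.1, ht.2]

theorem plateau_eq_zero {t : ℝ} (h : t ≤ p.E + 2 * p.R ∨ p.E' - p.R ≤ t) : p.plateau t = 0 := by
  have hR := R_pos hp
  rcases h with h | h
  · rw [CycPar.plateau, show smT ((t - p.E - 2 * p.R) / p.R) = 0 from
      Real.smoothTransition.zero_of_nonpos (div_nonpos_of_nonpos_of_nonneg (by linarith) hR.le),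
      zero_mul, mul_zero]
  · rw [CycPar.plateau, show smT ((p.E' - p.R - t) / p.R) = 0 from
      Real.smoothTransition.zero_of_nonpos (div_nonpos_of_nonpos_of_nonneg (by linarith) hR.le),
      mul_zero, mul_zero]

theorem plateau_eq_sd {t : ℝ} (h : t ∈ Icc (p.E + 3 * p.R) (p.E' - 2 * p.R)) :
    p.plateau t = p.sd := by
  have hR := R_pos hp
  rw [CycPar.plateau, show smT ((t - p.E - 2 * p.R) / p.R) = 1 from
      Real.smoothTransition.one_of_one_le ((one_le_div hR).mpr (by linarith [h.1])),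
    show smT ((p.E' - p.R - t) / p.R) = 1 from
      Real.smoothTransition.one_of_one_le ((one_le_div hR).mpr (by linarith [h.2])), one_mul, mul_one]

theorem plateau_mem (t : ℝ) : 0 ≤ p.plateau t ∧ p.plateau t ≤ p.sd := by
  have h1 := Real.smoothTransition.nonneg ((t - p.E - 2 * p.R) / p.R)
  have h2 := Real.smoothTransition.nonneg ((p.E' - p.R - t) / p.R)
  have h3 := Real.smoothTransition.le_one ((t - p.E - 2 * p.R) / p.R)
  have h4 := Real.smoothTransition.le_one ((p.E' - p.R - t) / p.R)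
  exact ⟨mul_nonneg hp.sd_nonneg (mul_nonneg h1 h2),
    mul_le_of_le_one_right hp.sd_nonneg (mul_le_one₀ h3 h2 h4)⟩

theorem sFun_eq_zero {c : Fin p.P → ℝ} {t : ℝ} (h : t ≤ p.E ∨ p.E' - p.R ≤ t) : p.sFun c t = 0 := by
  have hR := R_pos hp
  have hl := hp.long
  rw [CycPar.sFun, plateau_eq_zero hp (h.imp_left fun h => h.trans (by linarith)),
    Finset.sum_eq_zero, add_zero]
  intro k _
  rw [pulse_eq_zero_outside hp k (h.imp_right fun h => le_trans (by linarith) h), mul_zero]

/-- The three cases for the schedule at a time. -/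
theorem sFun_cases (c : Fin p.P → ℝ) (t : ℝ) :
    (∃ k, t ∈ Ioo (p.st k) (p.st k + p.width) ∧ p.sFun c t = c k * p.pulse k t ∧
      p.plateau t = 0 ∧ ∀ l, l ≠ k → p.pulse l t = 0) ∨
    ((∀ k, t ∉ Ioo (p.st k) (p.st k + p.width)) ∧ (∀ k, p.pulse k t = 0) ∧
      p.sFun c t = p.plateau t) := by
  by_cases h : ∃ k, t ∈ Ioo (p.st k) (p.st k + p.width)
  · obtain ⟨k, hk⟩ := h
    have hR := R_pos hp
    have hpl : p.plateau t = 0 :=
      plateau_eq_zero hp (Or.inl (by linarith [hk.2, st_add_le hp k]))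
    have hz : ∀ l, l ≠ k → p.pulse l t = 0 := fun l hl => pulse_eq_zero hp fun hl' =>
      hl (slot_unique hp (Ioo_subset_Icc_self hl') (Ioo_subset_Icc_self hk))
    refine Or.inl ⟨k, hk, ?_, hpl, hz⟩
    rw [CycPar.sFun, hpl, add_zero,
      Finset.sum_eq_single k (fun l _ hl => by rw [hz l hl, mul_zero]) (by simp)]
  · simp only [not_exists] at h
    refine Or.inr ⟨h, fun k => pulse_eq_zero hp (h k), ?_⟩
    rw [CycPar.sFun, Finset.sum_eq_zero fun k _ => by rw [pulse_eq_zero hp (h k), mul_zero],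
      zero_add]

/-- A function of the schedule vanishing at zero, times a quantity depending on the structure. -/
theorem smul_pick {α W : Type*} [AddCommGroup W] [Module ℝ W] (c : Fin p.P → ℝ) (t : ℝ)
    (F : ℝ → ℝ) (hF : F 0 = 0) (Js : Fin p.P → α) (J₀ : α) (Q : α → W) :
    F (p.sFun c t) • Q (p.pick Js J₀ t) =
      (∑ k, F (c k * p.pulse k t) • Q (Js k)) + F (p.plateau t) • Q J₀ := by
  rcases sFun_cases hp c t with ⟨k, hk, hs, hpl, hz⟩ | ⟨hno, hz, hs⟩
  · have hex : ∃ l, t ∈ Ioo (p.st l) (p.st l + p.width) := ⟨k, hk⟩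
    have he : hex.choose = k :=
      slot_unique hp (Ioo_subset_Icc_self hex.choose_spec) (Ioo_subset_Icc_self hk)
    rw [CycPar.pick, dif_pos hex, he, hs, hpl, hF, zero_smul, add_zero,
      Finset.sum_eq_single k (fun l _ hl => by rw [hz l hl, mul_zero, hF, zero_smul]) (by simp)]
  · rw [CycPar.pick, dif_neg (not_exists.mpr hno), hs,
      Finset.sum_eq_zero fun k _ => by rw [hz k, mul_zero, hF, zero_smul], zero_add]

/-- Near every time a single structure is enough. -/
theorem pick_local {α : Type*} (c : Fin p.P → ℝ) (Js : Fin p.P → α) (J₀ : α) (t : ℝ) :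
    ∃ a, (a = J₀ ∨ ∃ k, a = Js k) ∧ ∀ᶠ u in 𝓝 t, p.sFun c u = 0 ∨ p.pick Js J₀ u = a := by
  have hw := width_pos hp
  have hR := R_pos hp
  by_cases h : ∃ k, t ∈ Icc (p.st k) (p.st k + p.width)
  · obtain ⟨k, hk⟩ := h
    refine ⟨Js k, Or.inr ⟨k, rfl⟩, ?_⟩
    have hnb : Ioo (p.st k - p.width / 2) (p.st k + p.width + p.width / 2) ∈ 𝓝 t :=
      Ioo_mem_nhds (by linarith [hk.1]) (by linarith [hk.2])
    filter_upwards [hnb] with u hu
    rcases sFun_cases hp c u with ⟨l, hl, -, -, -⟩ | ⟨-, -, hs⟩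
    · refine Or.inr ?_
      have hlk : l = k := by
        rcases lt_trichotomy l k with h | h | h
        · have := st_sep hp h
          linarith [hu.1, hl.2]
        · exact h
        · have := st_sep hp h
          linarith [hu.2, hl.1]
      have hex : ∃ m, u ∈ Ioo (p.st m) (p.st m + p.width) := ⟨l, hl⟩
      have he : hex.choose = l :=
        slot_unique hp (Ioo_subset_Icc_self hex.choose_spec) (Ioo_subset_Icc_self hl)
      rw [CycPar.pick, dif_pos hex, he, hlk]
    · refine Or.inl (hs.trans (plateau_eq_zero hp (Or.inl ?_)))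
      have := st_add_le hp k
      have : p.width ≤ p.R := by
        rw [CycPar.width]; exact div_le_self hR.le (by linarith [Nat.cast_nonneg (α := ℝ) p.P])
      linarith [hu.2]
  · simp only [not_exists] at h
    refine ⟨J₀, Or.inl rfl, ?_⟩
    have : ∀ᶠ u in 𝓝 t, ∀ k, u ∉ Icc (p.st k) (p.st k + p.width) :=
      eventually_all.mpr fun k => isClosed_Icc.isOpen_compl.mem_nhds (h k)
    filter_upwards [this] with u hu
    have hno : ¬ ∃ k, u ∈ Ioo (p.st k) (p.st k + p.width) :=
      fun ⟨k, hk⟩ => hu k (Ioo_subset_Icc_self hk)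
    exact Or.inr (by rw [CycPar.pick, dif_neg hno])

omit hp

theorem pulse_contDiff (k : Fin p.P) : ContDiff ℝ ∞ (p.pulse k) :=
  (smT_deriv_contDiff.comp ((contDiff_id.sub contDiff_const).div_const _)).div_const _

theorem plateau_contDiff : ContDiff ℝ ∞ p.plateau :=
  contDiff_const.mul ((smT_contDiff.comp
    (((contDiff_id.sub contDiff_const).sub contDiff_const).div_const _)).mul
      (smT_contDiff.comp ((contDiff_const.sub contDiff_id).div_const _)))

theorem sFun_contDiff (c : Fin p.P → ℝ) : ContDiff ℝ ∞ (p.sFun c) :=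
  (ContDiff.sum fun k _ => contDiff_const.mul (pulse_contDiff k)).add plateau_contDiff

theorem prim_hasDerivAt (k : Fin p.P) (t : ℝ) : HasDerivAt (p.prim k) (p.pulse k t) t := by
  have h : HasDerivAt smT (deriv smT ((t - p.st k) / p.width)) ((t - p.st k) / p.width) :=
    (smT_contDiff.differentiable (by simp) _).hasDerivAt
  refine (h.comp t (((hasDerivAt_id t).sub_const (p.st k)).div_const p.width)).congr_deriv ?_
  simp [CycPar.pulse, div_eq_mul_inv]

theorem prim_eq_zero {k : Fin p.P} {t : ℝ} (hw : 0 ≤ p.width) (h : t ≤ p.st k) : p.prim k t = 0 :=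
  Real.smoothTransition.zero_of_nonpos (div_nonpos_of_nonpos_of_nonneg (by linarith) hw)

theorem prim_eq_one {k : Fin p.P} {t : ℝ} (hw : 0 < p.width) (h : p.st k + p.width ≤ t) :
    p.prim k t = 1 :=
  Real.smoothTransition.one_of_one_le ((one_le_div hw).mpr (by linarith))

include hp

omit hp in
theorem prim_mem (k : Fin p.P) (t : ℝ) : |p.prim k t| ≤ 1 := by
  rw [CycPar.prim, abs_of_nonneg (Real.smoothTransition.nonneg _)]
  exact Real.smoothTransition.le_one _

end CycPar

/-- Derivative bounds of a schedule, uniform in bounded coefficients. -/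
theorem exists_sched_bound (P : ℕ) (sd Bc : ℝ) (hsd : 0 ≤ sd) (hBc : 0 ≤ Bc) :
    ∃ C : ℝ, 0 ≤ C ∧ ∀ p : CycPar, p.OK → p.sd = sd → p.P = P → ∀ c : Fin p.P → ℝ,
      (∀ k, |c k| ≤ Bc) → ∀ t,
        (∀ k, |p.pulse k t| ≤ C / p.R) ∧
        (t ≤ p.E + 2 * p.R → |p.sFun c t| ≤ C / p.R) ∧
        -(C / p.R) ≤ p.sFun c t ∧ p.sFun c t ≤ max sd (C / p.R) ∧
        |deriv (p.sFun c) t| ≤ C / p.R ∧ |deriv (deriv (p.sFun c)) t| ≤ C / p.R := by
  obtain ⟨B, hB1, hB⟩ := exists_smT_bound
  set w : ℝ := 2 * P + 2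
  have hw : 1 ≤ w := by simp only [w]; linarith [Nat.cast_nonneg (α := ℝ) P]
  refine ⟨(Bc + 1) * (P + 1) * B * w ^ 3 + 4 * sd * B ^ 2, by positivity, fun p hp hsd' hP c hc t => ?_⟩
  set C := (Bc + 1) * (P + 1) * B * w ^ 3 + 4 * sd * B ^ 2
  have hR := hp.one_le
  have hR0 : 0 < p.R := CycPar.R_pos hp
  have hwp := CycPar.width_pos hp
  have hinv : ∀ m : ℕ, 1 ≤ m → m ≤ 3 → ∀ x : ℝ, |x| ≤ B → |x / p.width ^ m| ≤ B * w ^ 3 / p.R := by
    intro m hm1 hm3 x hx
    have e : p.width = p.R / w := by simp only [CycPar.width, w, hP]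
    rw [abs_div, abs_of_pos (pow_pos hwp m), e, div_pow, div_div_eq_mul_div]
    have h1 : |x| * w ^ m ≤ B * w ^ 3 :=
      mul_le_mul hx (pow_le_pow_right₀ hw hm3) (by positivity) (by linarith)
    exact div_le_div₀ (by positivity) h1 hR0 (le_self_pow₀ hR (by omega))
  have hu : ∀ k, HasDerivAt (fun s => (s - p.st k) / p.width) (1 / p.width) t := fun k =>
    (((hasDerivAt_id t).sub_const _).div_const _)
  have h2 := (contDiff_infty_iff_deriv.mp smT_deriv_contDiff).2
  have hd1 : ∀ k (s : ℝ), HasDerivAt (p.pulse k)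
      (deriv (deriv smT) ((s - p.st k) / p.width) / p.width ^ 2) s := fun k s => by
    refine (((smT_deriv_contDiff.differentiable (by simp) _).hasDerivAt.comp s
      (((hasDerivAt_id s).sub_const _).div_const _)).div_const _).congr_deriv ?_
    simp only [id]
    field_simp
  have hd2 : ∀ k, HasDerivAt (fun s => deriv (deriv smT) ((s - p.st k) / p.width) / p.width ^ 2)
      (deriv (deriv (deriv smT)) ((t - p.st k) / p.width) / p.width ^ 3) t := fun k => by
    refine (((h2.differentiable (by simp) _).hasDerivAt.comp t (hu k)).div_const _).congr_deriv ?_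
    field_simp
  set A : ℝ → ℝ := fun s => (s - p.E - 2 * p.R) / p.R
  set A' : ℝ → ℝ := fun s => (p.E' - p.R - s) / p.R
  have hA : ∀ s, HasDerivAt A (1 / p.R) s := fun s =>
    ((((hasDerivAt_id s).sub_const _).sub_const _).div_const _)
  have hA' : ∀ s, HasDerivAt A' (-1 / p.R) s := fun s =>
    (((hasDerivAt_id s).const_sub _).div_const _)
  have hS : ∀ x, HasDerivAt smT (deriv smT x) x := fun x =>
    (smT_contDiff.differentiable (by simp) x).hasDerivAt
  have hS2 : ∀ x, HasDerivAt (deriv smT) (deriv (deriv smT) x) x := fun x =>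
    (smT_deriv_contDiff.differentiable (by simp) x).hasDerivAt
  set q1 : ℝ → ℝ := fun s =>
    sd * (deriv smT (A s) * smT (A' s) - smT (A s) * deriv smT (A' s)) / p.R
  have hp1 : ∀ s, HasDerivAt p.plateau (q1 s) s := fun s => by
    have h := ((((hS _).comp s (hA s))).mul ((hS _).comp s (hA' s))).const_mul p.sd
    refine h.congr_deriv ?_
    simp only [q1, hsd', Function.comp_apply]
    ring
  have hp2 : HasDerivAt q1 (sd * (deriv (deriv smT) (A t) * smT (A' t) -
      2 * (deriv smT (A t) * deriv smT (A' t)) + smT (A t) * deriv (deriv smT) (A' t)) / p.R ^ 2) t := by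
    have h := ((((hS2 _).comp t (hA t)).mul ((hS _).comp t (hA' t))).sub
      (((hS _).comp t (hA t)).mul ((hS2 _).comp t (hA' t)))).const_mul sd |>.div_const p.R
    refine h.congr_deriv ?_
    simp only [Function.comp_apply]
    field_simp
    ring
  have hsF1 : ∀ s, HasDerivAt (p.sFun c)
      ((∑ k, c k * (deriv (deriv smT) ((s - p.st k) / p.width) / p.width ^ 2)) + q1 s) s := fun s =>
    (HasDerivAt.fun_sum fun k _ => (hd1 k s).const_mul (c k)).add (hp1 s)
  have e1 : deriv (p.sFun c) = fun s =>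
      (∑ k, c k * (deriv (deriv smT) ((s - p.st k) / p.width) / p.width ^ 2)) + q1 s :=
    funext fun s => (hsF1 s).deriv
  have hsF2 : HasDerivAt (deriv (p.sFun c))
      ((∑ k, c k * (deriv (deriv (deriv smT)) ((t - p.st k) / p.width) / p.width ^ 3)) +
        sd * (deriv (deriv smT) (A t) * smT (A' t) - 2 * (deriv smT (A t) * deriv smT (A' t)) +
          smT (A t) * deriv (deriv smT) (A' t)) / p.R ^ 2) t := by
    rw [e1]
    exact (HasDerivAt.fun_sum fun k _ => (hd2 k).const_mul (c k)).add hp2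
  have hsum : ∀ f : Fin p.P → ℝ, (∀ k, |f k| ≤ B * w ^ 3 / p.R) →
      |∑ k, c k * f k| ≤ (Bc + 1) * (P + 1) * B * w ^ 3 / p.R := fun f hf => by
    calc |∑ k, c k * f k| ≤ ∑ k, |c k * f k| := Finset.abs_sum_le_sum_abs _ _
      _ ≤ ∑ _k : Fin p.P, (Bc + 1) * (B * w ^ 3 / p.R) := Finset.sum_le_sum fun k _ => by
          rw [abs_mul]
          exact mul_le_mul ((hc k).trans (by linarith)) (hf k) (abs_nonneg _) (by linarith)
      _ = (p.P : ℝ) * ((Bc + 1) * (B * w ^ 3 / p.R)) := by simp
      _ ≤ ((P : ℝ) + 1) * ((Bc + 1) * (B * w ^ 3 / p.R)) :=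
          mul_le_mul_of_nonneg_right (by rw [hP]; linarith) (by positivity)
      _ = _ := by ring
  have hC1 : (Bc + 1) * (P + 1) * B * w ^ 3 / p.R ≤ C / p.R :=
    div_le_div_of_nonneg_right (le_add_of_nonneg_right (by positivity)) hR0.le
  have hpulse : ∀ k, |p.pulse k t| ≤ B * w ^ 3 / p.R := fun k => by
    have := hinv 1 le_rfl (by norm_num) _ (hB ((t - p.st k) / p.width)).1
    rwa [pow_one] at this
  have hsum1 : |∑ k, c k * p.pulse k t| ≤ C / p.R := (hsum _ hpulse).trans hC1
  have hpl := CycPar.plateau_mem hp t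
  have hpul1 : ∀ k, |p.pulse k t| ≤ C / p.R := fun k => (hpulse k).trans (by
    refine le_trans (div_le_div_of_nonneg_right ?_ hR0.le) hC1
    rw [mul_assoc _ B]
    exact le_mul_of_one_le_left (by positivity) (by nlinarith [Nat.cast_nonneg (α := ℝ) P]))
  refine ⟨hpul1, fun ht => ?_, ?_, ?_, ?_, ?_⟩
  · rw [CycPar.sFun, CycPar.plateau_eq_zero hp (Or.inl ht), add_zero]
    exact hsum1
  · have := (abs_le.mp hsum1).1
    rw [CycPar.sFun]; linarith [hpl.1]
  · rcases CycPar.sFun_cases hp c t with ⟨k, -, hs, hpl0, hz⟩ | ⟨-, -, hs⟩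
    · refine le_max_of_le_right ?_
      rw [CycPar.sFun, hpl0, add_zero]
      exact (le_abs_self _).trans hsum1
    · rw [hs]; exact le_max_of_le_left (hsd' ▸ hpl.2)
  all_goals
    have b1 : ∀ x, |deriv smT x| ≤ B := fun x => (hB x).1
    have b2 : ∀ x, |deriv (deriv smT) x| ≤ B := fun x => (hB x).2.1
    have b0 : ∀ x, |smT x| ≤ 1 := fun x => by
      rw [abs_of_nonneg (Real.smoothTransition.nonneg _)]
      exact Real.smoothTransition.le_one _
  · rw [(hsF1 t).deriv]
    refine (abs_add_le _ _).trans ?_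
    have h1 := hsum _ fun k => hinv 2 (by norm_num) (by norm_num) _
      (b2 ((t - p.st k) / p.width))
    have h2 : |q1 t| ≤ 4 * sd * B ^ 2 / p.R := by
      simp only [q1, abs_div, abs_mul, abs_of_pos hR0, abs_of_nonneg hsd]
      refine div_le_div_of_nonneg_right ?_ hR0.le
      have t1 : |deriv smT (A t) * smT (A' t)| ≤ B * 1 := by
        rw [abs_mul]; exact mul_le_mul (b1 _) (b0 _) (abs_nonneg _) (by linarith)
      have t2 : |smT (A t) * deriv smT (A' t)| ≤ 1 * B := by
        rw [abs_mul]; exact mul_le_mul (b0 _) (b1 _) (abs_nonneg _) zero_le_one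
      have := abs_sub (deriv smT (A t) * smT (A' t)) (smT (A t) * deriv smT (A' t))
      calc sd * _ ≤ sd * (4 * B ^ 2) := mul_le_mul_of_nonneg_left (by nlinarith) hsd
        _ = _ := by ring
    simp only [C, add_div]
    exact add_le_add h1 h2
  · rw [hsF2.deriv]
    refine (abs_add_le _ _).trans ?_
    have h1 := hsum _ fun k => hinv 3 (by norm_num) le_rfl _
      (hB ((t - p.st k) / p.width)).2.2
    have h2 : |sd * (deriv (deriv smT) (A t) * smT (A' t) - 2 * (deriv smT (A t) * deriv smT (A' t)) +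
        smT (A t) * deriv (deriv smT) (A' t)) / p.R ^ 2| ≤ 4 * sd * B ^ 2 / p.R := by
      rw [abs_div, abs_mul, abs_of_nonneg hsd, abs_of_pos (pow_pos hR0 2)]
      refine div_le_div₀ (by positivity) ?_ hR0 (le_self_pow₀ hR two_ne_zero)
      have t1 : |deriv (deriv smT) (A t) * smT (A' t)| ≤ B * 1 := by
        rw [abs_mul]; exact mul_le_mul (b2 _) (b0 _) (abs_nonneg _) (by linarith)
      have t2 : |deriv smT (A t) * deriv smT (A' t)| ≤ B * B := by
        rw [abs_mul]; exact mul_le_mul (b1 _) (b1 _) (abs_nonneg _) (by linarith)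
      have t3 : |smT (A t) * deriv (deriv smT) (A' t)| ≤ 1 * B := by
        rw [abs_mul]; exact mul_le_mul (b0 _) (b2 _) (abs_nonneg _) zero_le_one
      have := abs_add_le (deriv (deriv smT) (A t) * smT (A' t) -
        2 * (deriv smT (A t) * deriv smT (A' t))) (smT (A t) * deriv (deriv smT) (A' t))
      have := abs_sub (deriv (deriv smT) (A t) * smT (A' t))
        (2 * (deriv smT (A t) * deriv smT (A' t)))
      have e : |2 * (deriv smT (A t) * deriv smT (A' t))| =
          2 * |deriv smT (A t) * deriv smT (A' t)| := by rw [abs_mul, abs_two]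
      have hBB : B ≤ B ^ 2 := by nlinarith
      calc sd * _ ≤ sd * (4 * B ^ 2) := mul_le_mul_of_nonneg_left (by linarith) hsd
        _ = _ := by ring
    simp only [C, add_div]
    exact add_le_add h1 h2

/-! ### Concatenation -/

section glue

variable (E : ℕ → ℝ) (hE : Tendsto E atTop atTop)

/-- The cycle containing `t`. -/
noncomputable def cycleIdx (t : ℝ) : ℕ :=
  open Classical in
  if h : ∃ i, t < E (i + 1) then Nat.find h else 0

include hE

theorem exists_lt_cycle (t : ℝ) : ∃ i, t < E (i + 1) := by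
  obtain ⟨i, hi⟩ := ((tendsto_add_atTop_iff_nat 1).mpr hE).eventually_gt_atTop t |>.exists
  exact ⟨i, hi⟩

theorem lt_cycleIdx (t : ℝ) : t < E (cycleIdx E t + 1) := by
  classical
  rw [cycleIdx, dif_pos (exists_lt_cycle E hE t)]
  exact Nat.find_spec (exists_lt_cycle E hE t)

theorem cycleIdx_ge {t : ℝ} (h : cycleIdx E t ≠ 0) : E (cycleIdx E t) ≤ t := by
  classical
  obtain ⟨m, hm⟩ := Nat.exists_eq_succ_of_ne_zero h
  rw [hm]
  refine not_lt.mp fun hlt => ?_
  have he : Nat.find (exists_lt_cycle E hE t) = m.succ := by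
    rw [cycleIdx, dif_pos (exists_lt_cycle E hE t)] at hm
    exact hm
  exact Nat.find_min (exists_lt_cycle E hE t) (m := m) (by omega) hlt

theorem cycleIdx_eq (hmono : StrictMono E) {i : ℕ} {t : ℝ} (h : t ∈ Ico (E i) (E (i + 1))) :
    cycleIdx E t = i := by
  classical
  rw [cycleIdx, dif_pos (exists_lt_cycle E hE t), Nat.find_eq_iff]
  exact ⟨h.2, fun m hm => not_lt.mpr ((hmono.monotone (Nat.succ_le_of_lt hm)).trans h.1)⟩

/-- Functions supported inside their cycles glue; the result agrees with each on its cycle. -/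
theorem glue_eq (hmono : StrictMono E) {X : Type*} [Zero X] (f : ℕ → ℝ → X)
    (hf : ∀ i t, (t ≤ E i ∨ E (i + 1) ≤ t) → f i t = 0) {i : ℕ} {t : ℝ}
    (h : t ∈ Icc (E i) (E (i + 1))) : f (cycleIdx E t) t = f i t := by
  rcases h.2.eq_or_lt with he | hlt
  · have hidx : cycleIdx E t = i + 1 := cycleIdx_eq E hE hmono ⟨he.ge, he ▸ hmono (Nat.lt_succ_self _)⟩
    rw [hidx, hf _ _ (Or.inl he.le), hf _ _ (Or.inr he.ge)]
  · rw [cycleIdx_eq E hE hmono ⟨h.1, hlt⟩]

/-- A time lying in a gap of every cycle. -/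
def InGap (E r : ℕ → ℝ) (u : ℝ) : Prop := ∀ m, u ≤ E m ∨ E (m + 1) - r m ≤ u

/-- Locally only one cycle matters. -/
theorem glue_local (hmono : StrictMono E) (r : ℕ → ℝ) (hr : ∀ i, 0 < r i)
    (hr' : ∀ i, E i < E (i + 1) - r i) (t : ℝ) :
    ∃ i, ∀ᶠ u in 𝓝 t, cycleIdx E u = i ∨ InGap E r u := by
  set i := cycleIdx E t with hi
  have hlt := lt_cycleIdx E hE t
  refine ⟨i, ?_⟩
  by_cases h0 : i = 0
  · filter_upwards [eventually_lt_nhds (show t < E (i + 1) from hlt)] with u hu
    left
    rw [h0] at hu ⊢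
    classical
    rw [cycleIdx, dif_pos (exists_lt_cycle E hE u), Nat.find_eq_zero]
    exact hu
  · have hge := cycleIdx_ge E hE (t := t) h0
    rcases hge.eq_or_lt with he | hgt
    · obtain ⟨m, hm⟩ := Nat.exists_eq_succ_of_ne_zero h0
      have h1 : E (m + 1) - r m < t := by
        have : E i = t := he
        rw [hm] at this
        rw [← this]; linarith [hr m]
      filter_upwards [eventually_lt_nhds (show t < E (i + 1) from hlt), eventually_gt_nhds h1]
        with u hu hu'
      rcases le_or_gt (E i) u with h | h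
      · exact Or.inl (cycleIdx_eq E hE hmono ⟨h, hu⟩)
      · rw [hm] at h
        refine Or.inr fun q => ?_
        rcases lt_trichotomy q m with hq | hq | hq
        · refine Or.inr ?_
          linarith [hr q, hmono.monotone (Nat.succ_le_of_lt hq), hr' m]
        · exact Or.inr (hq ▸ hu'.le)
        · exact Or.inl (h.le.trans (hmono.monotone hq))
    · filter_upwards [eventually_lt_nhds (show t < E (i + 1) from hlt), eventually_gt_nhds hgt]
        with u hu hu'
      exact Or.inl (cycleIdx_eq E hE hmono ⟨hu'.le, hu⟩)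

end glue

end Vale.Agent.P225
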