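import Vale.Agent.P225.Solution
import Vale.Agent.P225.Plateau

/-! P225: the choice of all pulse coefficients by induction over the cycles. -/

open Set Filter Topology
open scoped ContDiff RealInnerProductSpace

namespace Vale.Agent.P225

theorem gE_succ (i₀ i : ℕ) : gE i₀ (i + 1) = ((((i + i₀ : ℕ) : ℝ)) + 1) ^ 9 := by
  simp only [gE]; push_cast; ring

theorem gE_eq (P : ℕ) (sd : ℝ) (i₀ i : ℕ) : (parN P sd (i + i₀)).E = gE i₀ i := rfl

theorem smul_one_mul_smul_one {A : Type*} [NormedRing A] [NormedAlgebra ℝ A] (r a : ℝ) :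
    (r * a) • (1 : A) = r • (1 : A) * a • (1 : A) := by
  rw [smul_mul_smul_comm, one_mul]

theorem single_off {d : ℕ} (a : ℝ) {q j : Fin d} (h : j ≠ q) :
    (a • EuclideanSpace.single q (1 : ℝ)) j = 0 := by
  simp [h]

/-- A column of a monomial image. -/
theorem monomial_column {d : ℕ} {U T : Op d} {b : Fin d → ℝ} {σ : Equiv.Perm (Fin d)}
    (hU : ∀ v i, U v i = b i * T v i) (hb : ∀ i, b i ≠ 0) {r : Fin d}
    (hT : ∃ t : ℝ, t ≠ 0 ∧ T (EuclideanSpace.single r 1) = t • EuclideanSpace.single (σ r) 1) :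
    ∃ a : ℝ, a ≠ 0 ∧ U (EuclideanSpace.single r 1) = a • EuclideanSpace.single (σ r) 1 := by
  obtain ⟨t, ht, hTr⟩ := hT
  refine ⟨b (σ r) * t, mul_ne_zero (hb _) ht, PiLp.ext fun i => ?_⟩
  rw [hU, hTr]
  by_cases h : i = σ r
  · subst h; simp
  · simp [h]

theorem norm_pow_bound {x : ℝ} (hx : 1 ≤ x) {a : ℝ} (ha : 0 ≤ a) : a ≤ a * x :=
  le_mul_of_one_le_right ha hx

theorem cyc_init_gE {d P : ℕ} (D : LevelData d P) (e : Env) (i i₀ : ℕ) (D0 : Op d) (c : Fin P → ℝ) :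
    D.cyc e (i + i₀) D0 c (gE i₀ i) = (1, D0) :=
  cyc_init D e (i + i₀) D0 c

/-- All cycles at once: coefficients, the flat start and the column growth. -/
theorem exists_schedule {Lm P : ℕ} {d : Fin Lm → ℕ} (e : Env)
    (Ds : (l : Fin Lm) → LevelData (d l) P) (σ : (l : Fin Lm) → Equiv.Perm (Fin (d l))) (T : Tup d)
    (hT : ∀ l i, ∃ a : ℝ, a ≠ 0 ∧
      T l (EuclideanSpace.single i 1) = a • EuclideanSpace.single (σ l i) 1)
    {Bc ηs : ℝ} (hηs : 0 < ηs)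
    (hsteer : ∀ Z : (Fin P → ℝ) → Tup d, Continuous Z →
      (∀ c, ‖c‖ ≤ Bc → ‖Z c - slotExp (fun k l => (Ds l).gen e k) c‖ ≤ ηs) →
      ∃ c, ‖c‖ ≤ Bc ∧ ∃ a : Fin Lm → ℝ, ∀ l, a l ≠ 0 ∧ Z c l = a l • T l)
    (Lr : Fin Lm → ℝ) (hLr : ∀ l, 0 ≤ Lr l ∧ Lr l ^ 2 + 40 * Lr l = (Ds l).lam)
    (δ : (l : Fin Lm) → Fin (d l) → ℝ) (hδ : ∀ l q, 0 < δ l q ∧
      Real.exp (e.sd / 41) / e.ρi ^ 2 * ((Ds l).lam + (Real.exp (-e.sd) - 1) * (Ds l).m q ^ 2) <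
        δ l q ^ 2 + 40 * δ l q)
    (hcurv : ∀ᶠ ν in atTop, ∀ c : Fin P → ℝ, ‖c‖ ≤ Bc →
      ∀ t, CurvOK e.w e.ρ ((parN P e.sd ν).sFun c) t) :
    ∃ (i₀ : ℕ) (c : ℕ → Fin P → ℝ), 1 ≤ i₀ ∧ (∀ i, ‖c i‖ ≤ Bc) ∧
      (∀ i t, CurvOK e.w e.ρ ((parN P e.sd (i + i₀)).sFun (c i)) t) ∧
      ∀ (l : Fin Lm) (Λ : ℝ → Op (d l)) (Y : ℝ → Op (d l) × Op (d l)), Continuous Λ →
        (∀ t ≤ gE i₀ 0, Λ t = ((Ds l).lam / e.ρ t ^ 2) • (1 : Op (d l))) →
        (∀ i, ∀ t ∈ Icc (gE i₀ i) (gE i₀ (i + 1)), Λ t = (Ds l).lamN e (i + i₀) (c i) t) →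
        (∀ t, HasDerivAt Y (sysOp (Λ t) (e.bF t) (Y t)) t) → Y 0 = (1, Lr l • (1 : Op (d l))) →
        (∀ t ≤ 0, (Y t).1 = Real.exp (Lr l * t) • (1 : Op (d l))) ∧
        ∃ K Cg : ℝ, 1 ≤ K ∧ 0 ≤ Cg ∧ ∀ r, ∀ i, ∀ t ∈ Icc (gE i₀ i) (gE i₀ (i + 1)),
          ‖(Y t).1 (EuclideanSpace.single r 1)‖ ≤
            K * Real.exp (Cg * ((i + i₀ : ℕ) : ℝ) ^ 7 + δ l ((σ l)^[i + 1] r) * (t - gE i₀ i)) *
              ‖(Y (gE i₀ i)).1 (EuclideanSpace.single r 1)‖ := by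
  classical
  obtain ⟨η₀, hη₀, hex⟩ := cycle_exists e Ds T hηs hsteer
  set η : Fin Lm → ℝ := fun l => min (η₀ l) (min 1 (e.dlMin (Ds l).lam))
  have hη : ∀ l, 0 < η l := fun l =>
    lt_min (hη₀ l) (lt_min one_pos (e.dlMin_pos (Ds l).lam_pos))
  choose Cc hCc hnext using fun l => cycle_next e (Ds l) Bc (η l) (hη l)
    ((min_le_right _ _).trans (min_le_left _ _)) ((min_le_right _ _).trans (min_le_right _ _))
  choose K Cg hK hCg hplat using fun (l : Fin Lm) (q : Fin (d l)) =>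
    plateau (d l) P (Ds l) e Bc (Cc l) q (δ l q) (hCc l) (hδ l q).1 (hδ l q).2
  have hround : ∀ l, _ := fun l =>
    round_start e (d := d l) (Ds l).lam_pos (hLr l).1 (hLr l).2 (hη l)
  have hall : ∀ᶠ ν : ℕ in atTop, 1 ≤ ν := eventually_ge_atTop 1
  obtain ⟨i₀, hi₀⟩ := eventually_atTop.mp (hall.and (hex.and ((eventually_all.mpr hnext).and
    ((eventually_all.mpr fun l => eventually_all.mpr (hplat l)).and
      (hcurv.and (eventually_all.mpr hround))))))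
  have hge : ∀ i, i₀ ≤ i + i₀ := fun i => Nat.le_add_left _ _
  -- the state at the start of a cycle
  let Good : ℕ → Type := fun i =>
    {D0 : Tup d // ∀ l, NearAt e (Ds l).lam (η l) (i + i₀) (D0 l)}
  have hstep : ∀ i (D0 : Good i), ∃ cD : (Fin P → ℝ) × Good (i + 1), ‖cD.1‖ ≤ Bc ∧
      ∀ l, (∀ r, ∃ a : ℝ, a ≠ 0 ∧
          ((Ds l).cyc e (i + i₀) (D0.1 l) cD.1 (parN P e.sd (i + i₀)).E').1
            (EuclideanSpace.single r 1) = a • EuclideanSpace.single (σ l r) 1) ∧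
        ((Ds l).cyc e (i + i₀) (D0.1 l) cD.1 (parN P e.sd (i + i₀)).E').2 =
          cD.2.1 l * ((Ds l).cyc e (i + i₀) (D0.1 l) cD.1 (parN P e.sd (i + i₀)).E').1 := by
    intro i D0
    obtain ⟨-, hex', hnext', -, -, -⟩ := hi₀ _ (hge i)
    obtain ⟨c, hc, hb⟩ := hex' D0.1 fun l => le_trans (D0.2 l) (min_le_left _ _)
    choose D1 hD1 heq using fun l => (hnext' l c hc (D0.1 l) (D0.2 l)).2
    refine ⟨⟨c, ⟨D1, fun l => ?_⟩⟩, hc, fun l => ⟨fun r => ?_, heq l⟩⟩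
    · rw [show i + 1 + i₀ = i + i₀ + 1 by omega]; exact hD1 l
    · obtain ⟨b, hb0, hbv⟩ := hb l
      exact monomial_column hbv hb0 (hT l r)
  choose step hstep_c hstep using hstep
  choose r0 a0 ha0 hr0 hstart using (hi₀ i₀ le_rfl).2.2.2.2.2
  let seq : ∀ i, Good i := fun i => Nat.rec (motive := Good)
    ⟨fun l => r0 l • (1 : Op (d l)), fun l => by simpa using hr0 l⟩
    (fun i D0 => (step i D0).2) i
  refine ⟨i₀, fun i => (step i (seq i)).1, (hi₀ i₀ le_rfl).1, fun i => hstep_c i (seq i),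
    fun i t => (hi₀ _ (hge i)).2.2.2.2.1 _ (hstep_c i (seq i)) t,
    fun l Λ Y hΛ hflat hcyc hY hY0 => ?_⟩
  obtain ⟨hE0, hneg⟩ := hstart l Λ Y hΛ
    (fun t ht => hflat t (by simpa [gE] using ht)) hY hY0
  refine ⟨hneg, ?_⟩
  have hgE0 : gE i₀ 0 = (i₀ : ℝ) ^ 9 := by simp [gE]
  rw [← hgE0] at hE0
  -- the solution on each cycle
  have hle : ∀ i, gE i₀ i ≤ gE i₀ (i + 1) := fun i => by
    rw [gE_succ, gE]
    exact pow_le_pow_left₀ (Nat.cast_nonneg _) (by linarith) 9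
  have htrans : ∀ i, (Y (gE i₀ i)).2 = (seq i).1 l * (Y (gE i₀ i)).1 →
      ∀ t ∈ Icc (gE i₀ i) (gE i₀ (i + 1)),
        Y t = (((Ds l).cyc e (i + i₀) ((seq i).1 l) (step i (seq i)).1 t).1 * (Y (gE i₀ i)).1,
          ((Ds l).cyc e (i + i₀) ((seq i).1 l) (step i (seq i)).1 t).2 * (Y (gE i₀ i)).1) := by
    intro i hi t ht
    refine linearODE_unique (sysOp_continuous hΛ e.bF_continuous) (t₀ := gE i₀ i)
      (Y := fun s => (((Ds l).cyc e (i + i₀) ((seq i).1 l) (step i (seq i)).1 s).1 * (Y (gE i₀ i)).1,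
          ((Ds l).cyc e (i + i₀) ((seq i).1 l) (step i (seq i)).1 s).2 * (Y (gE i₀ i)).1))
      ⟨le_rfl, hle i⟩ (fun s _ => hY s) (fun s hs => ?_) ?_ ht
    · rw [hcyc i s hs]
      exact hasDerivAt_sys_mul_right (cyc_deriv (Ds l) e _ _ _ s) _
    · have h0 := cyc_init (Ds l) e (i + i₀) ((seq i).1 l) (step i (seq i)).1
      rw [gE_eq] at h0
      refine Prod.ext ?_ ?_
      · simp only [h0, one_mul]
      · simp only [h0]; exact hi
  have hEE : ∀ i, (parN P e.sd (i + i₀)).E' = gE i₀ (i + 1) := fun i => (gE_succ i₀ i).symm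
  have hinv : ∀ i, (Y (gE i₀ i)).2 = (seq i).1 l * (Y (gE i₀ i)).1 ∧
      ∀ r, ∃ a : ℝ, a ≠ 0 ∧ (Y (gE i₀ i)).1 (EuclideanSpace.single r 1) =
        a • EuclideanSpace.single ((σ l)^[i] r) 1 := by
    intro i
    induction i with
    | zero =>
      rw [hE0]
      refine ⟨?_, fun r => ⟨a0 l, (ha0 l).ne', rfl⟩⟩
      show (r0 l * a0 l) • (1 : Op (d l)) = r0 l • (1 : Op (d l)) * a0 l • (1 : Op (d l))
      exact smul_one_mul_smul_one _ _
    | succ i ih =>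
      obtain ⟨ih2, ih1⟩ := ih
      have hY' := htrans i ih2 _ ⟨hle i, le_rfl⟩
      obtain ⟨hcol, heq⟩ := hstep i (seq i) l
      rw [hEE] at heq hcol
      refine ⟨?_, fun r => ?_⟩
      · show _ = (step i (seq i)).2.1 l * _
        rw [hY']
        simp only
        rw [heq, mul_assoc]
      · obtain ⟨a, ha, har⟩ := ih1 r
        obtain ⟨a', ha', har'⟩ := hcol ((σ l)^[i] r)
        refine ⟨a * a', mul_ne_zero ha ha', ?_⟩
        rw [hY', Function.iterate_succ_apply', mul_smul, ← har', ← map_smul, ← har]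
        rfl
  -- growth
  refine ⟨1 + ∑ q, K l q, ∑ q, Cg l q,
    le_add_of_nonneg_right (Finset.sum_nonneg fun q _ => zero_le_one.trans (hK l q)),
    Finset.sum_nonneg fun q _ => hCg l q, fun r i t ht => ?_⟩
  obtain ⟨hi2, hi1⟩ := hinv i
  obtain ⟨-, -, hnext', hplat', -, -⟩ := hi₀ _ (hge i)
  set q := (σ l)^[i + 1] r
  set v := (Y (gE i₀ i)).1 (EuclideanSpace.single r 1)
  have hv := (hnext' l _ (hstep_c i (seq i)) ((seq i).1 l) ((seq i).2 l)).1 v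
  have hend : ∀ j, j ≠ q →
      ((Ds l).cyc e (i + i₀) ((seq i).1 l) (step i (seq i)).1 (parN P e.sd (i + i₀)).E').1 v j = 0 := by
    intro j hj
    obtain ⟨a, -, har⟩ := (hinv (i + 1)).2 r
    rw [htrans i hi2 _ ⟨hle i, le_rfl⟩] at har
    rw [hEE]
    show (((Ds l).cyc e (i + i₀) ((seq i).1 l) (step i (seq i)).1 (gE i₀ (i + 1))).1 *
      (Y (gE i₀ i)).1) (EuclideanSpace.single r 1) j = 0
    rw [har]
    exact single_off a hj
  have h := hplat' l q _ (hstep_c i (seq i)) _ _ hv.1 hv.2.1 hv.2.2 hend t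
    (by rw [hEE]; exact ht)
  rw [gE_eq, cyc_init_gE] at h
  rw [htrans i hi2 t ht]
  refine le_trans h ?_
  simp only [one_apply_eq_self]
  refine mul_le_mul_of_nonneg_right ?_ (norm_nonneg _)
  have hsingle : K l q ≤ ∑ q, K l q :=
    Finset.single_le_sum (fun q _ => zero_le_one.trans (hK l q)) (Finset.mem_univ q)
  have hsingle' : Cg l q ≤ ∑ q, Cg l q :=
    Finset.single_le_sum (fun q _ => hCg l q) (Finset.mem_univ q)
  refine mul_le_mul (hsingle.trans (le_add_of_nonneg_left zero_le_one)) ?_ (Real.exp_pos _).le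
    (by linarith [hK l q])
  refine Real.exp_le_exp.mpr (add_le_add ?_ le_rfl)
  exact mul_le_mul_of_nonneg_right hsingle' (by positivity)
end Vale.Agent.P225
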