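import Vale.Agent.P225.CycleStep
import Vale.Agent.P225.Interfaces4

/-! P225: global solutions: smoothness, the initial flat stretch, translation along cycles. -/

open Set Filter Topology
open scoped ContDiff RealInnerProductSpace

namespace Vale.Agent.P225

section algebra

variable {A : Type*} [NormedRing A] [NormedAlgebra ℝ A]

theorem hasDerivAt_sys_components {L : A} {b : ℝ} {Y : ℝ → A × A} {t : ℝ}
    (h : HasDerivAt Y (sysOp L b (Y t)) t) :
    HasDerivAt (fun s => (Y s).1) (Y t).2 t ∧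
      HasDerivAt (fun s => (Y s).2) (L * (Y t).1 - b • (Y t).2) t := by
  rw [sysOp_apply] at h
  exact ⟨(ContinuousLinearMap.fst ℝ A A).hasFDerivAt.comp_hasDerivAt t h,
    (ContinuousLinearMap.snd ℝ A A).hasFDerivAt.comp_hasDerivAt t h⟩

theorem hasDerivAt_sys_mul_right {L : A} {b : ℝ} {Y : ℝ → A × A} {t : ℝ}
    (h : HasDerivAt Y (sysOp L b (Y t)) t) (U : A) :
    HasDerivAt (fun s => ((Y s).1 * U, (Y s).2 * U)) (sysOp L b ((Y t).1 * U, (Y t).2 * U)) t := by
  obtain ⟨h1, h2⟩ := hasDerivAt_sys_components h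
  rw [sysOp_apply]
  refine ((h1.mul_const U).prodMk (h2.mul_const U)).congr_deriv ?_
  rw [sub_mul, smul_mul_assoc, mul_assoc]

theorem hasDerivAt_scalar_lift {x : ℝ → ℝ × ℝ} {lam b : ℝ} {t : ℝ}
    (h : HasDerivAt x (sysOp lam b (x t)) t) :
    HasDerivAt (fun s => ((x s).1 • (1 : A), (x s).2 • (1 : A)))
      (sysOp (lam • (1 : A)) b ((x t).1 • (1 : A), (x t).2 • (1 : A))) t := by
  obtain ⟨h1, h2⟩ := hasDerivAt_sys_components h
  rw [sysOp_apply]
  refine ((h1.smul_const (1 : A)).prodMk (h2.smul_const (1 : A))).congr_deriv ?_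
  rw [smul_mul_smul_comm, one_mul, sub_smul, smul_smul, smul_eq_mul]

theorem contDiff_solution {L : ℝ → A} {b : ℝ → ℝ} (hL : ContDiff ℝ ∞ L) (hb : ContDiff ℝ ∞ b)
    {Y : ℝ → A × A} (hY : ∀ t, HasDerivAt Y (sysOp (L t) (b t) (Y t)) t) : ContDiff ℝ ∞ Y := by
  refine contDiff_infty.mpr fun n => ?_
  induction n with
  | zero => exact contDiff_zero.mpr (continuous_iff_continuousAt.mpr fun t => (hY t).continuousAt)
  | succ n ih =>
    rw [Nat.cast_succ, contDiff_succ_iff_deriv]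
    refine ⟨fun t => (hY t).differentiableAt, by simp, ?_⟩
    have e : deriv Y = fun t => ((Y t).2, L t * (Y t).1 - b t • (Y t).2) := funext fun t => by
      rw [(hY t).deriv, sysOp_apply]
    rw [e]
    have hn : ((n : ℕ∞) : WithTop ℕ∞) ≤ ∞ := by exact_mod_cast le_top
    exact ih.snd.prodMk (((hL.of_le hn).mul ih.fst).sub ((hb.of_le hn).smul ih.snd))

end algebra

variable (e : Env)

theorem bF_contDiff : ContDiff ℝ ∞ e.bF := contDiff_const.add (contDiff_const.mul e.rad.smooth)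

/-- The flat stretch before the first cycle. -/
theorem round_start {d : ℕ} {lam L η : ℝ} (hlam : 0 < lam) (hL : 0 ≤ L)
    (hrel : L ^ 2 + 40 * L = lam) (hη : 0 < η) :
    ∀ᶠ ν in atTop, ∃ r a : ℝ, 0 < a ∧ NearAt e lam η ν (r • (1 : Op d)) ∧
      ∀ (Λ : ℝ → Op d) (Y : ℝ → Op d × Op d), Continuous Λ →
        (∀ t ≤ (ν : ℝ) ^ 9, Λ t = (lam / e.ρ t ^ 2) • (1 : Op d)) →
        (∀ t, HasDerivAt Y (sysOp (Λ t) (e.bF t) (Y t)) t) → Y 0 = (1, L • (1 : Op d)) →
        Y ((ν : ℝ) ^ 9) = (a • (1 : Op d), (r * a) • (1 : Op d)) ∧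
        ∀ t ≤ 0, (Y t).1 = Real.exp (L * t) • (1 : Op d) := by
  have hcl : Continuous fun t => lam / e.ρ t ^ 2 :=
    continuous_const.div₀ (e.rho_continuous.pow 2) fun t => (pow_pos (e.rho_pos t) 2).ne'
  have hA : Continuous fun t => sysOp (lam / e.ρ t ^ 2) (e.bF t) :=
    sysOp_continuous hcl e.bF_continuous
  obtain ⟨X, hX0, hX⟩ := exists_linearODE hA 0 ((1 : ℝ), L)
  set Cc := max (lam / e.ρi ^ 2 / 29) L
  have hCc : 0 ≤ Cc := le_max_of_le_right hL
  obtain ⟨T₀, hT₀1, hlock⟩ := lock d e lam Cc η hlam hCc hη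
  have ev : ∀ᶠ ν : ℕ in atTop, 1 ≤ ν ∧ T₀ ≤ (ν : ℝ) ^ 7 ∧ T₀ + 1 ≤ (ν : ℝ) ^ 2 :=
    (eventually_ge_atTop 1).and ((tendsto_parN_R.eventually_ge_atTop T₀).and
      (((tendsto_pow_atTop two_ne_zero).comp tendsto_natCast_atTop_atTop).eventually_ge_atTop _))
  filter_upwards [ev] with ν ⟨hν, hνR, hν2⟩
  set E := (ν : ℝ) ^ 9
  have hE : 0 ≤ E := by positivity
  have hpos : ∀ t, 0 ≤ lam / e.ρ t ^ 2 := fun t => by positivity
  have hu := pos_of_supersolution (z := fun t => (X t).1) (z' := fun t => (X t).2)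
    (fun t _ => (hasDerivAt_sys_components (hX t)).1) (fun t _ => (hasDerivAt_sys_components (hX t)).2)
    (fun t _ => hpos t) e.bF_continuous (fun t _ => le_of_eq (by simp only [smul_eq_mul]; ring))
    (by simp [hX0]) (by simp [hX0, hL]) E ⟨hE, le_rfl⟩
  refine ⟨(X E).2 / (X E).1, (X E).1, hu.1, ?_, fun Λ Y hΛ hflat hY hY0 => ?_⟩
  · refine ContinuousLinearMap.opNorm_le_bound _ hη.le fun v => ?_
    have hsol : SolOn (fun t => (lam / e.ρ t ^ 2) • (1 : Op d)) e.bF (fun t => (X t).1 • v)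
        (fun t => (X t).2 • v) 0 E :=
      ⟨fun t _ => ((hasDerivAt_sys_components (hX t)).1).smul_const v, fun t _ =>
        (((hasDerivAt_sys_components (hX t)).2).smul_const v).congr_deriv (by
          simp [sub_smul, smul_smul, mul_comm])⟩
    have hp : ∀ t ∈ Icc (0:ℝ) E, ∀ x : Lev d,
        0 ≤ ⟪x, ((lam / e.ρ t ^ 2) • (1 : Op d)) x⟫ := fun t _ x => by
      simp only [smul_apply, one_apply_eq_self, real_inner_smul_right]
      exact mul_nonneg (hpos t) real_inner_self_nonneg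
    have hbd : ∀ t ∈ Icc (0:ℝ) E, ‖(lam / e.ρ t ^ 2) • (1 : Op d)‖ ≤ lam / e.ρi ^ 2 := fun t _ => by
      rw [norm_smul, Real.norm_of_nonneg (hpos t)]
      refine (mul_le_of_le_one_right (hpos t) ContinuousLinearMap.norm_id_le).trans ?_
      exact div_le_div_of_nonneg_left hlam.le (pow_pos e.ρi_pos 2)
        (pow_le_pow_left₀ e.ρi_pos.le (e.rad.lower t) 2)
    have hR : (ν : ℝ) ^ 7 * (T₀ + 1) ≤ E :=
      (mul_le_mul_of_nonneg_left hν2 (by positivity)).trans_eq (by simp only [E]; ring)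
    have hR0 : (0:ℝ) ≤ (ν : ℝ) ^ 7 := by positivity
    have h := end_lock e hlock hsol hp hbd (R := (ν : ℝ) ^ 7) (fun t _ => rfl) (le_max_left _ _)
      (by simp only [hX0, one_smul, real_inner_smul_right]; exact mul_nonneg hL real_inner_self_nonneg)
      (by
        simp only [hX0, one_smul, norm_smul, Real.norm_of_nonneg hL]
        exact mul_le_mul_of_nonneg_right (le_max_right _ _) (norm_nonneg _))
      hR0 (by nlinarith) hνR (by nlinarith)
    simp only [smul_smul, ← sub_smul, norm_smul, Real.norm_eq_abs] at h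
    simp only [sub_apply, smul_apply, one_apply_eq_self, ← sub_smul, norm_smul, Real.norm_eq_abs]
    have e1 : |(X E).2 / (X E).1 - e.dl lam E| * (|(X E).1| * ‖v‖) =
        |(X E).2 - e.dl lam E * (X E).1| * ‖v‖ := by
      rw [← mul_assoc, ← abs_mul, sub_mul, div_mul_cancel₀ _ hu.1.ne']
    rw [← e1] at h
    have h2 : |(X E).1| * (|(X E).2 / (X E).1 - e.dl lam E| * ‖v‖) ≤ |(X E).1| * (η * ‖v‖) := by
      linarith
    exact le_of_mul_le_mul_left h2 (abs_pos.mpr hu.1.ne')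
  · have hYX : ∀ t ≤ E, Y t = ((X t).1 • (1 : Op d), (X t).2 • (1 : Op d)) := fun t ht => by
      refine linearODE_unique (Y := fun s => ((X s).1 • (1 : Op d), (X s).2 • (1 : Op d))) (sysOp_continuous hΛ e.bF_continuous) (t₀ := 0) (a := min t 0) (b := E)
        ⟨min_le_right _ _, hE⟩ (fun s _ => hY s) (fun s hs => ?_) ?_ ⟨min_le_left _ _, ht⟩
      · rw [hflat s hs.2]
        exact hasDerivAt_scalar_lift (hX s)
      · simp [hY0, hX0]
    refine ⟨?_, fun t ht => ?_⟩
    · rw [hYX E le_rfl, div_mul_cancel₀ _ hu.1.ne']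
    · rw [hYX t (ht.trans hE)]
      have he : ∀ s ∈ Icc t 0, HasDerivAt (fun r => (Real.exp (L * r), L * Real.exp (L * r)))
          (sysOp (lam / e.ρ s ^ 2) (e.bF s) (Real.exp (L * s), L * Real.exp (L * s))) s := by
        intro s hs
        obtain ⟨hw, hρ⟩ := e.rad.flat s hs.2
        rw [sysOp_apply]
        have h1 : HasDerivAt (fun r => Real.exp (L * r)) (L * Real.exp (L * s)) s := by
          simpa [mul_comm] using ((hasDerivAt_id s).const_mul L).exp
        refine (h1.prodMk (h1.const_mul L)).congr_deriv ?_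
        simp only [Env.bF, hw, hρ, smul_eq_mul, Prod.mk.injEq, true_and]
        rw [← hrel]
        ring
      have := linearODE_unique hA (t₀ := 0) (a := t) (b := 0) ⟨ht, le_rfl⟩ (fun s _ => hX s) he
        (by simp [hX0]) ⟨le_rfl, ht⟩
      rw [this]

end Vale.Agent.P225
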