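import Vale.Agent.P225.Interfaces2

/-! P225: ordered products of exponentials. -/

open Filter Topology NormedSpace

namespace Vale.Agent.P225

variable {𝔸 : Type*} [NormedRing 𝔸] [NormedAlgebra ℝ 𝔸]

/-- Ordered product of exponentials, later slots on the left. -/
noncomputable def wordExp {P : ℕ} (Q : Fin P → 𝔸) (c : Fin P → ℝ) : 𝔸 :=
  (List.ofFn fun k => exp (c k • Q k)).reverse.prod

theorem wordExp_succ {P : ℕ} (Q : Fin (P + 1) → 𝔸) (c : Fin (P + 1) → ℝ) :
    wordExp Q c = exp (c (Fin.last P) • Q (Fin.last P)) *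
      wordExp (fun k => Q k.castSucc) (fun k => c k.castSucc) := by
  rw [wordExp, wordExp, List.ofFn_succ', List.concat_eq_append]
  simp

theorem wordExp_zero_coeff {P : ℕ} (Q : Fin P → 𝔸) : wordExp Q 0 = 1 := by
  induction P with
  | zero => simp [wordExp]
  | succ P ih =>
    rw [wordExp_succ]
    have : (fun k : Fin P => (0 : Fin (P + 1) → ℝ) k.castSucc) = 0 := rfl
    rw [this, ih, Pi.zero_apply, zero_smul, exp_zero, mul_one]

variable [CompleteSpace 𝔸]

theorem wordExp_continuous {P : ℕ} (Q : Fin P → 𝔸) : Continuous (wordExp Q) := by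
  let _ : NormedAlgebra ℚ 𝔸 := NormedAlgebra.restrictScalars ℚ ℝ 𝔸
  induction P with
  | zero =>
    have : wordExp Q = fun _ => 1 := funext fun c => by simp [wordExp]
    rw [this]; exact continuous_const
  | succ P ih =>
    have e : wordExp Q = fun c => exp (c (Fin.last P) • Q (Fin.last P)) *
        wordExp (fun k => Q k.castSucc) (fun k => c k.castSucc) := funext fun c => wordExp_succ Q c
    rw [e]
    exact (exp_continuous.comp ((continuous_apply _).smul continuous_const)).mul
      ((ih _).comp (continuous_pi fun k => continuous_apply _))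

/-- Slots switched on one after another: the derivative of the product is a left multiplication. -/
theorem hasDerivAt_wordExp {P : ℕ} (Q : Fin P → 𝔸) {g : ℝ → Fin P → ℝ} {g' : Fin P → ℝ} {t : ℝ}
    (hg : ∀ k, HasDerivAt (fun s => g s k) (g' k) t)
    (hord : ∀ k l, k < l → g' k ≠ 0 → g t l = 0) :
    HasDerivAt (fun s => wordExp Q (g s)) ((∑ k, g' k • Q k) * wordExp Q (g t)) t := by
  induction P with
  | zero => simpa [wordExp] using hasDerivAt_const t (1 : 𝔸)
  | succ P ih =>
    have h1 : HasDerivAt (fun s => exp (g s (Fin.last P) • Q (Fin.last P)))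
        (g' (Fin.last P) • (Q (Fin.last P) * exp (g t (Fin.last P) • Q (Fin.last P)))) t :=
      ((hasDerivAt_exp_smul_const' (Q (Fin.last P)) (g t (Fin.last P))).scomp t (hg (Fin.last P)) :)
    have h2 := ih (fun k => Q k.castSucc) (g := fun s k => g s k.castSucc)
      (g' := fun k => g' k.castSucc) (fun k => hg _)
      (fun k l hkl h => hord _ _ (Fin.castSucc_lt_castSucc_iff.mpr hkl) h)
    simp only [wordExp_succ]
    refine (h1.mul h2).congr_deriv ?_
    rw [Fin.sum_univ_castSucc, add_mul, smul_mul_assoc, smul_mul_assoc, mul_assoc, add_comm]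
    congr 1
    by_cases h0 : ∀ k : Fin P, g' k.castSucc = 0
    · simp [h0]
    · obtain ⟨k, hk⟩ := not_forall.mp h0
      rw [hord _ _ (Fin.castSucc_lt_last k) hk, zero_smul, exp_zero, one_mul, one_mul]

theorem slotExp_apply {Lm : ℕ} {d : Fin Lm → ℕ} {P : ℕ} (Q : Fin P → Tup d) (c : Fin P → ℝ)
    (l : Fin Lm) : slotExp Q c l = wordExp (fun k => Q k l) c := by
  have hmap : ∀ xs : List (Tup d), xs.prod l = (xs.map fun x => x l).prod := fun xs =>
    map_list_prod (Pi.evalMonoidHom (fun l => Lev (d l) →L[ℝ] Lev (d l)) l) xs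
  let _ : ∀ i, NormedAlgebra ℚ (Lev (d i) →L[ℝ] Lev (d i)) := fun i =>
    NormedAlgebra.restrictScalars ℚ ℝ _
  rw [slotExp, wordExp, hmap, List.map_reverse, List.map_ofFn]
  congr 3
  funext k
  exact congrFun (Pi.exp_def (c k • Q k)) l

end Vale.Agent.P225
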