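import Vale.Agent.P225.Curv
import Vale.Agent.P225.Estimates
import Vale.Agent.P225.Word

/-! P225: the radial systems on one level and the reference growth rate. -/

open Set Filter Topology
open scoped ContDiff RealInnerProductSpace

namespace Vale.Agent.P225

/-- The radial data fixed once and for all. -/
structure Env where
  ρi : ℝ
  sd : ℝ
  w : ℝ → ℝ
  ρ : ℝ → ℝ
  rad : Radial ρi w ρ
  ρi_pos : 0 < ρi
  sd_pos : 0 < sd

namespace Env

variable (e : Env)

/-- The damping `2j + N w`. -/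
def bF (t : ℝ) : ℝ := 40 + 41 * e.w t

/-- The reference rate: positive root of `δ² + b δ = lam / ρ²`. -/
noncomputable def dl (lam t : ℝ) : ℝ :=
  -e.bF t / 2 + Real.sqrt (e.bF t ^ 2 / 4 + lam / e.ρ t ^ 2)

/-- Limit of `1 / (ρ² γ)`. -/
noncomputable def gain (lam : ℝ) : ℝ :=
  1 / (e.ρi ^ 2 * (2 * Real.sqrt (400 + lam / e.ρi ^ 2)))

theorem bF_mem (t : ℝ) : 29 ≤ e.bF t ∧ e.bF t ≤ 40 := by
  have := e.rad.w_mem t
  simp only [Env.bF]
  constructor <;> linarith

theorem bF_continuous : Continuous e.bF :=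
  continuous_const.add (continuous_const.mul e.rad.smooth.continuous)

theorem rho_pos (t : ℝ) : 0 < e.ρ t := e.ρi_pos.trans_le (e.rad.lower t)

theorem rho_continuous : Continuous e.ρ :=
  continuous_iff_continuousAt.mpr fun t => (e.rad.hasDeriv t).continuousAt

theorem rho_contDiff : ContDiff ℝ ∞ e.ρ := by
  refine contDiff_infty.mpr fun n => ?_
  induction n with
  | zero => exact contDiff_zero.mpr e.rho_continuous
  | succ n ih =>
    rw [Nat.cast_succ, contDiff_succ_iff_deriv]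
    refine ⟨fun t => (e.rad.hasDeriv t).differentiableAt, by simp, ?_⟩
    rw [show deriv e.ρ = fun t => e.w t * e.ρ t from funext fun t => (e.rad.hasDeriv t).deriv]
    exact (e.rad.smooth.of_le (by exact_mod_cast le_top)).mul ih

theorem rho_inv_sq_le (t : ℝ) : 1 ≤ 1 / e.ρ t ^ 2 ∧ 1 / e.ρ t ^ 2 ≤ 1 / e.ρi ^ 2 :=
  ⟨one_le_one_div (pow_pos (e.rho_pos t) 2) (pow_le_one₀ (e.rho_pos t).le (e.rad.upper t)),
    one_div_le_one_div_of_le (pow_pos e.ρi_pos 2) (pow_le_pow_left₀ e.ρi_pos.le (e.rad.lower t) 2)⟩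

variable {lam : ℝ} (hlam : 0 < lam)

/-- Upper bound for the rate. -/
noncomputable def dlMax (lam : ℝ) : ℝ := Real.sqrt lam / e.ρi

/-- Lower bound for the rate. -/
noncomputable def dlMin (lam : ℝ) : ℝ := lam / (e.dlMax lam + 40)

include hlam

theorem dl_root (t : ℝ) : e.dl lam t ^ 2 + e.bF t * e.dl lam t = lam / e.ρ t ^ 2 := by
  have h : Real.sqrt (e.bF t ^ 2 / 4 + lam / e.ρ t ^ 2) ^ 2 = e.bF t ^ 2 / 4 + lam / e.ρ t ^ 2 :=
    Real.sq_sqrt (by positivity)
  simp only [Env.dl]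
  linear_combination h

theorem dl_pos (t : ℝ) : 0 < e.dl lam t := by
  have hb := e.bF_mem t
  have := e.rho_pos t
  have h : Real.sqrt (e.bF t ^ 2 / 4) < Real.sqrt (e.bF t ^ 2 / 4 + lam / e.ρ t ^ 2) :=
    Real.sqrt_lt_sqrt (by positivity) (lt_add_of_pos_right _ (by positivity))
  rw [show e.bF t ^ 2 / 4 = (e.bF t / 2) ^ 2 by ring, Real.sqrt_sq (by linarith)] at h
  rw [Env.dl, show e.bF t ^ 2 / 4 = (e.bF t / 2) ^ 2 by ring]
  linarith

theorem dlMin_pos : 0 < e.dlMin lam := by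
  have := e.ρi_pos
  simp only [Env.dlMin, Env.dlMax]
  positivity

theorem dl_mem (t : ℝ) : e.dlMin lam ≤ e.dl lam t ∧ e.dl lam t ≤ e.dlMax lam := by
  have hb := e.bF_mem t
  have hp := e.dl_pos hlam t
  have hr := e.dl_root hlam t
  obtain ⟨h1, h2⟩ := e.rho_inv_sq_le t
  have hup : e.dl lam t ≤ e.dlMax lam := by
    refine le_of_pow_le_pow_left₀ two_ne_zero (div_nonneg (Real.sqrt_nonneg _) e.ρi_pos.le) ?_
    rw [Env.dlMax, div_pow, Real.sq_sqrt hlam.le]
    have := mul_le_mul_of_nonneg_left h2 hlam.le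
    rw [mul_one_div, mul_one_div] at this
    nlinarith
  refine ⟨?_, hup⟩
  rw [Env.dlMin, div_le_iff₀ (by have := e.ρi_pos; simp only [Env.dlMax]; positivity)]
  have := mul_le_mul_of_nonneg_left h1 hlam.le
  rw [mul_one, mul_one_div] at this
  have := mul_le_mul_of_nonneg_left (add_le_add hup hb.2) hp.le
  linarith

theorem dl_hasDerivAt (t : ℝ) : HasDerivAt (e.dl lam) (deriv (e.dl lam) t) t := by
  have hc : ContDiff ℝ 1 (e.dl lam) := by
    have hb : ContDiff ℝ 1 e.bF :=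
      contDiff_const.add (contDiff_const.mul (e.rad.smooth.of_le (by norm_num)))
    refine (hb.neg.div_const _).add (ContDiff.sqrt ?_ fun t => ?_)
    · exact ((hb.pow 2).div_const _).add (contDiff_const.div
        ((e.rho_contDiff.of_le (by norm_num)).pow 2) fun t => (pow_pos (e.rho_pos t) 2).ne')
    · have := e.rho_pos t
      have : 0 < lam / e.ρ t ^ 2 := by positivity
      have : 0 ≤ e.bF t ^ 2 / 4 := by positivity
      linarith
  exact (hc.differentiable one_ne_zero t).hasDerivAt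

theorem dl_deriv_le : ∃ K : ℝ, 0 ≤ K ∧ ∀ t, |deriv (e.dl lam) t| ≤ K * (|e.w t| + |deriv e.w t|) := by
  refine ⟨41 + 20 * 41 + 2 * lam / e.ρi ^ 2, by positivity, fun t => ?_⟩
  have hb := e.bF_mem t
  have hρ := e.rho_pos t
  have hq : 0 < e.bF t ^ 2 / 4 + lam / e.ρ t ^ 2 := by positivity
  have hbd : HasDerivAt e.bF (41 * deriv e.w t) t :=
    ((((e.rad.smooth.differentiable (by simp)) t).hasDerivAt).const_mul 41).const_add 40
  have h := (hbd.neg.div_const 2).add ((((hbd.pow 2).div_const 4).add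
    ((hasDerivAt_const t lam).div ((e.rad.hasDeriv t).pow 2) (pow_pos hρ 2).ne')).sqrt hq.ne')
  have hval : deriv (e.dl lam) t = -(41 * deriv e.w t) / 2 +
      (e.bF t * (41 * deriv e.w t) / 2 - 2 * (lam / e.ρ t ^ 2) * e.w t) /
        (2 * Real.sqrt (e.bF t ^ 2 / 4 + lam / e.ρ t ^ 2)) := by
    refine (HasDerivAt.congr_deriv h ?_).deriv
    simp only [Pi.pow_apply, Pi.add_apply, Pi.div_apply]
    field_simp
    ring
  have hs : 14 ≤ Real.sqrt (e.bF t ^ 2 / 4 + lam / e.ρ t ^ 2) := by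
    calc (14:ℝ) = Real.sqrt (14 ^ 2) := (Real.sqrt_sq (by norm_num)).symm
      _ ≤ _ := Real.sqrt_le_sqrt (by nlinarith [show 0 ≤ lam / e.ρ t ^ 2 by positivity])
  rw [hval]
  refine (abs_add_le _ _).trans ?_
  have h1 : |-(41 * deriv e.w t) / 2| ≤ 41 * |deriv e.w t| := by
    rw [abs_div, abs_neg, abs_mul, abs_two, abs_of_pos (by norm_num : (0:ℝ) < 41)]
    linarith [abs_nonneg (deriv e.w t)]
  have hlρ : lam / e.ρ t ^ 2 ≤ lam / e.ρi ^ 2 := by
    have := mul_le_mul_of_nonneg_left (e.rho_inv_sq_le t).2 hlam.le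
    rwa [mul_one_div, mul_one_div] at this
  have h2 : |(e.bF t * (41 * deriv e.w t) / 2 - 2 * (lam / e.ρ t ^ 2) * e.w t) /
      (2 * Real.sqrt (e.bF t ^ 2 / 4 + lam / e.ρ t ^ 2))| ≤
      20 * 41 * |deriv e.w t| + 2 * (lam / e.ρi ^ 2) * |e.w t| := by
    rw [abs_div]
    refine (div_le_self (abs_nonneg _) ?_).trans ?_
    · rw [abs_of_nonneg (by positivity)]; linarith
    refine (abs_sub _ _).trans (add_le_add ?_ ?_)
    · rw [abs_div, abs_mul, abs_mul, abs_two, abs_of_pos (by norm_num : (0:ℝ) < 41),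
        abs_of_nonneg (by linarith : 0 ≤ e.bF t)]
      have := mul_le_mul_of_nonneg_right hb.2 (show 0 ≤ 41 * |deriv e.w t| by positivity)
      linarith
    · rw [abs_mul, abs_of_nonneg (by positivity : 0 ≤ 2 * (lam / e.ρ t ^ 2))]
      exact mul_le_mul_of_nonneg_right (by linarith) (abs_nonneg _)
  have e2 : 2 * lam / e.ρi ^ 2 = 2 * (lam / e.ρi ^ 2) := by ring
  rw [e2]
  have p1 : 0 ≤ 2 * (lam / e.ρi ^ 2) * |deriv e.w t| := by positivity
  have p2 : 0 ≤ (41 + 20 * 41) * |e.w t| := by positivity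
  linarith

theorem gain_tendsto :
    Tendsto (fun t => 1 / e.ρ t ^ 2 - (2 * e.dl lam t + e.bF t) * e.gain lam) atTop (𝓝 0) := by
  obtain ⟨C, hC⟩ := e.rad.decay
  have hw : Tendsto e.w atTop (𝓝 0) := by
    refine squeeze_zero_norm' ?_ ((tendsto_const_nhds (x := C)).div_atTop tendsto_id)
    filter_upwards [eventually_ge_atTop (1:ℝ)] with t ht
    exact (hC t ht).1
  have hb : Tendsto e.bF atTop (𝓝 40) := by
    have := (tendsto_const_nhds (x := (40:ℝ))).add (hw.const_mul 41)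
    rw [mul_zero, add_zero] at this
    exact this
  have hρ : Tendsto (fun t => 1 / e.ρ t ^ 2) atTop (𝓝 (1 / e.ρi ^ 2)) :=
    tendsto_const_nhds.div (e.rad.lim.pow 2) (pow_pos e.ρi_pos 2).ne'
  have hρ' : Tendsto (fun t => lam / e.ρ t ^ 2) atTop (𝓝 (lam / e.ρi ^ 2)) :=
    tendsto_const_nhds.div (e.rad.lim.pow 2) (pow_pos e.ρi_pos 2).ne'
  have hd : Tendsto (fun t => 2 * e.dl lam t + e.bF t) atTop
      (𝓝 (2 * Real.sqrt (400 + lam / e.ρi ^ 2))) := by
    have h := (((hb.pow 2).div_const 4).add hρ').sqrt.const_mul 2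
    have e1 : (fun t => 2 * e.dl lam t + e.bF t) =
        fun t => 2 * Real.sqrt (e.bF t ^ 2 / 4 + lam / e.ρ t ^ 2) := funext fun t => by
      simp only [Env.dl]; ring
    rw [e1]
    norm_num at h
    exact h
  have h := hρ.sub (hd.mul_const (e.gain lam))
  have hne : Real.sqrt (400 + lam / e.ρi ^ 2) ≠ 0 := by
    have := e.ρi_pos
    positivity
  have e0 : 1 / e.ρi ^ 2 - 2 * Real.sqrt (400 + lam / e.ρi ^ 2) * e.gain lam = 0 := by
    simp only [Env.gain]
    field_simp
    ring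
  rwa [e0] at h

theorem gain_pos : 0 < e.gain lam := by
  have := e.ρi_pos
  simp only [Env.gain]
  positivity

end Env

/-- Operators on one level. -/
abbrev Op (d : ℕ) := Lev d →L[ℝ] Lev d

/-- Data of one level: eigenvalue, pulse operators, diagonal dwell operator. -/
structure LevelData (d P : ℕ) where
  lam : ℝ
  Qs : Fin P → Op d
  Q0 : Op d
  m : Fin d → ℝ
  lam_pos : 0 < lam
  Q0_apply : ∀ v i, Q0 v i = m i ^ 2 * v i
  m_le : ∀ i, m i ^ 2 ≤ lam

/-- Coefficient operator on the cycle `ν`. -/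
noncomputable def LevelData.lamN {d P : ℕ} (D : LevelData d P) (e : Env) (ν : ℕ) (c : Fin P → ℝ)
    (t : ℝ) : Op d :=
  (Real.exp ((parN P e.sd ν).sFun c t / 41) / e.ρ t ^ 2) •
    (D.lam • (1 : Op d) + ((∑ k, (Real.exp (-(c k * (parN P e.sd ν).pulse k t)) - 1) • D.Qs k) +
      (Real.exp (-(parN P e.sd ν).plateau t) - 1) • D.Q0))

/-- The first order system on pairs. -/
noncomputable def sysOp {A : Type*} [NormedRing A] [NormedAlgebra ℝ A] (L : A) (b : ℝ) :
    (A × A) →L[ℝ] (A × A) :=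
  (ContinuousLinearMap.snd ℝ A A).prod
    ((ContinuousLinearMap.mul ℝ A L).comp (ContinuousLinearMap.fst ℝ A A) -
      b • ContinuousLinearMap.snd ℝ A A)

theorem sysOp_apply {A : Type*} [NormedRing A] [NormedAlgebra ℝ A] (L : A) (b : ℝ) (Y : A × A) :
    sysOp L b Y = (Y.2, L * Y.1 - b • Y.2) := by
  simp [sysOp]

theorem sysOp_continuous {A : Type*} [NormedRing A] [NormedAlgebra ℝ A] {X : Type*}
    [TopologicalSpace X] {L : X → A} {b : X → ℝ} (hL : Continuous L) (hb : Continuous b) :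
    Continuous fun x => sysOp (L x) (b x) := by
  have h2 : Continuous fun x => (ContinuousLinearMap.mul ℝ A (L x)).comp
      (ContinuousLinearMap.fst ℝ A A) - b x • ContinuousLinearMap.snd ℝ A A :=
    (((ContinuousLinearMap.mul ℝ A).continuous.comp hL).clm_comp continuous_const).sub
      (hb.smul continuous_const)
  exact (ContinuousLinearMap.prodₗᵢ ℝ).continuous.comp
    ((continuous_const (y := ContinuousLinearMap.snd ℝ A A)).prodMk h2)

/-- Pairs solving the system give solutions on vectors. -/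
theorem solOn_apply {d : ℕ} {L : ℝ → Op d} {b : ℝ → ℝ} {Y : ℝ → Op d × Op d} {a a' : ℝ}
    (hY : ∀ t ∈ Icc a a', HasDerivAt Y (sysOp (L t) (b t) (Y t)) t) (v : Lev d) :
    SolOn L b (fun t => (Y t).1 v) (fun t => (Y t).2 v) a a' where
  dU t ht := by
    have h := (hY t ht)
    rw [sysOp_apply] at h
    exact ((ContinuousLinearMap.apply ℝ (Lev d) v).comp
      (ContinuousLinearMap.fst ℝ (Op d) (Op d))).hasFDerivAt.comp_hasDerivAt t h
  dP t ht := by
    have h := (hY t ht)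
    rw [sysOp_apply] at h
    exact ((ContinuousLinearMap.apply ℝ (Lev d) v).comp
      (ContinuousLinearMap.snd ℝ (Op d) (Op d))).hasFDerivAt.comp_hasDerivAt t h

end Vale.Agent.P225
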