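import Vale.Agent.P225.LevelBound

/-! P225: the pulse part of a cycle tends to the ideal word in exponentials. -/

open Set Filter Topology
open scoped ContDiff RealInnerProductSpace

namespace Vale.Agent.P225

section ideal

variable {W : Type*} [NormedRing W] [NormedAlgebra ℝ W] [CompleteSpace W]

theorem hasDerivAt_scaled_word {P : ℕ} (u K : ℝ) (Q : Fin P → W) {g : ℝ → Fin P → ℝ}
    {g' : Fin P → ℝ} {t : ℝ} (hg : ∀ k, HasDerivAt (fun s => g s k) (g' k) t)
    (hord : ∀ k l, k < l → g' k ≠ 0 → g t l = 0) :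
    HasDerivAt (fun s => Real.exp (K * u * ∑ k, g s k) • wordExp (fun k => -(K • Q k)) (g s))
      ((∑ k, (g' k * K) • (u • (1 : W) - Q k)) *
        (Real.exp (K * u * ∑ k, g t k) • wordExp (fun k => -(K • Q k)) (g t))) t := by
  have h1 : HasDerivAt (fun s => Real.exp (K * u * ∑ k, g s k))
      (Real.exp (K * u * ∑ k, g t k) * (K * u * ∑ k, g' k)) t :=
    ((HasDerivAt.fun_sum fun k _ => hg k).const_mul (K * u)).exp
  have h2 := hasDerivAt_wordExp (fun k => -(K • Q k)) hg hord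
  refine (h1.fun_smul h2).congr_deriv ?_
  set sc := Real.exp (K * u * ∑ k, g t k)
  set Wt := wordExp (fun k => -(K • Q k)) (g t)
  have e : (∑ k, (g' k * K) • (u • (1 : W) - Q k)) =
      (K * u * ∑ k, g' k) • (1 : W) + ∑ k, g' k • -(K • Q k) := by
    rw [Finset.mul_sum, Finset.sum_smul, ← Finset.sum_add_distrib]
    refine Finset.sum_congr rfl fun k _ => ?_
    rw [smul_sub, smul_smul, smul_neg, smul_smul, ← sub_eq_add_neg]
    congr 2
    ring
  rw [e, add_mul, smul_mul_assoc, one_mul, mul_smul_comm, smul_smul, add_comm,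
    mul_comm sc (K * u * _)]

end ideal

section first_order

variable {W : Type*} [NormedAddCommGroup W] [NormedSpace ℝ W]

theorem first_order_error {P : ℕ} (one : W) (hone : ‖one‖ ≤ 1) (Q : Fin P → W)
    {lam r ri q dd a s : ℝ} (p : Fin P → ℝ) (hlam : 0 ≤ lam) (hr0 : 0 ≤ r) (hr : r ≤ ri)
    (ha1 : a ≤ 1) (hp : ∀ k, |p k| ≤ a) (hs : |s| ≤ a) (hsum : s = ∑ k, p k) :
    ‖((r * Real.exp (s / 41)) • (lam • one + ∑ k, (Real.exp (-p k) - 1) • Q k) -
        (r * lam + dd) • one) - ∑ k, (p k * q) • ((lam / 41) • one - Q k)‖ ≤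
      (lam + ∑ k, ‖Q k‖) * (6 * ri * a ^ 2 + |r - q| * a) + |dd| := by
  set E := Real.exp (s / 41)
  have e : ((r * E) • (lam • one + ∑ k, (Real.exp (-p k) - 1) • Q k) - (r * lam + dd) • one) -
      ∑ k, (p k * q) • ((lam / 41) • one - Q k) =
      (r * lam * (E - 1) - dd - q * (lam / 41) * s) • one +
        ∑ k, (r * E * (Real.exp (-p k) - 1) + q * p k) • Q k := by
    have e1 : ∑ k, (p k * q) • ((lam / 41) • one - Q k) =
        (q * (lam / 41) * s) • one - ∑ k, (q * p k) • Q k := by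
      rw [hsum, Finset.mul_sum, Finset.sum_smul, ← Finset.sum_sub_distrib]
      refine Finset.sum_congr rfl fun k _ => ?_
      rw [smul_sub, smul_smul, mul_comm (p k) q]
      congr 2
      ring
    rw [e1, smul_add, Finset.smul_sum, smul_smul]
    simp only [smul_smul, add_smul, Finset.sum_add_distrib]
    module
  rw [e]
  have hs41 : |s / 41| ≤ 1 := by
    rw [abs_div, abs_of_pos (by norm_num : (0:ℝ) < 41)]; linarith [abs_nonneg s]
  have hE : |E - 1 - s / 41| ≤ a ^ 2 := by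
    refine (Real.abs_exp_sub_one_sub_id_le hs41).trans ?_
    obtain ⟨s1, s2⟩ := abs_le.mp hs
    refine sq_le_sq' ?_ ?_ <;> linarith
  have hE1 : |E - 1| ≤ 2 * a := by
    refine (Real.abs_exp_sub_one_le hs41).trans ?_
    rw [abs_div, abs_of_pos (by norm_num : (0:ℝ) < 41)]; linarith [abs_nonneg s]
  have ha : 0 ≤ a := (abs_nonneg _).trans hs
  have hri : 0 ≤ ri := hr0.trans hr
  have hsc : |r * lam * (E - 1) - dd - q * (lam / 41) * s| ≤
      lam * (6 * ri * a ^ 2 + |r - q| * a) + |dd| := by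
    have e2 : r * lam * (E - 1) - dd - q * (lam / 41) * s =
        lam * (r * (E - 1 - s / 41) + (r - q) * (s / 41)) - dd := by ring
    rw [e2]
    refine (abs_sub _ _).trans (add_le_add ?_ le_rfl)
    rw [abs_mul, abs_of_nonneg hlam]
    refine mul_le_mul_of_nonneg_left ((abs_add_le _ _).trans (add_le_add ?_ ?_)) hlam
    · rw [abs_mul, abs_of_nonneg hr0]
      calc r * |E - 1 - s / 41| ≤ ri * a ^ 2 := mul_le_mul hr hE (abs_nonneg _) hri
        _ ≤ _ := by nlinarith [mul_nonneg hri (sq_nonneg a)]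
    · rw [abs_mul]
      refine mul_le_mul_of_nonneg_left ?_ (abs_nonneg _)
      rw [abs_div, abs_of_pos (by norm_num : (0:ℝ) < 41)]; linarith [abs_nonneg s]
  have hco : ∀ k, |r * E * (Real.exp (-p k) - 1) + q * p k| ≤ 6 * ri * a ^ 2 + |r - q| * a := by
    intro k
    have e2 : r * E * (Real.exp (-p k) - 1) + q * p k =
        r * E * (Real.exp (-p k) - 1 + p k) + -(r * (E - 1) * p k) + -((r - q) * p k) := by ring
    rw [e2]
    have hE3 : |E| ≤ 3 := by
      have := abs_le.mp hE1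
      rw [abs_of_pos (Real.exp_pos _)]
      linarith
    have hpk : |Real.exp (-p k) - 1 + p k| ≤ a ^ 2 := by
      have := Real.abs_exp_sub_one_sub_id_le (x := -p k) (by rw [abs_neg]; exact (hp k).trans ha1)
      rw [sub_neg_eq_add, neg_sq] at this
      exact this.trans (by rw [← sq_abs]; exact pow_le_pow_left₀ (abs_nonneg _) (hp k) 2)
    refine (abs_add_le _ _).trans ((add_le_add ((abs_add_le _ _).trans
      (add_le_add (b := 3 * ri * a ^ 2) (d := 2 * ri * a ^ 2) ?_ ?_)) (b := 3 * ri * a ^ 2 +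
        2 * ri * a ^ 2) (d := |r - q| * a) ?_).trans ?_)
    · rw [abs_mul, abs_mul, abs_of_nonneg hr0]
      calc r * |E| * |Real.exp (-p k) - 1 + p k| ≤ ri * 3 * a ^ 2 :=
            mul_le_mul (mul_le_mul hr hE3 (abs_nonneg _) hri) hpk (abs_nonneg _) (by positivity)
        _ = _ := by ring
    · rw [abs_neg, abs_mul, abs_mul, abs_of_nonneg hr0]
      calc r * |E - 1| * |p k| ≤ ri * (2 * a) * a :=
            mul_le_mul (mul_le_mul hr hE1 (abs_nonneg _) hri) (hp k) (abs_nonneg _) (by positivity)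
        _ = _ := by ring
    · rw [abs_neg, abs_mul]
      exact mul_le_mul_of_nonneg_left (hp k) (abs_nonneg _)
    · nlinarith [mul_nonneg hri (sq_nonneg a)]
  refine (norm_add_le _ _).trans ?_
  rw [add_mul, add_right_comm]
  refine add_le_add ?_ ?_
  · rw [norm_smul, Real.norm_eq_abs]
    exact (mul_le_of_le_one_right (abs_nonneg _) hone).trans hsc
  · rw [Finset.sum_mul]
    refine (norm_sum_le _ _).trans (Finset.sum_le_sum fun k _ => ?_)
    rw [norm_smul, Real.norm_eq_abs, mul_comm ‖Q k‖]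
    exact mul_le_mul_of_nonneg_right (hco k) (norm_nonneg _)

end first_order

variable {d P : ℕ} (D : LevelData d P) (e : Env)

/-- The generators seen by the transit. -/
noncomputable def LevelData.gen (k : Fin P) : Op d := -(e.gain D.lam • D.Qs k)

/-- The scalar factor picked up by the transit. -/
noncomputable def LevelData.scal (c : Fin P → ℝ) : ℝ :=
  Real.exp (e.gain D.lam * (D.lam / 41) * ∑ k, c k)

/-- Growth factor of the reference rate. -/
noncomputable def phiF (lam a t : ℝ) : ℝ := Real.exp (∫ s in a..t, e.dl lam s)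

theorem phiF_hasDerivAt {lam : ℝ} (hlam : 0 < lam) (a t : ℝ) :
    HasDerivAt (phiF e lam a) (e.dl lam t * phiF e lam a t) t := by
  have hc : Continuous (e.dl lam) :=
    continuous_iff_continuousAt.mpr fun s => (e.dl_hasDerivAt hlam s).continuousAt
  exact ((hc.integral_hasStrictDerivAt a t).hasDerivAt.exp).congr_deriv (mul_comm _ _)

theorem phiF_pos (lam a t : ℝ) : 0 < phiF e lam a t := Real.exp_pos _

/-- Dividing by the reference solution. -/
theorem conj_system {lam : ℝ} (hlam : 0 < lam) {L : ℝ → Op d} {U U' : ℝ → Lev d} {a₀ a a' : ℝ}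
    (h : SolOn L e.bF U U' a a') {t : ℝ} (ht : t ∈ Icc a a') :
    HasDerivAt (fun s => (phiF e lam a₀ s)⁻¹ • U s)
      ((phiF e lam a₀ t)⁻¹ • (U' t - e.dl lam t • U t)) t ∧
    HasDerivAt (fun s => (phiF e lam a₀ s)⁻¹ • (U' s - e.dl lam s • U s))
      ((L t - (lam / e.ρ t ^ 2 + deriv (e.dl lam) t) • (1 : Op d)) ((phiF e lam a₀ t)⁻¹ • U t) -
        (2 * e.dl lam t + e.bF t) • ((phiF e lam a₀ t)⁻¹ • (U' t - e.dl lam t • U t))) t := by
  have hφ := (phiF_hasDerivAt e hlam a₀ t).inv (phiF_pos e lam a₀ t).ne'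
  constructor
  · refine (hφ.smul (h.dU t ht)).congr_deriv ?_
    simp only [Pi.inv_apply]
    have : -(e.dl lam t * phiF e lam a₀ t) / phiF e lam a₀ t ^ 2 =
        -(e.dl lam t * (phiF e lam a₀ t)⁻¹) := by
      have := (phiF_pos e lam a₀ t).ne'
      field_simp
    rw [this]
    module
  · refine (hφ.smul ((h.dP t ht).sub ((e.dl_hasDerivAt hlam t).smul (h.dU t ht)))).congr_deriv ?_
    simp only [Pi.inv_apply, Pi.sub_apply, Pi.smul_apply', sub_apply, smul_apply, one_apply_eq_self,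
      map_smul]
    have : -(e.dl lam t * phiF e lam a₀ t) / phiF e lam a₀ t ^ 2 =
        -(e.dl lam t * (phiF e lam a₀ t)⁻¹) := by
      have := (phiF_pos e lam a₀ t).ne'
      field_simp
    rw [this, ← e.dl_root hlam t]
    module

/-- The vanishing quantities along cycles. -/
theorem transit_small (Bc : ℝ) :
    ∃ Cμ : ℝ, 1 ≤ Cμ ∧ ∀ η : ℝ, 0 < η → η ≤ 1 → ∀ᶠ ν in atTop, 1 ≤ ν ∧ Cμ / (parN P e.sd ν).R ≤ 1 ∧
      η / (parN P e.sd ν).R ≤ Cμ / (parN P e.sd ν).R ∧
      ∀ c : Fin P → ℝ, ‖c‖ ≤ Bc →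
        ∀ t ∈ Icc (parN P e.sd ν).E ((parN P e.sd ν).E + 2 * (parN P e.sd ν).R),
          |2 * deriv (e.dl D.lam) t + 41 * deriv e.w t| ≤ η / (parN P e.sd ν).R ∧
          ‖(∑ k : Fin P, (c k * (parN P e.sd ν).pulse k t * e.gain D.lam) •
              ((D.lam / 41) • (1 : Op d) - D.Qs k))‖ ≤ Cμ / (parN P e.sd ν).R ∧
          ‖(D.lamN e ν c t - (D.lam / e.ρ t ^ 2 + deriv (e.dl D.lam) t) • (1 : Op d)) -
              (2 * e.dl D.lam t + e.bF t) •
                ∑ k : Fin P, (c k * (parN P e.sd ν).pulse k t * e.gain D.lam) •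
                  ((D.lam / 41) • (1 : Op d) - D.Qs k)‖ ≤ η / (parN P e.sd ν).R := by
  obtain ⟨C, hC0, hC⟩ := exists_sched_bound P e.sd (max Bc 0) e.sd_pos.le (le_max_right _ _)
  obtain ⟨C', hC'⟩ := e.rad.decay
  obtain ⟨Kd, hKd0, hKd⟩ := e.dl_deriv_le D.lam_pos
  set B := max Bc 0
  have hB : 0 ≤ B := le_max_right _ _
  set A := (B + 1) * C
  have hA : 0 ≤ A := mul_nonneg (by linarith) hC0
  set S := D.lam + ∑ k, ‖D.Qs k‖
  have hS : 0 ≤ S := add_nonneg D.lam_pos.le (Finset.sum_nonneg fun k _ => norm_nonneg _)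
  set ri := 1 / e.ρi ^ 2
  have hri : 0 ≤ ri := by positivity
  have hg0 := (e.gain_pos D.lam_pos).le
  refine ⟨max 1 (B * C * e.gain D.lam * ∑ k, ‖(D.lam / 41) • (1 : Op d) - D.Qs k‖),
    le_max_left _ _, fun η hη hη1 => ?_⟩
  set Cμ := max 1 (B * C * e.gain D.lam * ∑ k, ‖(D.lam / 41) • (1 : Op d) - D.Qs k‖)
  obtain ⟨T₀, hT₀⟩ := eventually_atTop.mp
    (((e.gain_tendsto D.lam_pos).abs.eventually_le_const
      (show |(0:ℝ)| < η / (3 * (S * A + 1)) by rw [abs_zero]; positivity)))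
  have hq : Tendsto (fun ν : ℕ => (ν : ℝ) ^ 7 / (ν : ℝ) ^ 9) atTop (𝓝 0) := by
    have h : Tendsto (fun x : ℝ => x ^ 7 / x ^ 9) atTop (𝓝 0) :=
      tendsto_pow_div_pow_atTop_zero (by norm_num)
    exact h.comp tendsto_natCast_atTop_atTop
  have ev : ∀ᶠ ν : ℕ in atTop, 1 ≤ ν ∧ T₀ ≤ (ν : ℝ) ^ 9 ∧ Cμ / (ν : ℝ) ^ 7 ≤ 1 ∧
      A / (ν : ℝ) ^ 7 ≤ 1 ∧ S * (6 * ri * A ^ 2) / (ν : ℝ) ^ 7 ≤ η / 3 ∧
      (4 * Kd + 41) * |C'| * ((ν : ℝ) ^ 7 / (ν : ℝ) ^ 9) ≤ η / 3 := by
    refine (eventually_ge_atTop 1).and ((tendsto_parN_E.eventually_ge_atTop T₀).and ?_)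
    refine ((tendsto_const_nhds.div_atTop tendsto_parN_R).eventually_le_const one_pos).and ?_
    refine ((tendsto_const_nhds.div_atTop tendsto_parN_R).eventually_le_const one_pos).and ?_
    refine ((tendsto_const_nhds.div_atTop tendsto_parN_R).eventually_le_const (by positivity)).and ?_
    have := hq.const_mul ((4 * Kd + 41) * |C'|)
    rw [mul_zero] at this
    exact this.eventually_le_const (by positivity)
  filter_upwards [ev] with ν ⟨hν, hνT, hνμ, hνA, hνS, hνC⟩
  set p := parN P e.sd ν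
  have hp : p.OK := parN_ok e.sd_pos.le hν
  have hR0 : 0 < p.R := CycPar.R_pos hp
  refine ⟨hν, hνμ, div_le_div_of_nonneg_right (hη1.trans (le_max_left _ _)) hR0.le,
    fun c hc t ht => ?_⟩
  have hck : ∀ k, |c k| ≤ B := fun k =>
    ((Real.norm_eq_abs _).symm.trans_le (norm_le_pi_norm c k)).trans (hc.trans (le_max_left _ _))
  obtain ⟨hpu, hse, -⟩ := hC p hp rfl rfl c hck t
  have hE1 : (1:ℝ) ≤ (ν : ℝ) ^ 9 := one_le_pow₀ (by exact_mod_cast hν)
  have ht1 : 1 ≤ t := hE1.trans ht.1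
  have hwt : ∀ x, |x| ≤ C' / t → |x| ≤ |C'| / (ν : ℝ) ^ 9 := fun x hx =>
    hx.trans ((div_le_div_of_nonneg_right (le_abs_self C') (by linarith)).trans
      (div_le_div_of_nonneg_left (abs_nonneg _) (by linarith) ht.1))
  have hw1 := hwt _ (hC' t ht1).1
  have hw2 := hwt _ (hC' t ht1).2
  have hdd : |deriv (e.dl D.lam) t| ≤ 2 * Kd * (|C'| / (ν : ℝ) ^ 9) :=
    (hKd t).trans (le_trans (mul_le_mul_of_nonneg_left (add_le_add hw1 hw2) hKd0) (by linarith))
  have hsmall : (4 * Kd + 41) * (|C'| / (ν : ℝ) ^ 9) ≤ η / 3 / p.R := by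
    rw [le_div_iff₀ hR0]
    calc (4 * Kd + 41) * (|C'| / (ν : ℝ) ^ 9) * p.R
        = (4 * Kd + 41) * |C'| * ((ν : ℝ) ^ 7 / (ν : ℝ) ^ 9) := by simp only [p]; ring
      _ ≤ _ := hνC
  have h3 : η / 3 / p.R ≤ η / p.R := div_le_div_of_nonneg_right (by linarith) hR0.le
  refine ⟨?_, ?_, ?_⟩
  · refine (abs_add_le _ _).trans ?_
    rw [abs_mul, abs_mul, abs_two, abs_of_pos (by norm_num : (0:ℝ) < 41)]
    linarith [hw2]
  · refine (norm_sum_le _ _).trans ?_
    refine le_trans (Finset.sum_le_sum (g := fun k => B * (C / p.R) * e.gain D.lam *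
      ‖(D.lam / 41) • (1 : Op d) - D.Qs k‖) fun k _ => ?_) ?_
    · rw [norm_smul, Real.norm_eq_abs, abs_mul, abs_mul, abs_of_nonneg hg0]
      exact mul_le_mul_of_nonneg_right (mul_le_mul_of_nonneg_right
        (mul_le_mul (hck k) (hpu k) (abs_nonneg _) hB) hg0) (norm_nonneg _)
    · rw [← Finset.mul_sum]
      calc B * (C / p.R) * e.gain D.lam * ∑ k, ‖(D.lam / 41) • (1 : Op d) - D.Qs k‖
          = (B * C * e.gain D.lam * ∑ k, ‖(D.lam / 41) • (1 : Op d) - D.Qs k‖) / p.R := by ring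
        _ ≤ _ := div_le_div_of_nonneg_right (le_max_right _ _) hR0.le
  · have hpl : p.plateau t = 0 := CycPar.plateau_eq_zero hp (Or.inl ht.2)
    have hsum : p.sFun c t = ∑ k : Fin P, c k * p.pulse k t := by
      show (∑ k : Fin P, c k * p.pulse k t) + _ = _
      rw [hpl, add_zero]
    set r := 1 / e.ρ t ^ 2
    set q := (2 * e.dl D.lam t + e.bF t) * e.gain D.lam
    have hak : ∀ k : Fin P, |c k * p.pulse k t| ≤ A / p.R := fun k => by
      rw [abs_mul]
      refine (mul_le_mul (hck k) (hpu k) (abs_nonneg _) hB).trans ?_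
      rw [← mul_div_assoc]
      exact div_le_div_of_nonneg_right (mul_le_mul_of_nonneg_right (by linarith) hC0) hR0.le
    have has : |p.sFun c t| ≤ A / p.R := by
      refine (hse ht.2).trans (div_le_div_of_nonneg_right ?_ hR0.le)
      exact le_mul_of_one_le_left hC0 (by linarith)
    have h := first_order_error (1 : Op d) ContinuousLinearMap.norm_id_le D.Qs
      (fun k => c k * p.pulse k t) (r := r) (ri := ri) (q := q) (dd := deriv (e.dl D.lam) t)
      (s := p.sFun c t) (a := A / p.R) D.lam_pos.le (by positivity) (e.rho_inv_sq_le t).2 hνA hak has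
      hsum
    have e1 : D.lamN e ν c t - (D.lam / e.ρ t ^ 2 + deriv (e.dl D.lam) t) • (1 : Op d) -
        (2 * e.dl D.lam t + e.bF t) •
          ∑ k : Fin P, (c k * p.pulse k t * e.gain D.lam) • ((D.lam / 41) • (1 : Op d) - D.Qs k) =
        ((r * Real.exp (p.sFun c t / 41)) •
            (D.lam • (1 : Op d) + ∑ k : Fin P, (Real.exp (-(c k * p.pulse k t)) - 1) • D.Qs k) -
          (r * D.lam + deriv (e.dl D.lam) t) • (1 : Op d)) -
          ∑ k : Fin P, (c k * p.pulse k t * q) • ((D.lam / 41) • (1 : Op d) - D.Qs k) := by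
      rw [Finset.smul_sum]
      congr 1
      · congr 1
        · simp only [LevelData.lamN, r]
          rw [show (parN P e.sd ν).plateau t = 0 from hpl, neg_zero, Real.exp_zero, sub_self]
          rw [show (0 : ℝ) • D.Q0 = 0 from zero_smul ℝ D.Q0, add_zero, one_div_mul_eq_div]
        · congr 2
          simp only [r]; ring
      · refine Finset.sum_congr rfl fun k _ => ?_
        rw [smul_smul]
        congr 1
        simp only [q]; ring
    rw [e1]
    refine h.trans ?_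
    have hgap : |r - q| ≤ η / (3 * (S * A + 1)) := hT₀ t (hνT.trans ht.1)
    have t1 : S * (6 * ri * (A / p.R) ^ 2) ≤ η / 3 / p.R := by
      rw [le_div_iff₀ hR0]
      calc S * (6 * ri * (A / p.R) ^ 2) * p.R = S * (6 * ri * A ^ 2) / p.R := by
            field_simp
        _ ≤ _ := hνS
    have t2 : S * (|r - q| * (A / p.R)) ≤ η / 3 / p.R := by
      rw [← mul_div_assoc, ← mul_div_assoc]
      refine div_le_div_of_nonneg_right ?_ hR0.le
      calc S * (|r - q| * A) = (S * A) * |r - q| := by ring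
        _ ≤ (S * A + 1) * (η / (3 * (S * A + 1))) :=
            mul_le_mul (by linarith) hgap (abs_nonneg _) (by positivity)
        _ = η / 3 := by field_simp
    rw [mul_add]
    have hC'0 : 0 ≤ 2 * Kd * (|C'| / (ν : ℝ) ^ 9) + 41 * (|C'| / (ν : ℝ) ^ 9) := by positivity
    have : |deriv (e.dl D.lam) t| ≤ η / 3 / p.R := hdd.trans (le_trans (by linarith) hsmall)
    have e3 : η / 3 / p.R + η / 3 / p.R + η / 3 / p.R = η / p.R := by ring
    linarith

/-- The transit across the pulses and the following flat stretch. -/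
theorem transit_level (Bc η : ℝ) (hη : 0 < η) :
    ∃ η' : ℝ, 0 < η' ∧ ∀ᶠ ν in atTop, ∀ c : Fin P → ℝ, ‖c‖ ≤ Bc → ∀ D0 : Op d,
      ‖D0 - e.dl D.lam (parN P e.sd ν).E • (1 : Op d)‖ ≤ η' → ∀ Y : ℝ → Op d × Op d,
      (∀ t ∈ Icc (parN P e.sd ν).E (parN P e.sd ν).E',
        HasDerivAt Y (sysOp (D.lamN e ν c t) (e.bF t) (Y t)) t) →
      Y (parN P e.sd ν).E = (1, D0) →
        ‖(phiF e D.lam (parN P e.sd ν).E ((parN P e.sd ν).E + 2 * (parN P e.sd ν).R))⁻¹ •
              (Y ((parN P e.sd ν).E + 2 * (parN P e.sd ν).R)).1 -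
            D.scal e c • wordExp (D.gen e) c‖ ≤ η ∧
        ‖(phiF e D.lam (parN P e.sd ν).E ((parN P e.sd ν).E + 2 * (parN P e.sd ν).R))⁻¹ •
            ((Y ((parN P e.sd ν).E + 2 * (parN P e.sd ν).R)).2 -
              e.dl D.lam ((parN P e.sd ν).E + 2 * (parN P e.sd ν).R) •
                (Y ((parN P e.sd ν).E + 2 * (parN P e.sd ν).R)).1)‖ ≤ η := by
  obtain ⟨Bw, hBw⟩ := (isCompact_closedBall (0 : Fin P → ℝ) Bc).exists_bound_of_continuousOn
    (((Real.continuous_exp.comp ((continuous_finsetSum _ fun k _ => continuous_apply k).const_mul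
      (e.gain D.lam * (D.lam / 41)))).fun_smul (wordExp_continuous (D.gen e))).continuousOn)
  set B := max Bw 0
  set G := 2 * e.dlMax D.lam + 40
  have hG : 0 ≤ G := by
    have := (e.dl_pos D.lam_pos 0).le.trans (e.dl_mem D.lam_pos 0).2
    simp only [G]; linarith
  obtain ⟨Cμ, hCμ, hsm⟩ := transit_small D e Bc
  obtain ⟨K, hK0, hK⟩ := transit_estimate (V := Lev d) (show (0:ℝ) < 29 by norm_num) hG
    (show 0 ≤ 2 * Cμ by positivity)
  -- small parameters
  set η₁ := min 1 (η / (4 * (K + 1) + 1))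
  have hη₁ : 0 < η₁ := lt_min one_pos (by positivity)
  refine ⟨min 1 (min (η / (2 * (B + 1))) η₁), lt_min one_pos (lt_min (by positivity) hη₁), ?_⟩
  set η' := min 1 (min (η / (2 * (B + 1))) η₁)
  have ev : ∀ᶠ ν : ℕ in atTop,
      2 * K * ((Cμ + 1 / 2) / (ν : ℝ) ^ 7 + 2 * η₁ ^ 2 / Cμ) ≤ (η / 2) ^ 2 := by
    have h := ((((tendsto_const_nhds (x := Cμ + 1 / 2)).div_atTop tendsto_parN_R).add_const
      (2 * η₁ ^ 2 / Cμ)).const_mul (2 * K))
    refine h.eventually_le_const ?_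
    rw [zero_add]
    have h1 : η₁ ≤ η / (4 * (K + 1) + 1) := min_le_right _ _
    rw [le_div_iff₀ (by positivity)] at h1
    have h2 : 2 * K * (2 * η₁ ^ 2 / Cμ) ≤ 2 * K * (2 * η₁ ^ 2) :=
      mul_le_mul_of_nonneg_left (div_le_self (by positivity) hCμ) (by positivity)
    nlinarith [mul_le_mul h1 h1 (by positivity) hη.le, mul_nonneg hK0 (sq_nonneg η₁),
      mul_pos hη₁ hη₁]
  filter_upwards [hsm η₁ hη₁ (min_le_left _ _), ev] with ν ⟨hν, hνμ, hνε, hνc⟩ hνK c hc D0 hD0 Y hY hY0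
  set p := parN P e.sd ν
  have hp : p.OK := parN_ok e.sd_pos.le hν
  have hR0 : 0 < p.R := CycPar.R_pos hp
  set a := p.E
  set s₁ := a + 2 * p.R
  have hs₁ : Icc a s₁ ⊆ Icc p.E p.E' := Icc_subset_Icc le_rfl (by linarith [hp.long])
  have hγd : ∀ t, HasDerivAt (fun u => 2 * e.dl D.lam u + e.bF u)
      (2 * deriv (e.dl D.lam) t + 41 * deriv e.w t) t := fun t =>
    ((e.dl_hasDerivAt D.lam_pos t).const_mul 2).add
      ((((e.rad.smooth.differentiable (by simp)) t).hasDerivAt.const_mul 41).const_add 40)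
  let g : ℝ → Fin P → ℝ := fun t k => c k * p.prim k t
  let Ψm : ℝ → Op d := fun t =>
    Real.exp (e.gain D.lam * (D.lam / 41) * ∑ k, g t k) • wordExp (D.gen e) (g t)
  let A : ℝ → Op d := fun t =>
    ∑ k : Fin P, (c k * p.pulse k t * e.gain D.lam) • ((D.lam / 41) • (1 : Op d) - D.Qs k)
  have hΨm : ∀ t, HasDerivAt Ψm (A t * Ψm t) t := fun t => by
    refine hasDerivAt_scaled_word (D.lam / 41) (e.gain D.lam) D.Qs (g := g)
      (g' := fun k => c k * p.pulse k t)
      (fun k => (CycPar.prim_hasDerivAt (p := p) k t).const_mul (c k)) fun k l hkl hk => ?_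
    have hpk : p.pulse k t ≠ 0 := right_ne_zero_of_mul hk
    have ht : t ∈ Ioo (p.st k) (p.st k + p.width) := by
      by_contra h
      exact hpk (CycPar.pulse_eq_zero hp h)
    have hsep := CycPar.st_sep hp hkl
    simp only [g]
    rw [CycPar.prim_eq_zero (CycPar.width_pos hp).le (by linarith [ht.2, CycPar.width_pos hp]),
      mul_zero]
  have hga : g a = 0 := funext fun k => by
    simp only [g, Pi.zero_apply]
    rw [CycPar.prim_eq_zero (CycPar.width_pos hp).le (by
      linarith [CycPar.st_ge hp k, CycPar.width_pos hp]), mul_zero]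
  have hgs : g s₁ = c := funext fun k => by
    simp only [g]
    rw [CycPar.prim_eq_one (CycPar.width_pos hp) (by linarith [CycPar.st_add_le hp k]), mul_one]
  have hΨa : Ψm a = 1 := by
    simp only [Ψm, hga, wordExp_zero_coeff, Pi.zero_apply, Finset.sum_const_zero, mul_zero,
      Real.exp_zero, one_smul]
  have hΨs : Ψm s₁ = D.scal e c • wordExp (D.gen e) c := by
    simp only [Ψm, hgs, LevelData.scal]
  have hsq : ∀ x : ℝ, 0 ≤ x → x ^ 2 ≤ (η / 2) ^ 2 → x ≤ η / 2 := fun x _ h =>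
    le_of_pow_le_pow_left₀ two_ne_zero (by positivity) h
  have hBn : ‖D.scal e c • wordExp (D.gen e) c‖ ≤ B :=
    (hBw c (mem_closedBall_zero_iff.mpr hc)).trans (le_max_left _ _)
  have hY0' : Y a = (1, D0) := hY0
  have key : ∀ v : Lev d,
      ‖(phiF e D.lam a s₁)⁻¹ • (Y s₁).1 v - (D.scal e c • wordExp (D.gen e) c) v‖ ≤ η * ‖v‖ ∧
      ‖(phiF e D.lam a s₁)⁻¹ • ((Y s₁).2 v - e.dl D.lam s₁ • (Y s₁).1 v)‖ ≤ η * ‖v‖ := by
    intro v
    have hsol := (solOn_apply hY v).mono le_rfl (by linarith [hp.long] : s₁ ≤ p.E')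
    set X : ℝ → Lev d := fun t => (phiF e D.lam a t)⁻¹ • (Y t).1 v
    set Pf : ℝ → Lev d := fun t => (phiF e D.lam a t)⁻¹ • ((Y t).2 v - e.dl D.lam t • (Y t).1 v)
    set γ : ℝ → ℝ := fun u => 2 * e.dl D.lam u + e.bF u
    set z := X a + (γ a)⁻¹ • Pf a
    have hγb : ∀ t, 29 ≤ γ t ∧ γ t ≤ G := fun t => by
      have := e.dl_mem D.lam_pos t
      have := e.dl_pos D.lam_pos t
      have := e.bF_mem t
      simp only [γ, G]
      constructor <;> linarith
    have hT : Transit 29 G (2 * Cμ) a s₁ (Cμ / p.R) (η₁ / p.R) γ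
        (fun t => 2 * deriv (e.dl D.lam) t + 41 * deriv e.w t)
        (fun t => D.lamN e ν c t - (D.lam / e.ρ t ^ 2 + deriv (e.dl D.lam) t) • (1 : Op d)) A
        X Pf (fun t => Ψm t z) :=
      { lt := by simp only [s₁]; linarith
        mu_pos := div_pos (by linarith) hR0
        mu_le := hνμ
        eps_nonneg := by positivity
        eps_le := hνε
        mu_len := le_of_eq (by simp only [s₁]; field_simp; ring)
        dgamma := fun t _ => hγd t
        gamma_bd := fun t _ => hγb t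
        gammad_le := fun t ht => (hνc c hc t ht).1
        ideal_le := fun t ht => (hνc c hc t ht).2.1
        near_le := fun t ht => (hνc c hc t ht).2.2
        dX := fun t ht => (conj_system e D.lam_pos hsol ht).1
        dP := fun t ht => (conj_system e D.lam_pos hsol ht).2
        dPsi := fun t _ => (ContinuousLinearMap.apply ℝ (Lev d) z).hasFDerivAt.comp_hasDerivAt t
          (hΨm t)
        psi_start := by
          show Ψm a z = z
          rw [hΨa]; rfl }
    have hXa : X a = v := by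
      simp [X, phiF, hY0']
    have hPa : Pf a = (D0 - e.dl D.lam a • (1 : Op d)) v := by
      simp [Pf, phiF, hY0']
    have hPn : ‖Pf a‖ ≤ η' * ‖v‖ := by
      rw [hPa]
      exact ((D0 - e.dl D.lam a • (1 : Op d)).le_opNorm v).trans
        (mul_le_mul_of_nonneg_right hD0 (norm_nonneg _))
    have hη'1 : η' ≤ 1 := min_le_left _ _
    have hE₀ : ‖X a‖ ^ 2 + ‖Pf a‖ ^ 2 ≤ 2 * ‖v‖ ^ 2 := by
      rw [hXa]
      have := pow_le_pow_left₀ (norm_nonneg _) (hPn.trans (mul_le_of_le_one_left (norm_nonneg _) hη'1)) 2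
      linarith
    have hTe : transitErr (Cμ / p.R) (η₁ / p.R) (s₁ - a) =
        (Cμ + 1 / 2) / (ν : ℝ) ^ 7 + 2 * η₁ ^ 2 / Cμ := by
      have hR : p.R = (ν : ℝ) ^ 7 := rfl
      rw [← hR]
      simp only [transitErr, s₁]
      field_simp
      ring
    have hT0 : 0 ≤ transitErr (Cμ / p.R) (η₁ / p.R) (s₁ - a) := by
      rw [hTe]; positivity
    have hmain := (hK _ _ _ _ _ _ _ _ _ _ _ hT).trans (mul_le_mul_of_nonneg_left hE₀ (by positivity))
    have hbound : ‖X s₁ - Ψm s₁ z‖ ^ 2 + ‖Pf s₁‖ ^ 2 ≤ (η / 2 * ‖v‖) ^ 2 := by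
      refine hmain.trans ?_
      rw [hTe, mul_pow]
      calc K * ((Cμ + 1 / 2) / (ν : ℝ) ^ 7 + 2 * η₁ ^ 2 / Cμ) * (2 * ‖v‖ ^ 2)
          = 2 * K * ((Cμ + 1 / 2) / (ν : ℝ) ^ 7 + 2 * η₁ ^ 2 / Cμ) * ‖v‖ ^ 2 := by ring
        _ ≤ _ := mul_le_mul_of_nonneg_right hνK (sq_nonneg _)
    have hX1 : ‖X s₁ - Ψm s₁ z‖ ≤ η / 2 * ‖v‖ :=
      le_of_pow_le_pow_left₀ two_ne_zero (by positivity)
        ((le_add_of_nonneg_right (sq_nonneg _)).trans hbound)
    have hP1 : ‖Pf s₁‖ ≤ η / 2 * ‖v‖ :=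
      le_of_pow_le_pow_left₀ two_ne_zero (by positivity)
        ((le_add_of_nonneg_left (sq_nonneg _)).trans hbound)
    refine ⟨?_, hP1.trans (mul_le_mul_of_nonneg_right (by linarith) (norm_nonneg _))⟩
    have e1 : X s₁ - (D.scal e c • wordExp (D.gen e) c) v =
        (X s₁ - Ψm s₁ z) + (D.scal e c • wordExp (D.gen e) c) ((γ a)⁻¹ • Pf a) := by
      rw [hΨs]
      simp only [z, hXa, map_add]
      abel
    show ‖X s₁ - _‖ ≤ _
    rw [e1]
    refine (norm_add_le _ _).trans ?_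
    have h2 : ‖(D.scal e c • wordExp (D.gen e) c) ((γ a)⁻¹ • Pf a)‖ ≤ η / 2 * ‖v‖ := by
      refine ((D.scal e c • wordExp (D.gen e) c).le_opNorm _).trans ?_
      rw [norm_smul (γ a)⁻¹ (Pf a), Real.norm_eq_abs, abs_inv, abs_of_pos (by linarith [(hγb a).1])]
      have hg1 : (γ a)⁻¹ ≤ 1 := inv_le_one_of_one_le₀ (by linarith [(hγb a).1])
      have h3 : (γ a)⁻¹ * ‖Pf a‖ ≤ η / (2 * (B + 1)) * ‖v‖ :=
        (mul_le_of_le_one_left (norm_nonneg _) hg1).trans (hPn.trans
          (mul_le_mul_of_nonneg_right ((min_le_right _ _).trans (min_le_left _ _)) (norm_nonneg _)))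
      refine (mul_le_mul hBn h3 (mul_nonneg (inv_nonneg.mpr (by linarith [(hγb a).1]))
        (norm_nonneg _)) (le_max_right _ _)).trans ?_
      rw [← mul_assoc]
      refine mul_le_mul_of_nonneg_right ?_ (norm_nonneg _)
      have hB0 : 0 ≤ B := le_max_right _ _
      rw [mul_div_assoc', div_le_div_iff₀ (by positivity) two_pos]
      nlinarith
    linarith
  constructor
  · refine ContinuousLinearMap.opNorm_le_bound _ hη.le fun v => ?_
    simpa only [sub_apply, smul_apply] using (key v).1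
  · refine ContinuousLinearMap.opNorm_le_bound _ hη.le fun v => ?_
    simpa only [sub_apply, smul_apply] using (key v).2

end Vale.Agent.P225
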